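import Vale.Agent.P113.CompJ

set_option linter.unusedSectionVars false
set_option linter.unusedVariables false

open Filter Topology Set

namespace Vale.Agent.P113

abbrev Raw := ℕ × ℕ × List Bool × List (List (ℕ × ℕ × ℕ))
abbrev Inp := Raw × List ℕ

def Kc (c : Inp) : ℕ := c.1.1 + c.1.2.1 + 2
def sg (c : Inp) : ℕ := Kc c + 2 * Kc c * Kc c
def Bc (c : Inp) : ℕ := sg c + 1 + Kc c
def bt (c : Inp) : ℕ := 16 * Bc c
def b2 (c : Inp) : ℕ := bt c * bt c
def Dc (c : Inp) : ℕ := 32 * b2 c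
def tab (c : Inp) (q s : ℕ) : ℕ × ℕ × ℕ := (c.1.2.2.2.getD q []).getD s (0, 0, 1)
def hlt (c : Inp) (q : ℕ) : Bool := c.1.2.2.1.getD q false
def jk (c : Inp) (d q s : ℕ) : ℕ := Kc c + (d * Kc c + q) * Kc c + s

/-- outcome: kind (0 go on, 1 turn, 2 stay), new side, new state, deeper digit, top digit -/
def outc (c : Inp) (d q a : ℕ) : ℕ × ℕ × ℕ × ℕ × ℕ :=
  if Kc c ≤ a then (0, d, q, a, sg c)
  else if (tab c q a).2.2 = d then (0, d, (tab c q a).1, (tab c q a).2.1, jk c d q a)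
  else if (tab c q a).2.2 ≤ 1 then (1, (tab c q a).2.2, (tab c q a).1, (tab c q a).2.1, jk c d q a)
  else (2, d, (tab c q a).1, (tab c q a).2.1, jk c d q a)

def lo (c : Inp) (j : ℕ) : ℕ × ℕ × ℕ × ℕ × ℕ :=
  outc c (j / b2 c) ((j / bt c) % bt c - (sg c + 1)) (j % bt c)

def gk (side : ℕ) (c : Inp) (k : ℕ) : Rep :=
  if k / 2 / bt c ≤ sg c then (0, 0, 0)
  else bif hlt c (k / 2 / bt c - (sg c + 1)) then (1, 0, 1) else (side * b2 c + k / 2, 0, Dc c - 1)

def gk' (side : ℕ) (c : Inp) (k : ℕ) : Rep :=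
  if k / 2 / bt c ≤ sg c then
    (if k / 2 / bt c = sg c then (0, (1 - side) * b2 c + k / 2 % bt c, Dc c - 1)
    else ((sg c + 1 + (tab c ((k / 2 / bt c - Kc c) / Kc c % Kc c) ((k / 2 / bt c - Kc c) % Kc c)).1) * bt c,
      (k / 2 / bt c - Kc c) / Kc c / Kc c * b2 c + (sg c + 1 + (k / 2 / bt c - Kc c) / Kc c % Kc c) * bt c
        + (k / 2 / bt c - Kc c) % Kc c, Dc c - 1))
  else (0, k / 2 / bt c * bt c, Dc c - 1)

def gC (side : ℕ) (c : Inp) (j : ℕ) : Rep :=
  if j / b2 c = side then (0, j % b2 c, b2 c - 1) else (0, 0, 0)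

def gA1 (c : Inp) (j : ℕ) : Rep :=
  if j / b2 c = 0 then (if (lo c j).1 = 0 then (1, bt c, bt c - 1) else (0, 0, 0))
  else (if (lo c j).1 = 0 then (b2 c, 1, 0) else (bt c, 1, 0))

def gA2 (c : Inp) (j : ℕ) : Rep :=
  if j / b2 c = 0 then (if (lo c j).1 = 0 then (bt c, 1, 0) else (0, 0, 0))
  else (if (lo c j).1 = 0 then (1, b2 c, b2 c - 1) else (1, bt c, bt c - 1))

def gA3 (c : Inp) (j : ℕ) : Rep :=
  if j / b2 c = 0 then (if (lo c j).1 = 0 then (0, 1, bt c - 1) else (0, 1, 0))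
  else (if (lo c j).1 = 0 then (0, b2 c, 0) else (0, bt c, 0))

def gD (side : ℕ) (c : Inp) (j : ℕ) : Rep :=
  if (lo c j).1 = 2 then
    (if (lo c j).2.1 = side then ((sg c + 1 + (lo c j).2.2.1) * bt c + (lo c j).2.2.2.1, 0, b2 c - 1)
    else ((lo c j).2.2.2.2, 0, bt c - 1))
  else
    (if (lo c j).2.1 = side then (sg c + 1 + (lo c j).2.2.1, 0, bt c - 1)
    else ((lo c j).2.2.2.2 * bt c + (lo c j).2.2.2.1, 0, b2 c - 1))

def he (c : Inp) (k : ℕ) : Rep := if k % 8 ≤ 3 then (k % 8, 0, 15) else (k % 8, 8, 15)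
def ho (c : Inp) (k : ℕ) : Rep := if k % 8 ≤ 3 then (2 * (k % 8) + 1, 0, 31) else (2 * (k % 8), 15, 31)

/-- numerator and denominator of the encoding of a list of digits -/
def encF (b : ℕ) (l : List ℕ) : ℕ × ℕ := l.foldr (fun a z => (a * z.2 + z.1, b * z.2)) (0, 1)

def y0 (c : Inp) : Rep :=
  ((encF (bt c) ((sg c + 1) :: c.2)).1, 0, (encF (bt c) ((sg c + 1) :: c.2)).2 - 1)

structure Fac where
  γ : Inp → ℕ → Rep
  N : Inp → ℕ
  h2 : ℕ

def cst (r : Inp → Rep) : Fac := ⟨fun c _ => r c, fun _ => 0, 0⟩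
def one : Fac := cst fun _ => (1, 0, 0)
def linE (N : Inp → ℕ) : Fac := ⟨he, fun c => 8 * N c, 0⟩
def linO (N : Inp → ℕ) : Fac := ⟨ho, fun c => 8 * N c, 1⟩
def u1 : Inp → ℕ := fun _ => 1

/-- a term: direction and three factors -/
abbrev Tm := Fin 3 × (Fin 3 → Fac)

def tm : Fin 12 → Fin 2 → Tm :=
  ![![(2, ![⟨gk 0, fun c => 2 * b2 c, 0⟩, one, one]), (2, ![one, ⟨gk 1, fun c => 2 * b2 c, 0⟩, one])],
    ![(0, ![one, one, ⟨gC 0, Dc, 0⟩]), (1, ![one, one, ⟨gC 1, Dc, 0⟩])],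
    ![(2, ![cst fun c => (1, 0, Dc c - 1), linE u1, one]), (2, ![cst fun c => (1, 0, Dc c - 1), linO u1, one])],
    ![(1, ![cst fun c => (1, bt c, bt c - 1), one, linE Dc]), (1, ![cst fun c => (1, bt c, bt c - 1), one, linO Dc])],
    ![(2, ![cst fun c => (0, bt c, Dc c - 1), linE u1, one]), (2, ![cst fun c => (0, bt c, Dc c - 1), linO u1, one])],
    ![(0, ![one, linE u1, ⟨gA1, Dc, 0⟩]), (0, ![one, linO u1, ⟨gA1, Dc, 0⟩])],
    ![(1, ![linE u1, one, one]), (1, ![linO u1, one, one])],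
    ![(0, ![one, linE u1, ⟨gA2, Dc, 0⟩]), (0, ![one, linO u1, ⟨gA2, Dc, 0⟩])],
    ![(1, ![linE u1, one, ⟨gA3, Dc, 0⟩]), (1, ![linO u1, one, ⟨gA3, Dc, 0⟩])],
    ![(0, ![one, one, ⟨gD 0, Dc, 0⟩]), (1, ![one, one, ⟨gD 1, Dc, 0⟩])],
    ![(2, ![⟨gk' 0, fun c => 2 * b2 c, 0⟩, one, one]), (2, ![one, ⟨gk' 1, fun c => 2 * b2 c, 0⟩, one])],
    ![(1, ![cst y0, one, one]), (1, ![cst fun _ => (0, 0, 0), one, one])]]

/-- index of the shear active during `[s, s+1]` -/
def sl (s : ℕ) : ℕ := if s = 0 then 11 else (s - 1) % 11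

def tau (i : ℕ) (k : ℕ) : Rep := if k % 2 = 1 then (if sl (k / 2) = i then (2, 0, 0) else (0, 0, 0)) else (0, 0, 0)

/-! primitive recursiveness -/

variable {α : Type} [Primcodable α]

theorem pr_Kc : Primrec Kc :=
  pr_add (pr_add (Primrec.fst.comp Primrec.fst) (Primrec.fst.comp (Primrec.snd.comp Primrec.fst))) (Primrec.const 2)
theorem pr_sg : Primrec sg := pr_add pr_Kc (pr_mul (pr_mul (Primrec.const 2) pr_Kc) pr_Kc)
theorem pr_Bc : Primrec Bc := pr_add (pr_add pr_sg (Primrec.const 1)) pr_Kc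
theorem pr_bt : Primrec bt := pr_mul (Primrec.const 16) pr_Bc
theorem pr_b2 : Primrec b2 := pr_mul pr_bt pr_bt
theorem pr_Dc : Primrec Dc := pr_mul (Primrec.const 32) pr_b2

theorem pr_tab {c : α → Inp} {q s : α → ℕ} (hc : Primrec c) (hq : Primrec q) (hs : Primrec s) :
    Primrec fun a => tab (c a) (q a) (s a) :=
  (Primrec.list_getD ((0, 0, 1) : ℕ × ℕ × ℕ)).comp
    ((Primrec.list_getD ([] : List (ℕ × ℕ × ℕ))).comp
      (Primrec.snd.comp (Primrec.snd.comp (Primrec.snd.comp (Primrec.fst.comp hc)))) hq) hs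

theorem pr_hlt {c : α → Inp} {q : α → ℕ} (hc : Primrec c) (hq : Primrec q) :
    Primrec fun a => hlt (c a) (q a) :=
  (Primrec.list_getD false).comp
      (Primrec.fst.comp (Primrec.snd.comp (Primrec.snd.comp (Primrec.fst.comp hc)))) hq

theorem pr_jk {c : α → Inp} {d q s : α → ℕ} (hc : Primrec c) (hd : Primrec d) (hq : Primrec q) (hs : Primrec s) :
    Primrec fun a => jk (c a) (d a) (q a) (s a) :=
  pr_add (pr_add (pr_Kc.comp hc) (pr_mul (pr_add (pr_mul hd (pr_Kc.comp hc)) hq) (pr_Kc.comp hc))) hs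

theorem pr_outc {c : α → Inp} {d q s : α → ℕ} (hc : Primrec c) (hd : Primrec d) (hq : Primrec q) (hs : Primrec s) :
    Primrec fun a => outc (c a) (d a) (q a) (s a) := by
  have ht := pr_tab hc hq hs
  have hmv := Primrec.snd.comp (Primrec.snd.comp ht)
  have hrest := (Primrec.fst.comp ht).pair ((Primrec.fst.comp (Primrec.snd.comp ht)).pair (pr_jk hc hd hq hs))
  exact Primrec.ite (Primrec.nat_le.comp (pr_Kc.comp hc) hs)
    ((Primrec.const 0).pair (hd.pair (hq.pair (hs.pair (pr_sg.comp hc)))))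
    (Primrec.ite (Primrec.eq.comp hmv hd) ((Primrec.const 0).pair (hd.pair hrest))
      (Primrec.ite (Primrec.nat_le.comp hmv (Primrec.const 1)) ((Primrec.const 1).pair (hmv.pair hrest))
        ((Primrec.const 2).pair (hd.pair hrest))))

theorem pr_lo : Primrec₂ lo := by
  have hc : Primrec fun p : Inp × ℕ => p.1 := Primrec.fst
  have hj : Primrec fun p : Inp × ℕ => p.2 := Primrec.snd
  exact pr_outc hc (pr_div hj (pr_b2.comp hc))
    (pr_sub (pr_mod (pr_div hj (pr_bt.comp hc)) (pr_bt.comp hc)) (pr_add (pr_sg.comp hc) (Primrec.const 1)))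
    (pr_mod hj (pr_bt.comp hc))

theorem pr_gk (side : ℕ) : Primrec₂ (gk side) := by
  have hc : Primrec fun p : Inp × ℕ => p.1 := Primrec.fst
  have hk : Primrec fun p : Inp × ℕ => p.2 := Primrec.snd
  have hj := pr_div hk (Primrec.const 2)
  have ha := pr_div hj (pr_bt.comp hc)
  have hs := pr_sg.comp hc
  exact Primrec.ite (Primrec.nat_le.comp ha hs) (Primrec.const (0,0,0))
    (Primrec.cond (pr_hlt hc (pr_sub ha (pr_add hs (Primrec.const 1)))) (Primrec.const (1,0,1))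
      ((pr_add (pr_mul (Primrec.const side) (pr_b2.comp hc)) hj).pair
        ((Primrec.const 0).pair (pr_sub (pr_Dc.comp hc) (Primrec.const 1)))))

theorem pr_gk' (side : ℕ) : Primrec₂ (gk' side) := by
  have hc : Primrec fun p : Inp × ℕ => p.1 := Primrec.fst
  have hk : Primrec fun p : Inp × ℕ => p.2 := Primrec.snd
  have hj := pr_div hk (Primrec.const 2)
  have hb := pr_bt.comp hc
  have hb2 := pr_b2.comp hc
  have hK := pr_Kc.comp hc
  have ha := pr_div hj hb
  have hs := pr_sg.comp hc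
  have hs1 := pr_add hs (Primrec.const 1)
  have hD := pr_sub (pr_Dc.comp hc) (Primrec.const 1)
  have hr := pr_sub ha hK
  have hq := pr_mod (pr_div hr hK) hK
  have hss := pr_mod hr hK
  have hd := pr_div (pr_div hr hK) hK
  exact Primrec.ite (Primrec.nat_le.comp ha hs)
    (Primrec.ite (Primrec.eq.comp ha hs)
      ((Primrec.const 0).pair ((pr_add (pr_mul (Primrec.const (1-side)) hb2) (pr_mod hj hb)).pair hD))
      ((pr_mul (pr_add hs1 (Primrec.fst.comp (pr_tab hc hq hss))) hb).pair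
        ((pr_add (pr_add (pr_mul hd hb2) (pr_mul (pr_add hs1 hq) hb)) hss).pair hD)))
    ((Primrec.const 0).pair ((pr_mul ha hb).pair hD))

theorem pr_gC (side : ℕ) : Primrec₂ (gC side) := by
  have hc : Primrec fun p : Inp × ℕ => p.1 := Primrec.fst
  have hj : Primrec fun p : Inp × ℕ => p.2 := Primrec.snd
  have hb2 := pr_b2.comp hc
  exact Primrec.ite (Primrec.eq.comp (pr_div hj hb2) (Primrec.const side))
    ((Primrec.const 0).pair ((pr_mod hj hb2).pair (pr_sub hb2 (Primrec.const 1)))) (Primrec.const (0,0,0))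

theorem pr_gA1 : Primrec₂ gA1 := by
  have hc : Primrec fun p : Inp × ℕ => p.1 := Primrec.fst
  have hj : Primrec fun p : Inp × ℕ => p.2 := Primrec.snd
  have hb := pr_bt.comp hc
  have hb2 := pr_b2.comp hc
  have hl := Primrec.fst.comp (pr_lo.comp hc hj)
  have p0 := Primrec.eq.comp hl (Primrec.const 0)
  exact Primrec.ite (Primrec.eq.comp (pr_div hj hb2) (Primrec.const 0))
    (Primrec.ite p0 ((Primrec.const 1).pair (hb.pair (pr_sub hb (Primrec.const 1)))) (Primrec.const (0,0,0)))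
    (Primrec.ite p0 (hb2.pair (Primrec.const (1,0))) (hb.pair (Primrec.const (1,0))))

theorem pr_gA2 : Primrec₂ gA2 := by
  have hc : Primrec fun p : Inp × ℕ => p.1 := Primrec.fst
  have hj : Primrec fun p : Inp × ℕ => p.2 := Primrec.snd
  have hb := pr_bt.comp hc
  have hb2 := pr_b2.comp hc
  have hl := Primrec.fst.comp (pr_lo.comp hc hj)
  have p0 := Primrec.eq.comp hl (Primrec.const 0)
  exact Primrec.ite (Primrec.eq.comp (pr_div hj hb2) (Primrec.const 0))
    (Primrec.ite p0 (hb.pair (Primrec.const (1,0))) (Primrec.const (0,0,0)))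
    (Primrec.ite p0 ((Primrec.const 1).pair (hb2.pair (pr_sub hb2 (Primrec.const 1))))
      ((Primrec.const 1).pair (hb.pair (pr_sub hb (Primrec.const 1)))))

theorem pr_gA3 : Primrec₂ gA3 := by
  have hc : Primrec fun p : Inp × ℕ => p.1 := Primrec.fst
  have hj : Primrec fun p : Inp × ℕ => p.2 := Primrec.snd
  have hb := pr_bt.comp hc
  have hb2 := pr_b2.comp hc
  have hl := Primrec.fst.comp (pr_lo.comp hc hj)
  have p0 := Primrec.eq.comp hl (Primrec.const 0)
  exact Primrec.ite (Primrec.eq.comp (pr_div hj hb2) (Primrec.const 0))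
    (Primrec.ite p0 ((Primrec.const 0).pair ((Primrec.const 1).pair (pr_sub hb (Primrec.const 1)))) (Primrec.const (0,1,0)))
    (Primrec.ite p0 ((Primrec.const 0).pair (hb2.pair (Primrec.const 0)))
      ((Primrec.const 0).pair (hb.pair (Primrec.const 0))))

theorem pr_gD (side : ℕ) : Primrec₂ (gD side) := by
  have hc : Primrec fun p : Inp × ℕ => p.1 := Primrec.fst
  have hj : Primrec fun p : Inp × ℕ => p.2 := Primrec.snd
  have hb := pr_bt.comp hc
  have hb2 := pr_b2.comp hc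
  have hl := pr_lo.comp hc hj
  have hs1 := pr_add (pr_sg.comp hc) (Primrec.const 1)
  have ty := Primrec.fst.comp hl
  have nd := Primrec.fst.comp (Primrec.snd.comp hl)
  have nq := Primrec.fst.comp (Primrec.snd.comp (Primrec.snd.comp hl))
  have c1 := Primrec.fst.comp (Primrec.snd.comp (Primrec.snd.comp (Primrec.snd.comp hl)))
  have c2 := Primrec.snd.comp (Primrec.snd.comp (Primrec.snd.comp (Primrec.snd.comp hl)))
  have b1' := (Primrec.const 0).pair (pr_sub hb (Primrec.const 1))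
  have b2' := (Primrec.const 0).pair (pr_sub hb2 (Primrec.const 1))
  exact Primrec.ite (Primrec.eq.comp ty (Primrec.const 2))
    (Primrec.ite (Primrec.eq.comp nd (Primrec.const side)) ((pr_add (pr_mul (pr_add hs1 nq) hb) c1).pair b2') (c2.pair b1'))
    (Primrec.ite (Primrec.eq.comp nd (Primrec.const side)) ((pr_add hs1 nq).pair b1') ((pr_add (pr_mul c2 hb) c1).pair b2'))

theorem pr_he : Primrec₂ he := by
  have hk : Primrec fun p : Inp × ℕ => p.2 % 8 := pr_mod Primrec.snd (Primrec.const 8)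
  exact Primrec.ite (Primrec.nat_le.comp hk (Primrec.const 3)) (hk.pair (Primrec.const (0,15))) (hk.pair (Primrec.const (8,15)))

theorem pr_ho : Primrec₂ ho := by
  have hk : Primrec fun p : Inp × ℕ => p.2 % 8 := pr_mod Primrec.snd (Primrec.const 8)
  exact Primrec.ite (Primrec.nat_le.comp hk (Primrec.const 3))
    ((pr_add (pr_mul (Primrec.const 2) hk) (Primrec.const 1)).pair (Primrec.const (0,31)))
    ((pr_mul (Primrec.const 2) hk).pair (Primrec.const (15,31)))

theorem pr_encF : Primrec₂ encF := by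
  have h1 : Primrec fun w : (ℕ × List ℕ) × (ℕ × (ℕ × ℕ)) => w.2.1 := Primrec.fst.comp Primrec.snd
  have h2 : Primrec fun w : (ℕ × List ℕ) × (ℕ × (ℕ × ℕ)) => w.2.2.1 := Primrec.fst.comp (Primrec.snd.comp Primrec.snd)
  have h3 : Primrec fun w : (ℕ × List ℕ) × (ℕ × (ℕ × ℕ)) => w.2.2.2 := Primrec.snd.comp (Primrec.snd.comp Primrec.snd)
  have hb : Primrec fun w : (ℕ × List ℕ) × (ℕ × (ℕ × ℕ)) => w.1.1 := Primrec.fst.comp Primrec.fst
  have hh : Primrec₂ fun (p : ℕ × List ℕ) (w : ℕ × (ℕ × ℕ)) => (w.1 * w.2.2 + w.2.1, p.1 * w.2.2) :=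
    (pr_add (pr_mul h1 h3) h2).pair (pr_mul hb h3)
  exact Primrec.list_foldr (f := fun p : ℕ × List ℕ => p.2) (g := fun _ => ((0, 1) : ℕ × ℕ))
    (h := fun (p : ℕ × List ℕ) (w : ℕ × (ℕ × ℕ)) => (w.1 * w.2.2 + w.2.1, p.1 * w.2.2))
    Primrec.snd (Primrec.const (0,1)) hh

theorem pr_y0 : Primrec y0 := by
  have hl : Primrec fun c : Inp => (sg c + 1) :: c.2 :=
    Primrec.list_cons.comp (pr_add pr_sg (Primrec.const 1)) Primrec.snd
  have he : Primrec fun c : Inp => encF (bt c) ((sg c + 1) :: c.2) := pr_encF.comp pr_bt hl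
  exact (Primrec.fst.comp he).pair ((Primrec.const 0).pair (pr_sub (Primrec.snd.comp he) (Primrec.const 1)))

theorem pr_tau (i : ℕ) : Primrec (tau i) := by
  have hk : Primrec fun k : ℕ => k / 2 := pr_div Primrec.id (Primrec.const 2)
  have hsl : Primrec fun k : ℕ => sl (k/2) :=
    Primrec.ite (Primrec.eq.comp hk (Primrec.const 0)) (Primrec.const 11)
      (pr_mod (pr_sub hk (Primrec.const 1)) (Primrec.const 11))
  exact Primrec.ite (Primrec.eq.comp (pr_mod Primrec.id (Primrec.const 2)) (Primrec.const 1))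
    (Primrec.ite (Primrec.eq.comp hsl (Primrec.const i)) (Primrec.const (2,0,0)) (Primrec.const (0,0,0)))
    (Primrec.const (0,0,0))

/-- good factors -/
structure Good (φ : Fac) : Prop where
  hγ : Primrec₂ φ.γ
  hN : Primrec φ.N
  hh : ∀ c, φ.h2 ≤ 2 * φ.N c

theorem good_cst {r : Inp → Rep} (hr : Primrec r) : Good (cst r) :=
  ⟨hr.comp Primrec.fst, Primrec.const 0, fun _ => Nat.zero_le _⟩

theorem bt_pos (c : Inp) : 0 < bt c := by unfold bt Bc; omega
theorem b2_pos (c : Inp) : 0 < b2 c := Nat.mul_pos (bt_pos c) (bt_pos c)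
theorem Dc_pos (c : Inp) : 0 < Dc c := by have := b2_pos c; unfold Dc; omega

theorem good_one : Good one := good_cst (Primrec.const _)
theorem good_linE {N : Inp → ℕ} (hN : Primrec N) : Good (linE N) :=
  ⟨pr_he, pr_mul (Primrec.const 8) hN, fun _ => Nat.zero_le _⟩
theorem good_linO {N : Inp → ℕ} (hN : Primrec N) (h : ∀ c, 0 < N c) : Good (linO N) :=
  ⟨pr_ho, pr_mul (Primrec.const 8) hN, fun c => by have := h c; simp only [linO]; omega⟩

theorem good_tm (i : Fin 12) (b : Fin 2) (j : Fin 3) : Good ((tm i b).2 j) := by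
  have g1 : Good (cst fun c => (1, 0, Dc c - 1)) :=
    good_cst ((Primrec.const 1).pair ((Primrec.const 0).pair (pr_sub pr_Dc (Primrec.const 1))))
  have g2 : Good (cst fun c => (1, bt c, bt c - 1)) :=
    good_cst ((Primrec.const 1).pair (pr_bt.pair (pr_sub pr_bt (Primrec.const 1))))
  have g3 : Good (cst fun c => (0, bt c, Dc c - 1)) :=
    good_cst ((Primrec.const 0).pair (pr_bt.pair (pr_sub pr_Dc (Primrec.const 1))))
  have g4 : Good (cst y0) := good_cst pr_y0
  have g5 : Good (cst fun _ => (0, 0, 0)) := good_cst (Primrec.const _)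
  have g6 := good_one
  have g7 : Good (linE u1) := good_linE (Primrec.const 1)
  have g8 : Good (linO u1) := good_linO (Primrec.const 1) (fun _ => one_pos)
  have g9 : Good (linE Dc) := good_linE pr_Dc
  have g10 : Good (linO Dc) := good_linO pr_Dc Dc_pos
  have h0 : ∀ side, Good ⟨gk side, fun c => 2 * b2 c, 0⟩ := fun side => ⟨pr_gk side, pr_mul (Primrec.const 2) pr_b2, fun _ => Nat.zero_le _⟩
  have h0' : ∀ side, Good ⟨gk' side, fun c => 2 * b2 c, 0⟩ := fun side => ⟨pr_gk' side, pr_mul (Primrec.const 2) pr_b2, fun _ => Nat.zero_le _⟩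
  have h1 : ∀ side, Good ⟨gC side, Dc, 0⟩ := fun side => ⟨pr_gC side, pr_Dc, fun _ => Nat.zero_le _⟩
  have h2 : ∀ side, Good ⟨gD side, Dc, 0⟩ := fun side => ⟨pr_gD side, pr_Dc, fun _ => Nat.zero_le _⟩
  have h3 : Good ⟨gA1, Dc, 0⟩ := ⟨pr_gA1, pr_Dc, fun _ => Nat.zero_le _⟩
  have h4 : Good ⟨gA2, Dc, 0⟩ := ⟨pr_gA2, pr_Dc, fun _ => Nat.zero_le _⟩
  have h5 : Good ⟨gA3, Dc, 0⟩ := ⟨pr_gA3, pr_Dc, fun _ => Nat.zero_le _⟩
  fin_cases i <;> fin_cases b <;> fin_cases j <;>
    first | exact g6 | exact g7 | exact g8 | exact g1 | exact g2 | exact g3 | exact g4 | exact g5 | exact g9 | exact g10 | exact h0 _ | exact h0' _ | exact h1 _ | exact h2 _ | exact h3 | exact h4 | exact h5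

theorem cst_tm (i : Fin 12) (b b' : Fin 2) : ∃ r, (tm i b').2 (tm i b).1 = cst r := by
  fin_cases i <;> fin_cases b <;> fin_cases b' <;> exact ⟨_, rfl⟩

end Vale.Agent.P113
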