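import Vale.Agent.P113.SApprox

set_option linter.unusedSectionVars false
set_option linter.unusedVariables false

open Filter Topology Set

namespace Vale.Agent.P113

abbrev Rep := ℕ × ℕ × ℕ

noncomputable def rv (r : Rep) : ℝ := ((r.1:ℝ) - r.2.1) / (r.2.2 + 1)

def radd (r s : Rep) : Rep :=
  (r.1*(s.2.2+1)+s.1*(r.2.2+1), r.2.1*(s.2.2+1)+s.2.1*(r.2.2+1), (r.2.2+1)*(s.2.2+1)-1)

def rmul (r s : Rep) : Rep :=
  (r.1*s.1+r.2.1*s.2.1, r.1*s.2.1+r.2.1*s.1, (r.2.2+1)*(s.2.2+1)-1)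

theorem den_cast (a b : ℕ) : (((a+1)*(b+1)-1 : ℕ) : ℝ) + 1 = ((a:ℝ)+1)*((b:ℝ)+1) := by
  rw [Nat.cast_sub (Nat.succ_le_of_lt (by positivity))]
  push_cast; ring

theorem rv_radd (r s : Rep) : rv (radd r s) = rv r + rv s := by
  unfold rv radd
  simp only
  rw [den_cast]
  push_cast
  field_simp
  ring

theorem rv_rmul (r s : Rep) : rv (rmul r s) = rv r * rv s := by
  unfold rv rmul
  simp only
  rw [den_cast]
  push_cast
  field_simp
  ring

theorem pr_add {α} [Primcodable α] {f g : α → ℕ} (hf : Primrec f) (hg : Primrec g) :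
    Primrec fun a => f a + g a := Primrec.nat_add.comp hf hg
theorem pr_mul {α} [Primcodable α] {f g : α → ℕ} (hf : Primrec f) (hg : Primrec g) :
    Primrec fun a => f a * g a := Primrec.nat_mul.comp hf hg
theorem pr_sub {α} [Primcodable α] {f g : α → ℕ} (hf : Primrec f) (hg : Primrec g) :
    Primrec fun a => f a - g a := Primrec.nat_sub.comp hf hg
theorem pr_div {α} [Primcodable α] {f g : α → ℕ} (hf : Primrec f) (hg : Primrec g) :
    Primrec fun a => f a / g a := Primrec.nat_div.comp hf hg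
theorem pr_mod {α} [Primcodable α] {f g : α → ℕ} (hf : Primrec f) (hg : Primrec g) :
    Primrec fun a => f a % g a := Primrec.nat_mod.comp hf hg
theorem pr_pow {α} [Primcodable α] {f g : α → ℕ} (hf : Primrec f) (hg : Primrec g) :
    Primrec fun a => f a ^ g a :=
  (Primrec₂.unpaired'.1 Nat.Primrec.pow).comp hf hg

theorem pr_radd : Primrec₂ radd := by
  have a1 : Primrec fun p : Rep × Rep => p.1.1 := Primrec.fst.comp Primrec.fst
  have a2 : Primrec fun p : Rep × Rep => p.1.2.1 := Primrec.fst.comp (Primrec.snd.comp Primrec.fst)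
  have a3 : Primrec fun p : Rep × Rep => p.1.2.2 := Primrec.snd.comp (Primrec.snd.comp Primrec.fst)
  have b1 : Primrec fun p : Rep × Rep => p.2.1 := Primrec.fst.comp Primrec.snd
  have b2 : Primrec fun p : Rep × Rep => p.2.2.1 := Primrec.fst.comp (Primrec.snd.comp Primrec.snd)
  have b3 : Primrec fun p : Rep × Rep => p.2.2.2 := Primrec.snd.comp (Primrec.snd.comp Primrec.snd)
  have c := Primrec.const (α := Rep × Rep) 1
  exact (pr_add (pr_mul a1 (pr_add b3 c)) (pr_mul b1 (pr_add a3 c))).pair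
    ((pr_add (pr_mul a2 (pr_add b3 c)) (pr_mul b2 (pr_add a3 c))).pair
      (pr_sub (pr_mul (pr_add a3 c) (pr_add b3 c)) c))

theorem pr_rmul : Primrec₂ rmul := by
  have a1 : Primrec fun p : Rep × Rep => p.1.1 := Primrec.fst.comp Primrec.fst
  have a2 : Primrec fun p : Rep × Rep => p.1.2.1 := Primrec.fst.comp (Primrec.snd.comp Primrec.fst)
  have a3 : Primrec fun p : Rep × Rep => p.1.2.2 := Primrec.snd.comp (Primrec.snd.comp Primrec.fst)
  have b1 : Primrec fun p : Rep × Rep => p.2.1 := Primrec.fst.comp Primrec.snd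
  have b2 : Primrec fun p : Rep × Rep => p.2.2.1 := Primrec.fst.comp (Primrec.snd.comp Primrec.snd)
  have b3 : Primrec fun p : Rep × Rep => p.2.2.2 := Primrec.snd.comp (Primrec.snd.comp Primrec.snd)
  have c := Primrec.const (α := Rep × Rep) 1
  exact (pr_add (pr_mul a1 b1) (pr_mul a2 b2)).pair
    ((pr_add (pr_mul a1 b2) (pr_mul a2 b1)).pair
      (pr_sub (pr_mul (pr_add a3 c) (pr_add b3 c)) c))

/-- computable real valued functions -/
def CR {α : Type} [Primcodable α] (g : α → ℝ) : Prop :=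
  ∃ h : α → ℕ → Rep, Computable₂ h ∧ ∀ a n, |g a - rv (h a n)| ≤ 1/((n:ℝ)+1)

variable {α β : Type} [Primcodable α] [Primcodable β]

theorem CR.congr {g g' : α → ℝ} (h : CR g) (e : ∀ a, g a = g' a) : CR g' := by
  have : g = g' := funext e
  rwa [← this]

theorem CR.of_rep {r : α → Rep} (hr : Computable r) : CR (fun a => rv (r a)) :=
  ⟨fun a _ => r a, hr.comp Computable.fst, fun a n => by simp; positivity⟩

theorem CR.comp {g : β → ℝ} (hg : CR g) {k : α → β} (hk : Computable k) : CR (fun a => g (k a)) := by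
  obtain ⟨h, hc, hb⟩ := hg
  exact ⟨fun a n => h (k a) n, hc.comp (hk.comp Computable.fst) Computable.snd, fun a n => hb _ _⟩

theorem CR.add {f g : α → ℝ} (hf : CR f) (hg : CR g) : CR (fun a => f a + g a) := by
  obtain ⟨h1, c1, b1⟩ := hf
  obtain ⟨h2, c2, b2⟩ := hg
  have cN : Computable fun p : α × ℕ => 2*p.2+1 := (pr_add (pr_mul (Primrec.const 2) Primrec.snd) (Primrec.const 1)).to_comp
  refine ⟨fun a n => radd (h1 a (2*n+1)) (h2 a (2*n+1)), ?_, ?_⟩
  · exact pr_radd.to_comp.comp (c1.comp Computable.fst cN) (c2.comp Computable.fst cN)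
  · intro a n
    rw [rv_radd]
    have e1 := b1 a (2*n+1)
    have e2 := b2 a (2*n+1)
    have e3 : f a + g a - (rv (h1 a (2*n+1)) + rv (h2 a (2*n+1))) = (f a - rv (h1 a (2*n+1))) + (g a - rv (h2 a (2*n+1))) := by ring
    rw [e3]
    refine (abs_add_le _ _).trans ?_
    have e4 : 1/(((2*n+1:ℕ):ℝ)+1) + 1/(((2*n+1:ℕ):ℝ)+1) = 1/((n:ℝ)+1) := by
      push_cast; field_simp; ring
    linarith

theorem rv_abs_le (r : Rep) : |rv r| ≤ (r.1:ℝ) + r.2.1 := by
  unfold rv
  rw [abs_div]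
  have h1 : |((r.1:ℝ) - r.2.1)| ≤ (r.1:ℝ) + r.2.1 := by
    rw [abs_le]
    have := Nat.cast_nonneg (α := ℝ) r.1
    have := Nat.cast_nonneg (α := ℝ) r.2.1
    constructor <;> linarith
  have h3 : (1:ℝ) ≤ |((r.2.2:ℝ) + 1)| := by
    rw [abs_of_nonneg (by positivity)]
    have := Nat.cast_nonneg (α := ℝ) r.2.2
    linarith
  exact (div_le_self (abs_nonneg _) h3).trans h1

theorem CR.mul {f g : α → ℝ} (hf : CR f) (hg : CR g) : CR (fun a => f a * g a) := by
  obtain ⟨h1, c1, b1⟩ := hf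
  obtain ⟨h2, c2, b2⟩ := hg
  set B : α → ℕ := fun a => (h1 a 0).1 + (h1 a 0).2.1 + ((h2 a 0).1 + (h2 a 0).2.1) + 3 with hB
  have cB : Computable B := by
    have p1 : Primrec fun p : Rep × Rep => p.1.1 + p.1.2.1 + (p.2.1 + p.2.2.1) + 3 := by
      have a1 : Primrec fun p : Rep × Rep => p.1.1 := Primrec.fst.comp Primrec.fst
      have a2 : Primrec fun p : Rep × Rep => p.1.2.1 := Primrec.fst.comp (Primrec.snd.comp Primrec.fst)
      have b1 : Primrec fun p : Rep × Rep => p.2.1 := Primrec.fst.comp Primrec.snd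
      have b2 : Primrec fun p : Rep × Rep => p.2.2.1 := Primrec.fst.comp (Primrec.snd.comp Primrec.snd)
      exact pr_add (pr_add (pr_add a1 a2) (pr_add b1 b2)) (Primrec.const 3)
    have d1 : Computable fun a => h1 a 0 := c1.comp Computable.id (Computable.const 0)
    have d2 : Computable fun a => h2 a 0 := c2.comp Computable.id (Computable.const 0)
    exact p1.to_comp.comp (d1.pair d2)
  have cN : Computable fun p : α × ℕ => 2*B p.1*(p.2+1) := by
    have p1 : Primrec fun p : ℕ × ℕ => 2*p.1*(p.2+1) :=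
      pr_mul (pr_mul (Primrec.const 2) Primrec.fst) (pr_add Primrec.snd (Primrec.const 1))
    exact p1.to_comp.comp ((cB.comp Computable.fst).pair Computable.snd)
  refine ⟨fun a n => rmul (h1 a (2*B a*(n+1))) (h2 a (2*B a*(n+1))), ?_, ?_⟩
  · exact pr_rmul.to_comp.comp (c1.comp Computable.fst cN) (c2.comp Computable.fst cN)
  · intro a n
    rw [rv_rmul]
    set N := 2*B a*(n+1) with hN
    have e1 := b1 a N
    have e2 := b2 a N
    have f0 := b1 a 0
    have g0 := b2 a 0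
    have r1 := rv_abs_le (h1 a 0)
    have r2 := rv_abs_le (h2 a 0)
    have hBr : (B a : ℝ) = (h1 a 0).1 + (h1 a 0).2.1 + ((h2 a 0).1 + (h2 a 0).2.1) + 3 := by
      simp [hB]
    have p1 := Nat.cast_nonneg (α := ℝ) (h1 a 0).1
    have p2 := Nat.cast_nonneg (α := ℝ) (h1 a 0).2.1
    have p3 := Nat.cast_nonneg (α := ℝ) (h2 a 0).1
    have p4 := Nat.cast_nonneg (α := ℝ) (h2 a 0).2.1
    have hf : |f a| ≤ (B a : ℝ) - 1 := by
      have : |f a| ≤ |rv (h1 a 0)| + |f a - rv (h1 a 0)| := by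
        have := abs_add_le (rv (h1 a 0)) (f a - rv (h1 a 0))
        rwa [add_sub_cancel] at this
      norm_num at f0
      linarith
    have hg : |g a| ≤ (B a : ℝ) - 2 := by
      have : |g a| ≤ |rv (h2 a 0)| + |g a - rv (h2 a 0)| := by
        have := abs_add_le (rv (h2 a 0)) (g a - rv (h2 a 0))
        rwa [add_sub_cancel] at this
      norm_num at g0
      linarith
    have hNpos : (0:ℝ) < (N:ℝ) + 1 := by positivity
    have hone : 1/((N:ℝ)+1) ≤ 1 := by
      rw [div_le_one hNpos]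
      have := Nat.cast_nonneg (α := ℝ) N
      linarith
    have hg2 : |rv (h1 a N)| ≤ (B a : ℝ) := by
      have : |rv (h1 a N)| ≤ |f a| + |f a - rv (h1 a N)| := by
        have := abs_sub (f a) (f a - rv (h1 a N))
        rwa [sub_sub_cancel] at this
      linarith
    have key : f a * g a - rv (h1 a N) * rv (h2 a N) = (f a - rv (h1 a N)) * g a + rv (h1 a N) * (g a - rv (h2 a N)) := by ring
    rw [key]
    refine (abs_add_le _ _).trans ?_
    rw [abs_mul, abs_mul]
    have hBpos : (0:ℝ) < B a := by rw [hBr]; linarith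
    have m1 : |f a - rv (h1 a N)| * |g a| ≤ 1/((N:ℝ)+1) * B a :=
      mul_le_mul e1 (by linarith) (abs_nonneg _) (by positivity)
    have m2 : |rv (h1 a N)| * |g a - rv (h2 a N)| ≤ B a * (1/((N:ℝ)+1)) :=
      mul_le_mul hg2 e2 (abs_nonneg _) hBpos.le
    have m3 : 1/((N:ℝ)+1) * B a + B a * (1/((N:ℝ)+1)) ≤ 1/((n:ℝ)+1) := by
      have : 1/((N:ℝ)+1) * B a + B a * (1/((N:ℝ)+1)) = 2 * B a / ((N:ℝ)+1) := by ring
      rw [this, div_le_div_iff₀ hNpos (by positivity), hN]
      push_cast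
      nlinarith
    linarith

theorem CR.cond {c : α → Bool} (hc : Computable c) {f g : α → ℝ} (hf : CR f) (hg : CR g) :
    CR (fun a => if c a = true then f a else g a) := by
  obtain ⟨h1, c1, b1⟩ := hf
  obtain ⟨h2, c2, b2⟩ := hg
  refine ⟨fun a n => bif c a then h1 a n else h2 a n, ?_, ?_⟩
  · exact Computable.cond (hc.comp Computable.fst) c1 c2
  · intro a n
    cases h : c a
    · simpa [h] using b2 a n
    · simpa [h] using b1 a n

theorem CR.sum {ι : Type*} (s : Finset ι) {g : ι → α → ℝ} (h : ∀ i ∈ s, CR (g i)) : CR (fun a => ∑ i ∈ s, g i a) := by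
  classical
  induction s using Finset.induction_on with
  | empty =>
    refine (CR.of_rep (r := fun _ : α => ((0, 0, 0) : Rep)) (Computable.const _)).congr ?_
    intro a; simp [rv]
  | insert i s hi ih =>
    have := (h i (Finset.mem_insert_self _ _)).add (ih fun j hj => h j (Finset.mem_insert_of_mem hj))
    refine this.congr ?_
    intro a
    rw [Finset.sum_insert hi]

theorem CR.prod {ι : Type*} (s : Finset ι) {g : ι → α → ℝ} (h : ∀ i ∈ s, CR (g i)) : CR (fun a => ∏ i ∈ s, g i a) := by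
  classical
  induction s using Finset.induction_on with
  | empty =>
    refine (CR.of_rep (r := fun _ : α => ((1, 0, 0) : Rep)) (Computable.const _)).congr ?_
    intro a; simp [rv]
  | insert i s hi ih =>
    have := (h i (Finset.mem_insert_self _ _)).mul (ih fun j hj => h j (Finset.mem_insert_of_mem hj))
    refine this.congr ?_
    intro a
    rw [Finset.prod_insert hi]

/-- the table is primitive recursive -/
theorem row_eq_rec (K n : ℕ) : row K n = Nat.rec ((List.range (K+1)).map fun i => if K ≤ i then 1 else 0)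
    (fun _ r => (List.range (K+1)).map fun i => ((List.range K).map fun j => r.getD (min (2*i+j-K) K) 0).sum) n := by
  induction n with
  | zero => rfl
  | succ n ih => rw [row, ih]

theorem pr_sum {f : α → List ℕ} (hf : Primrec f) : Primrec fun a => (f a).sum := by
  have : Primrec fun a => (f a).foldr (fun x y => x + y) 0 :=
    Primrec.list_foldr hf (Primrec.const 0) (Primrec.nat_add.comp (Primrec.fst.comp Primrec.snd) (Primrec.snd.comp Primrec.snd)).to₂
  exact this.of_eq fun a => by simp [List.sum]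

theorem pr_row : Primrec₂ row := by
  have h0 : Primrec fun p : ℕ × ℕ => ((List.range (p.1+1)).map fun i => if p.1 ≤ i then 1 else 0) := by
    apply Primrec.list_map (Primrec.list_range.comp (pr_add Primrec.fst (Primrec.const 1)))
    exact Primrec.ite (Primrec.nat_le.comp (Primrec.fst.comp Primrec.fst) Primrec.snd) (Primrec.const 1) (Primrec.const 0)
  have h1 : Primrec₂ fun (p : ℕ × ℕ) (q : ℕ × List ℕ) => (List.range (p.1+1)).map fun i => ((List.range p.1).map fun j => q.2.getD (min (2*i+j-p.1) p.1) 0).sum := by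
    apply Primrec.list_map (Primrec.list_range.comp (pr_add (Primrec.fst.comp Primrec.fst) (Primrec.const 1)))
    apply pr_sum
    apply Primrec.list_map (Primrec.list_range.comp (Primrec.fst.comp (Primrec.fst.comp Primrec.fst)))
    -- element : (((p, q), i), j)
    have eK : Primrec fun z : (((ℕ × ℕ) × (ℕ × List ℕ)) × ℕ) × ℕ => z.1.1.1.1 :=
      Primrec.fst.comp (Primrec.fst.comp (Primrec.fst.comp Primrec.fst))
    have er : Primrec fun z : (((ℕ × ℕ) × (ℕ × List ℕ)) × ℕ) × ℕ => z.1.1.2.2 :=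
      Primrec.snd.comp (Primrec.snd.comp (Primrec.fst.comp Primrec.fst))
    have ei : Primrec fun z : (((ℕ × ℕ) × (ℕ × List ℕ)) × ℕ) × ℕ => z.1.2 := Primrec.snd.comp Primrec.fst
    have ej : Primrec fun z : (((ℕ × ℕ) × (ℕ × List ℕ)) × ℕ) × ℕ => z.2 := Primrec.snd
    exact (Primrec.list_getD 0).comp er (Primrec.nat_min.comp (pr_sub (pr_add (pr_mul (Primrec.const 2) ei) ej) eK) eK)
  have h2 := Primrec.nat_rec' (f := fun p : ℕ × ℕ => p.2) Primrec.snd h0 h1
  exact h2.of_eq fun p => (row_eq_rec p.1 p.2).symm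

theorem pr_Af {f g h : α → ℕ} (hf : Primrec f) (hg : Primrec g) (hh : Primrec h) : Primrec fun a => Af (f a) (g a) (h a) :=
  (Primrec.list_getD 0).comp (pr_row.comp hf hg) (Primrec.nat_min.comp hh hf)

/-- `S` at nonnegative rational points -/
theorem CR_S : CR (fun a : ℕ × ℕ => S ((a.1:ℝ)/(a.2+1))) := by
  refine ⟨fun a n => Sap a.1 a.2 n, ?_, fun a n => Sap_spec a.1 a.2 n⟩
  apply Primrec.to_comp
  have p : Primrec fun z : (ℕ × ℕ) × ℕ => z.1.1 := Primrec.fst.comp Primrec.fst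
  have q : Primrec fun z : (ℕ × ℕ) × ℕ => z.1.2 := Primrec.snd.comp Primrec.fst
  have n : Primrec fun z : (ℕ × ℕ) × ℕ => z.2 := Primrec.snd
  have n1 := pr_mul (Primrec.const 24) (pr_add n (Primrec.const 1))
  have K := pr_mul n1 (pr_add q (Primrec.const 1))
  have N := pr_mul (Primrec.const 4) (pr_add n (Primrec.const 2))
  exact (pr_Af K N (pr_mul n1 p)).pair ((Primrec.const 0).pair (pr_sub (pr_pow K N) (Primrec.const 1)))


/-- one reduction step for the derivatives of `S`: state `(a, b, r, p)` -/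
def rstep (Q : ℕ) (z : ℕ × ℕ × ℕ × ℕ) : ℕ × ℕ × ℕ × ℕ :=
  if 2 * z.2.2.2 ≤ Q then (z.1 * 2^z.2.2.1, z.2.1 * 2^z.2.2.1, z.2.2.1 - 1, 2 * z.2.2.2)
  else (z.2.1 * 2^z.2.2.1, z.1 * 2^z.2.2.1, z.2.2.1 - 1, 2 * z.2.2.2 - Q)

theorem rstep_inv {Q : ℕ} (hQ : 0 < Q) (a b r p : ℕ) :
    ((a:ℝ) - b) * iteratedDeriv (r+2) S ((p:ℝ)/Q) =
      (((rstep Q (a, b, r+2, p)).1 : ℝ) - (rstep Q (a, b, r+2, p)).2.1) *
        iteratedDeriv (r+1) S (((rstep Q (a, b, r+2, p)).2.2.2 : ℝ)/Q) := by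
  have hq : (0:ℝ) < Q := by exact_mod_cast hQ
  rw [S_iter]
  unfold rstep
  simp only
  split_ifs with h
  · have h' : 2 * (p:ℝ) ≤ Q := by exact_mod_cast h
    have h1 : 2 * ((p:ℝ)/Q) - 1 ≤ 0 := by
      rw [sub_nonpos, ← mul_div_assoc, div_le_one hq]; exact h'
    rw [S_iter_nonpos (r+1) h1]
    push_cast
    rw [show 2 * ((p:ℝ)/Q) = 2*p/Q by ring]
    ring
  · push Not at h
    have h' : (Q:ℝ) ≤ 2 * p := by exact_mod_cast h.le
    have h1 : 1 ≤ 2 * ((p:ℝ)/Q) := by
      rw [← mul_div_assoc, le_div_iff₀ hq]; linarith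
    rw [S_iter_ge_one r h1, Nat.cast_sub h.le]
    push_cast
    rw [show 2 * ((p:ℝ)/Q) - 1 = (2*p-Q)/Q by field_simp]
    ring

theorem rstep_r (Q : ℕ) (z : ℕ × ℕ × ℕ × ℕ) : (rstep Q z).2.2.1 = z.2.2.1 - 1 := by
  unfold rstep; split_ifs <;> rfl

theorem rstep_iter {Q : ℕ} (hQ : 0 < Q) (n : ℕ) (z : ℕ × ℕ × ℕ × ℕ) (hz : z.2.2.1 = n + 1) :
    ((z.1:ℝ) - z.2.1) * iteratedDeriv (n+1) S ((z.2.2.2:ℝ)/Q) =
      (((rstep Q)^[n] z).1 - ((rstep Q)^[n] z).2.1) * deriv S ((((rstep Q)^[n] z).2.2.2:ℝ)/Q) := by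
  induction n generalizing z with
  | zero => simp
  | succ n ih =>
    rw [Function.iterate_succ_apply, ← ih (rstep Q z) (by rw [rstep_r, hz]; rfl)]
    obtain ⟨a, b, r, p⟩ := z
    simp only at hz
    subst hz
    exact rstep_inv hQ a b n p

/-- derivatives of `S` of every order at nonnegative rational points -/
theorem CR_Sder : CR (fun a : ℕ × ℕ × ℕ => iteratedDeriv (a.1+1) S ((a.2.1:ℝ)/(a.2.2+1))) := by
  -- the iterated state
  set st : ℕ × ℕ × ℕ → ℕ × ℕ × ℕ × ℕ := fun a => (rstep (a.2.2+1))^[a.1] (1, 0, a.1+1, a.2.1) with hst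
  have pst : Primrec st := by
    have hstep : Primrec₂ fun (a : ℕ × ℕ × ℕ) (z : ℕ × ℕ × ℕ × ℕ) => rstep (a.2.2+1) z := by
      have Q : Primrec fun w : (ℕ × ℕ × ℕ) × (ℕ × ℕ × ℕ × ℕ) => w.1.2.2+1 :=
        pr_add (Primrec.snd.comp (Primrec.snd.comp Primrec.fst)) (Primrec.const 1)
      have z1 : Primrec fun w : (ℕ × ℕ × ℕ) × (ℕ × ℕ × ℕ × ℕ) => w.2.1 := Primrec.fst.comp Primrec.snd
      have z2 : Primrec fun w : (ℕ × ℕ × ℕ) × (ℕ × ℕ × ℕ × ℕ) => w.2.2.1 := Primrec.fst.comp (Primrec.snd.comp Primrec.snd)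
      have z3 : Primrec fun w : (ℕ × ℕ × ℕ) × (ℕ × ℕ × ℕ × ℕ) => w.2.2.2.1 := Primrec.fst.comp (Primrec.snd.comp (Primrec.snd.comp Primrec.snd))
      have z4 : Primrec fun w : (ℕ × ℕ × ℕ) × (ℕ × ℕ × ℕ × ℕ) => w.2.2.2.2 := Primrec.snd.comp (Primrec.snd.comp (Primrec.snd.comp Primrec.snd))
      have tw := pr_pow (Primrec.const 2) z3
      exact Primrec.ite (Primrec.nat_le.comp (pr_mul (Primrec.const 2) z4) Q)
        ((pr_mul z1 tw).pair ((pr_mul z2 tw).pair ((pr_sub z3 (Primrec.const 1)).pair (pr_mul (Primrec.const 2) z4))))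
        ((pr_mul z2 tw).pair ((pr_mul z1 tw).pair ((pr_sub z3 (Primrec.const 1)).pair (pr_sub (pr_mul (Primrec.const 2) z4) Q))))
    exact Primrec.nat_iterate Primrec.fst
      ((Primrec.const 1).pair ((Primrec.const 0).pair ((pr_add Primrec.fst (Primrec.const 1)).pair (Primrec.fst.comp Primrec.snd)))) hstep
  have p4 : Primrec fun a => (st a).2.2.2 := Primrec.snd.comp (Primrec.snd.comp (Primrec.snd.comp pst))
  have pQ : Primrec fun a : ℕ × ℕ × ℕ => a.2.2 := Primrec.snd.comp Primrec.snd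
  have c1 : CR (fun a : ℕ × ℕ × ℕ => S ((((2 * (st a).2.2.2 : ℕ)):ℝ)/(a.2.2+1))) :=
    CR_S.comp (k := fun a => (2 * (st a).2.2.2, a.2.2)) ((pr_mul (Primrec.const 2) p4).pair pQ).to_comp
  have c2 : CR (fun a : ℕ × ℕ × ℕ => S ((((2 * (st a).2.2.2 - (a.2.2+1) : ℕ)):ℝ)/(a.2.2+1))) :=
    CR_S.comp (k := fun a => (2 * (st a).2.2.2 - (a.2.2+1), a.2.2))
      ((pr_sub (pr_mul (Primrec.const 2) p4) (pr_add pQ (Primrec.const 1))).pair pQ).to_comp
  have c3 : CR (fun a : ℕ × ℕ × ℕ => rv ((2 * (st a).1, 2 * (st a).2.1, 0) : Rep)) := by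
    apply CR.of_rep
    exact ((pr_mul (Primrec.const 2) (Primrec.fst.comp pst)).pair
      ((pr_mul (Primrec.const 2) (Primrec.fst.comp (Primrec.snd.comp pst))).pair (Primrec.const 0))).to_comp
  have c4 : CR (fun a : ℕ × ℕ × ℕ => rv ((0, 1, 0) : Rep)) := CR.of_rep (Computable.const _)
  refine (c3.mul (c1.add (c4.mul c2))).congr ?_
  intro a
  have hQ : 0 < a.2.2 + 1 := Nat.succ_pos _
  have h := rstep_iter hQ a.1 (1, 0, a.1+1, a.2.1) rfl
  have e0 : (((a.2.2+1:ℕ)):ℝ) = (a.2.2:ℝ) + 1 := by push_cast; ring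
  rw [e0] at h
  simp only [Nat.cast_one, Nat.cast_zero, sub_zero, one_mul] at h
  rw [h, S_deriv]
  have e1 : (rstep (a.2.2+1))^[a.1] (1, 0, a.1+1, a.2.1) = st a := rfl
  rw [e1]
  have e2 : S ((((2 * (st a).2.2.2 - (a.2.2+1) : ℕ)):ℝ)/(a.2.2+1)) = S (2 * (((st a).2.2.2:ℝ)/(a.2.2+1)) - 1) := by
    have hq : (0:ℝ) < (a.2.2:ℝ)+1 := by positivity
    rcases le_total (a.2.2+1) (2 * (st a).2.2.2) with h | h
    · rw [Nat.cast_sub h]; congr 1; push_cast; field_simp
    · rw [Nat.sub_eq_zero_of_le h]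
      have h' : 2 * ((st a).2.2.2:ℝ) ≤ (a.2.2:ℝ)+1 := by exact_mod_cast h
      rw [S_nonpos (by simp), S_nonpos]
      rw [sub_nonpos, ← mul_div_assoc, div_le_one hq]; exact h'
  rw [e2]
  unfold rv
  push_cast
  rw [show 2 * ((st a).2.2.2:ℝ) / ((a.2.2:ℝ)+1) = 2 * (((st a).2.2.2:ℝ)/(a.2.2+1)) by ring]
  ring

end Vale.Agent.P113
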