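import Vale.Agent.P113.Comp

set_option linter.unusedSectionVars false
set_option linter.unusedVariables false

open Filter Topology Set

namespace Vale.Agent.P113

variable {α β : Type} [Primcodable α] [Primcodable β]

theorem CR.neg {f : α → ℝ} (hf : CR f) : CR (fun a => - f a) := by
  refine ((CR.of_rep (r := fun _ : α => ((0, 1, 0) : Rep)) (Computable.const _)).mul hf).congr ?_
  intro a; simp [rv]

theorem CR.sub {f g : α → ℝ} (hf : CR f) (hg : CR g) : CR (fun a => f a - g a) :=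
  (hf.add hg.neg).congr fun a => by ring

theorem pr_eqz {f : α → ℕ} (hf : Primrec f) : Primrec fun a => decide (f a = 0) :=
  primrecPred_iff_primrec_decide.1 (Primrec.eq.comp hf (Primrec.const 0))

/-- `S^{(n)}` at nonnegative rational points -/
theorem CR_Sn : CR (fun a : ℕ × ℕ × ℕ => iteratedDeriv a.1 S ((a.2.1:ℝ)/(a.2.2+1))) := by
  have h0 : CR (fun a : ℕ × ℕ × ℕ => S ((a.2.1:ℝ)/(a.2.2+1))) := CR_S.comp Computable.snd
  have h1 : CR (fun a : ℕ × ℕ × ℕ => iteratedDeriv ((a.1-1)+1) S ((a.2.1:ℝ)/(a.2.2+1))) :=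
    CR_Sder.comp (k := fun a : ℕ × ℕ × ℕ => (a.1-1, a.2)) ((pr_sub Primrec.fst (Primrec.const 1)).pair Primrec.snd).to_comp
  have hc : Computable fun a : ℕ × ℕ × ℕ => decide (a.1 = 0) := (pr_eqz Primrec.fst).to_comp
  refine (CR.cond hc h0 h1).congr ?_
  intro a
  by_cases h : a.1 = 0
  · simp [h]
  · simp only [h, decide_false, Bool.false_eq_true, if_false]
    rw [Nat.sub_add_cancel (Nat.one_le_iff_ne_zero.2 h)]

theorem floor_frac (Y Q : ℕ) (hQ : 0 < Q) :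
    ⌊(Y:ℝ)/Q⌋ = ((Y/Q : ℕ) : ℤ) ∧ Int.fract ((Y:ℝ)/Q) = ((Y % Q : ℕ):ℝ)/Q := by
  have hQ0 : (0:ℝ) < (Q:ℝ) := by exact_mod_cast hQ
  have hdiv : (Y:ℝ) = Q * (Y/Q : ℕ) + (Y % Q : ℕ) := by exact_mod_cast (Nat.div_add_mod Y Q).symm
  have hlt : ((Y % Q : ℕ):ℝ) < Q := by exact_mod_cast Nat.mod_lt _ hQ
  have hnn : (0:ℝ) ≤ ((Y % Q : ℕ):ℝ) := Nat.cast_nonneg _
  generalize (Y / Q : ℕ) = k at *
  generalize (Y % Q : ℕ) = m at *
  have hfl : ⌊(Y:ℝ)/Q⌋ = (k : ℤ) := by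
    rw [Int.floor_eq_iff]
    constructor
    · rw [le_div_iff₀ hQ0]
      push_cast
      nlinarith
    · rw [div_lt_iff₀ hQ0]
      push_cast
      nlinarith
  refine ⟨hfl, ?_⟩
  rw [Int.fract, hfl, hdiv]
  field_simp
  push_cast
  ring

/-- derivatives of the interpolation at nonnegative rational points -/
theorem CR_J (cs : α → ℤ → ℝ) (hcs : CR (fun a : α × ℕ => cs a.1 (a.2:ℤ))) :
    CR (fun a : α × ℕ × ℕ × ℕ => iteratedDeriv a.2.1 (J (cs a.1)) ((a.2.2.1:ℝ)/(a.2.2.2+1))) := by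
  have pn : Primrec fun a : α × ℕ × ℕ × ℕ => a.2.1 := Primrec.fst.comp Primrec.snd
  have pY : Primrec fun a : α × ℕ × ℕ × ℕ => a.2.2.1 := Primrec.fst.comp (Primrec.snd.comp Primrec.snd)
  have pq : Primrec fun a : α × ℕ × ℕ × ℕ => a.2.2.2 := Primrec.snd.comp (Primrec.snd.comp Primrec.snd)
  have pQ := pr_add pq (Primrec.const 1)
  have pk := pr_div pY pQ
  have pm := pr_mod pY pQ
  have ck : CR (fun a : α × ℕ × ℕ × ℕ => cs a.1 (((a.2.2.1/(a.2.2.2+1) : ℕ)) : ℤ)) :=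
    hcs.comp (k := fun a : α × ℕ × ℕ × ℕ => (a.1, a.2.2.1/(a.2.2.2+1))) (Computable.fst.pair pk.to_comp)
  have ck1 : CR (fun a : α × ℕ × ℕ × ℕ => cs a.1 (((a.2.2.1/(a.2.2.2+1) + 1 : ℕ)) : ℤ)) :=
    hcs.comp (k := fun a : α × ℕ × ℕ × ℕ => (a.1, a.2.2.1/(a.2.2.2+1) + 1)) (Computable.fst.pair (pr_add pk (Primrec.const 1)).to_comp)
  have cS : CR (fun a : α × ℕ × ℕ × ℕ => iteratedDeriv a.2.1 S (((a.2.2.1 % (a.2.2.2+1) : ℕ):ℝ)/(a.2.2.2+1))) :=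
    CR_Sn.comp (k := fun a : α × ℕ × ℕ × ℕ => (a.2.1, a.2.2.1 % (a.2.2.2+1), a.2.2.2)) ((pn.pair (pm.pair pq)).to_comp)
  have c1 := (ck1.sub ck).mul cS
  have c0 := ck.add c1
  have hc : Computable fun a : α × ℕ × ℕ × ℕ => decide (a.2.1 = 0) := (pr_eqz pn).to_comp
  refine (CR.cond hc c0 c1).congr ?_
  intro a
  set Q := a.2.2.2 + 1 with hQ
  have hQ0 : (0:ℝ) < (Q:ℝ) := by exact_mod_cast Nat.succ_pos _
  have hQe : ((a.2.2.2:ℝ)+1) = (Q:ℝ) := by rw [hQ]; push_cast; ring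
  rw [hQe]
  set Y := a.2.2.1
  obtain ⟨hfl, hfr⟩ := floor_frac Y Q (Nat.succ_pos _)
  by_cases h : a.2.1 = 0
  · simp only [h, decide_true, if_true, iteratedDeriv_zero]
    unfold J
    rw [hfl, hfr]
    push_cast
    ring
  · simp only [h, decide_false, Bool.false_eq_true, if_false]
    obtain ⟨n, hn⟩ := Nat.exists_eq_succ_of_ne_zero h
    rw [hn, Nat.succ_eq_add_one, J_iter, hfl, hfr]
    push_cast
    ring

/-- periodic factors at arbitrary rational points -/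
theorem CR_Fc (γ : α → ℕ → Rep) (hγ : Primrec₂ γ) (N : α → ℕ) (hN : Primrec N) (h2 : ℕ) (hh : ∀ a, h2 ≤ 2 * N a) :
    CR (fun a : α × ℕ × Rep => Fc (fun k => rv (γ a.1 (k % (N a.1 : ℕ)).toNat)) (N a.1) ((h2:ℝ)/2) a.2.1 (rv a.2.2)) := by
  have hcs : CR (fun a : α × ℕ => (fun (a : α) (k : ℤ) => rv (γ a (k % (N a : ℕ)).toNat)) a.1 (a.2:ℤ)) := by
    have : CR (fun a : α × ℕ => rv (γ a.1 (a.2 % N a.1))) :=
      CR.of_rep (hγ.comp Primrec.fst (pr_mod Primrec.snd (hN.comp Primrec.fst))).to_comp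
    refine this.congr fun a => ?_
    simp only
    norm_cast
  have hJ := CR_J (fun (a : α) (k : ℤ) => rv (γ a (k % (N a : ℕ)).toNat)) hcs
  have pN : Primrec fun a : α × ℕ × Rep => N a.1 := hN.comp Primrec.fst
  have pn : Primrec fun a : α × ℕ × Rep => a.2.1 := Primrec.fst.comp Primrec.snd
  have p1 : Primrec fun a : α × ℕ × Rep => a.2.2.1 := Primrec.fst.comp (Primrec.snd.comp Primrec.snd)
  have p2 : Primrec fun a : α × ℕ × Rep => a.2.2.2.1 := Primrec.fst.comp (Primrec.snd.comp (Primrec.snd.comp Primrec.snd))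
  have p3 : Primrec fun a : α × ℕ × Rep => a.2.2.2.2 := Primrec.snd.comp (Primrec.snd.comp (Primrec.snd.comp Primrec.snd))
  have pY : Primrec fun a : α × ℕ × Rep => 2 * N a.1 * (a.2.2.1 + a.2.2.2.1 * a.2.2.2.2) + (2 * N a.1 - h2) * (a.2.2.2.2 + 1) :=
    pr_add (pr_mul (pr_mul (Primrec.const 2) pN) (pr_add p1 (pr_mul p2 p3)))
      (pr_mul (pr_sub (pr_mul (Primrec.const 2) pN) (Primrec.const h2)) (pr_add p3 (Primrec.const 1)))
  have pq : Primrec fun a : α × ℕ × Rep => 2 * a.2.2.2.2 + 1 := pr_add (pr_mul (Primrec.const 2) p3) (Primrec.const 1)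
  have c1 := hJ.comp (k := fun a : α × ℕ × Rep => (a.1, a.2.1,
    2 * N a.1 * (a.2.2.1 + a.2.2.2.1 * a.2.2.2.2) + (2 * N a.1 - h2) * (a.2.2.2.2 + 1), 2 * a.2.2.2.2 + 1))
    (Primrec.fst.pair (pn.pair (pY.pair pq))).to_comp
  have c0 : CR (fun a : α × ℕ × Rep => rv ((N a.1 ^ a.2.1, 0, 0) : Rep)) :=
    CR.of_rep ((pr_pow pN pn).pair (Primrec.const (0,0))).to_comp
  refine (c0.mul c1).congr ?_
  intro a
  obtain ⟨a, n, x, y, z⟩ := a
  simp only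
  rw [← Fc_periodic (fun k => rv (γ a k)) (N a) ((h2:ℝ)/2) n (rv (x, y, z)) ((y:ℤ)+1)]
  unfold Fc
  have e1 : rv ((N a ^ n, 0, 0) : Rep) = (N a : ℝ)^n := by simp [rv]
  rw [e1]
  congr 2
  have hsub : ((2 * N a - h2 : ℕ) : ℝ) = 2 * N a - h2 := by rw [Nat.cast_sub (hh a)]; push_cast; ring
  unfold rv
  push_cast
  rw [hsub]
  have hz : (0:ℝ) < (z:ℝ) + 1 := by positivity
  field_simp
  ring

/-- time factors at nonnegative rational points -/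
theorem CR_time (γ : ℕ → Rep) (hγ : Primrec γ) :
    CR (fun a : ℕ × ℕ × ℕ => Fc (fun k => rv (γ k.toNat)) 2 0 a.1 ((a.2.1:ℝ)/(a.2.2+1))) := by
  have hcs : CR (fun a : Unit × ℕ => (fun (_ : Unit) (k : ℤ) => rv (γ k.toNat)) a.1 (a.2:ℤ)) := by
    have : CR (fun a : Unit × ℕ => rv (γ a.2)) := CR.of_rep (hγ.comp Primrec.snd).to_comp
    exact this.congr fun a => by simp
  have hJ := CR_J (fun (_ : Unit) (k : ℤ) => rv (γ k.toNat)) hcs
  have pn : Primrec fun a : ℕ × ℕ × ℕ => a.1 := Primrec.fst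
  have p1 : Primrec fun a : ℕ × ℕ × ℕ => a.2.1 := Primrec.fst.comp Primrec.snd
  have p2 : Primrec fun a : ℕ × ℕ × ℕ => a.2.2 := Primrec.snd.comp Primrec.snd
  have c1 := hJ.comp (k := fun a : ℕ × ℕ × ℕ => ((), a.1, 2 * a.2.1, a.2.2))
    ((Primrec.const ()).pair (pn.pair ((pr_mul (Primrec.const 2) p1).pair p2))).to_comp
  have c0 : CR (fun a : ℕ × ℕ × ℕ => rv ((2 ^ a.1, 0, 0) : Rep)) :=
    CR.of_rep ((pr_pow (Primrec.const 2) pn).pair (Primrec.const (0,0))).to_comp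
  refine (c0.mul c1).congr ?_
  intro a
  unfold Fc
  have e1 : rv ((2 ^ a.1, 0, 0) : Rep) = (2 : ℝ)^a.1 := by simp [rv]
  simp only
  rw [e1]
  push_cast
  rw [show (2:ℝ) * ((a.2.1:ℝ)/(a.2.2+1)) - 0 = 2 * a.2.1/(a.2.2+1) by ring]

end Vale.Agent.P113
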