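import Vale.Agent.P113.Traj
import Vale.Agent.P113.Coef

set_option linter.unusedSectionVars false
set_option linter.unusedVariables false

open MeasureTheory Filter Topology Set Function

namespace Vale.Agent.P113

noncomputable def FV (φ : Fac) (c : Inp) (n : ℕ) (x : ℝ) : ℝ :=
  Fc (fun k => rv (φ.γ c (k % (φ.N c : ℕ)).toNat)) (φ.N c) ((φ.h2:ℝ)/2) n x

noncomputable def PT (i : ℕ) (n : ℕ) (t : ℝ) : ℝ := Fc (fun k => rv (tau i k.toNat)) 2 0 n t

theorem FV_cst (r : Inp → Rep) (c : Inp) (n : ℕ) (x : ℝ) : FV (cst r) c n x = if n = 0 then rv (r c) else 0 := by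
  unfold FV cst Fc
  simp only [Nat.cast_zero]
  rcases Nat.eq_zero_or_pos n with h | h
  · subst h
    simp [J_const]
  · rw [zero_pow (by omega), if_neg (by omega), zero_mul]

theorem deriv_S_lt {τ : ℝ} (h1 : τ ≤ 1/2) : deriv S τ = 2 * S (2*τ) := by
  rw [S_deriv, S_nonpos (by linarith : 2*τ - 1 ≤ 0)]; ring

theorem deriv_S_ge {τ : ℝ} (h1 : 1/2 ≤ τ) : deriv S τ = 2 * (1 - S (2*τ-1)) := by
  rw [S_deriv, S_ge_one (by linarith : 1 ≤ 2*τ)]

theorem deriv_S_zero : deriv S 0 = 0 := by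
  rw [deriv_S_lt (by norm_num), mul_zero, S_nonpos le_rfl, mul_zero]
theorem deriv_S_one : deriv S 1 = 0 := by
  rw [deriv_S_ge (by norm_num), S_ge_one (by norm_num)]; ring

theorem tau_even (i s : ℕ) : tau i (2*s) = (0,0,0) := by
  unfold tau; rw [if_neg (by omega)]

theorem tau_odd (i s : ℕ) : tau i (2*s+1) = if sl s = i then (2,0,0) else (0,0,0) := by
  unfold tau
  rw [if_pos (by omega), show (2*s+1)/2 = s by omega]

theorem rv000 : rv (0,0,0) = 0 := by simp [rv]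
theorem rv200 : rv (2,0,0) = 2 := by simp [rv]

theorem PT_eq (i s : ℕ) {t : ℝ} (h1 : (s:ℝ) ≤ t) (h2 : t < s + 1) :
    PT i 0 t = if sl s = i then deriv S (t - s) else 0 := by
  unfold PT
  rw [Fc_zero]
  rcases lt_or_ge (t - s) (1/2) with h | h
  · rw [J_eq' _ (((2*s : ℕ)) : ℤ) (by push_cast; linarith) (by push_cast; linarith)]
    have e1 : ((((2*s : ℕ)) : ℤ) + 1).toNat = 2*s+1 := by omega
    simp only [e1, Int.toNat_natCast, tau_even, tau_odd, rv000]
    rw [deriv_S_lt h.le]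
    split_ifs
    · rw [rv200]; push_cast; ring_nf
    · rw [rv000]; ring
  · rw [J_eq' _ (((2*s+1 : ℕ)) : ℤ) (by push_cast; linarith) (by push_cast; linarith)]
    have e1 : ((((2*s+1 : ℕ)) : ℤ) + 1).toNat = 2*(s+1) := by omega
    simp only [e1, Int.toNat_natCast, tau_even, tau_odd, rv000]
    rw [deriv_S_ge h]
    split_ifs
    · rw [rv200]; push_cast; ring_nf
    · rw [rv000]; ring

theorem PT_neg (i : ℕ) {t : ℝ} (h : t < 0) : PT i 0 t = 0 := by
  unfold PT
  rw [Fc_zero]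
  unfold J
  have hf : ⌊((2:ℕ):ℝ) * t - 0⌋ < 0 := by
    rw [Int.floor_lt]; push_cast; linarith
  have e1 : (⌊((2:ℕ):ℝ) * t - 0⌋).toNat = 0 := by omega
  have e2 : (⌊((2:ℕ):ℝ) * t - 0⌋ + 1).toNat = 0 := by omega
  have e3 : tau i 0 = (0,0,0) := tau_even i 0
  simp only [e1, e2, e3, rv000]; ring

theorem PT_closed (i s : ℕ) {t : ℝ} (h1 : (s:ℝ) ≤ t) (h2 : t ≤ s + 1) :
    PT i 0 t = if sl s = i then deriv S (t - s) else 0 := by
  rcases lt_or_eq_of_le h2 with h | h
  · exact PT_eq i s h1 h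
  · rw [PT_eq i (s+1) (by push_cast; linarith) (by push_cast; linarith), h]
    push_cast
    rw [sub_self, show (s:ℝ) + 1 - s = 1 by ring, deriv_S_zero, deriv_S_one]
    simp

theorem PT_mul (i i' : ℕ) (h : i ≠ i') (t : ℝ) : PT i 0 t * PT i' 0 t = 0 := by
  rcases lt_or_ge t 0 with h0 | h0
  · rw [PT_neg i h0]; ring
  · have h1 := Nat.floor_le h0
    have h2 := Nat.lt_floor_add_one t
    rw [PT_eq i _ h1 h2, PT_eq i' _ h1 h2]
    split_ifs with a b
    · exact absurd (a.symm.trans b) h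
    · ring
    · ring
    · ring

noncomputable def sysOf (c : Inp) : Sys (Fin 12 × Fin 2) where
  P i n t := PT i.1 n t
  Φ i j n x := FV ((tm i.1 i.2).2 j) c n x
  dir i := (tm i.1 i.2).1
  hP i n t := Fc_hasDeriv _ _ _ _ _
  hΦ i j n x := Fc_hasDeriv _ _ _ _ _
  sP i n := Fc_contDiff _ _ _ _
  sΦ i j n := Fc_contDiff _ _ _ _
  per i j n x k := Fc_periodic (fun m => rv (((tm i.1 i.2).2 j).γ c m)) _ _ _ _ _
  c1 i n x := by
    obtain ⟨r, hr⟩ := cst_tm i.1 i.2 i.2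
    rw [hr, FV_cst, if_neg (by omega)]
  c2 i i' := by
    by_cases h : i.1 = i'.1
    · right
      intro x
      obtain ⟨r, hr⟩ := cst_tm i.1 i.2 i'.2
      rw [← h, hr, FV_cst, if_neg (by omega)]
    · left
      intro t
      exact PT_mul _ _ (fun hh => h (Fin.ext hh)) t

theorem sl_lt (s : ℕ) : sl s < 12 := by unfold sl; split_ifs <;> omega

noncomputable def Vof (c : Inp) (s : ℕ) (x : E) : E := fun k =>
  ∑ e : Fin 2, if (tm ⟨sl s, sl_lt s⟩ e).1 = k then
    FV ((tm ⟨sl s, sl_lt s⟩ e).2 0) c 0 (x 0) * FV ((tm ⟨sl s, sl_lt s⟩ e).2 1) c 0 (x 1) *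
      FV ((tm ⟨sl s, sl_lt s⟩ e).2 2) c 0 (x 2) else 0

theorem shears_of (c : Inp) : Shears ((sysOf c).U 0 0 0 0) (Vof c) where
  hu := by
    intro s t h1 h2 x
    funext k
    unfold Sys.U Vof
    rw [Fintype.sum_prod_type]
    rw [Finset.sum_eq_single (⟨sl s, sl_lt s⟩ : Fin 12)]
    · simp only [Pi.smul_apply, smul_eq_mul, Finset.mul_sum]
      apply Finset.sum_congr rfl
      intro e _
      simp only [sysOf, PT_closed _ s h1 h2, if_true]
      split_ifs <;> ring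
    · intro i _ hi
      apply Finset.sum_eq_zero
      intro e _
      simp only [sysOf, PT_closed _ s h1 h2]
      have : sl s ≠ (i:ℕ) := fun hh => hi (Fin.ext hh.symm)
      simp [this]
    · intro h; exact absurd (Finset.mem_univ _) h
  hV := by
    intro s
    refine ⟨{j | ∃ e, (tm ⟨sl s, sl_lt s⟩ e).1 = j}, ?_, ?_⟩
    · intro j hj x
      unfold Vof
      apply Finset.sum_eq_zero
      intro e _
      rw [if_neg (fun h => hj ⟨e, h⟩)]
    · intro x y hxy
      have key : ∀ (e : Fin 2) (j : Fin 3), FV ((tm ⟨sl s, sl_lt s⟩ e).2 j) c 0 (x j) = FV ((tm ⟨sl s, sl_lt s⟩ e).2 j) c 0 (y j) := by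
        intro e j
        by_cases hj : ∃ e', (tm ⟨sl s, sl_lt s⟩ e').1 = j
        · obtain ⟨e', rfl⟩ := hj
          obtain ⟨r, hr⟩ := cst_tm ⟨sl s, sl_lt s⟩ e' e
          rw [hr, FV_cst, FV_cst]
        · rw [hxy j hj]
      funext k
      unfold Vof
      simp only [key]

theorem U_zero_time (c : Inp) (x : E) : (sysOf c).U 0 0 0 0 0 x = 0 := by
  have h := (shears_of c).hu 0 0 (by simp) (by simp) x
  rw [h]
  simp [deriv_S_zero]

end Vale.Agent.P113
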