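import Vale.Agent.P113.Main

set_option linter.unusedSectionVars false
set_option linter.unusedVariables false

open Filter Topology Set Function

namespace Vale.Agent.P113

variable {α β : Type} [Primcodable α] [Primcodable β]

theorem CR_FV (i : Fin 12) (e : Fin 2) (j : Fin 3) :
    CR (fun a : Inp × ℕ × Rep => FV ((tm i e).2 j) a.1 a.2.1 (rv a.2.2)) := by
  have g := good_tm i e j
  exact CR_Fc ((tm i e).2 j).γ g.hγ ((tm i e).2 j).N g.hN ((tm i e).2 j).h2 g.hh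

abbrev Arg := Inp × (ℕ × ℕ × ℕ × ℕ) × (ℕ × ℕ) × (Rep × Rep × Rep) × Fin 3

noncomputable def xv (x : Rep × Rep × Rep) : E := ![rv x.1, rv x.2.1, rv x.2.2]

theorem CR_U : CR (fun z : Arg => (sysOf z.1).U z.2.1.1 z.2.1.2.1 z.2.1.2.2.1 z.2.1.2.2.2
    ((z.2.2.1.1 : ℝ)/(z.2.2.1.2 + 1)) (xv z.2.2.2.1) z.2.2.2.2) := by
  have p1 : Primrec fun z : Arg => z.1 := Primrec.fst
  have pm : Primrec fun z : Arg => z.2.1 := Primrec.fst.comp Primrec.snd
  have pn : Primrec fun z : Arg => z.2.1.1 := Primrec.fst.comp pm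
  have pa : Primrec fun z : Arg => z.2.1.2.1 := Primrec.fst.comp (Primrec.snd.comp pm)
  have pb : Primrec fun z : Arg => z.2.1.2.2.1 := Primrec.fst.comp (Primrec.snd.comp (Primrec.snd.comp pm))
  have pd : Primrec fun z : Arg => z.2.1.2.2.2 := Primrec.snd.comp (Primrec.snd.comp (Primrec.snd.comp pm))
  have pr : Primrec fun z : Arg => z.2.2 := Primrec.snd.comp Primrec.snd
  have pt : Primrec fun z : Arg => z.2.2.1 := Primrec.fst.comp pr
  have px : Primrec fun z : Arg => z.2.2.2.1 := Primrec.fst.comp (Primrec.snd.comp pr)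
  have px0 : Primrec fun z : Arg => z.2.2.2.1.1 := Primrec.fst.comp px
  have px1 : Primrec fun z : Arg => z.2.2.2.1.2.1 := Primrec.fst.comp (Primrec.snd.comp px)
  have px2 : Primrec fun z : Arg => z.2.2.2.1.2.2 := Primrec.snd.comp (Primrec.snd.comp px)
  have pk : Primrec fun z : Arg => z.2.2.2.2 := Primrec.snd.comp (Primrec.snd.comp pr)
  have key : ∀ i : Fin 12 × Fin 2, CR (fun z : Arg => if decide ((tm i.1 i.2).1 = z.2.2.2.2) = true then
      PT i.1 z.2.1.1 ((z.2.2.1.1 : ℝ)/(z.2.2.1.2 + 1)) * (FV ((tm i.1 i.2).2 0) z.1 z.2.1.2.1 (rv z.2.2.2.1.1) *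
        FV ((tm i.1 i.2).2 1) z.1 z.2.1.2.2.1 (rv z.2.2.2.1.2.1) * FV ((tm i.1 i.2).2 2) z.1 z.2.1.2.2.2 (rv z.2.2.2.1.2.2)) else rv (0,0,0)) := by
    intro i
    have hc : Computable fun z : Arg => decide ((tm i.1 i.2).1 = z.2.2.2.2) :=
      (primrecPred_iff_primrec_decide.1 (Primrec.eq.comp (Primrec.const _) pk)).to_comp
    have c0 : CR (fun z : Arg => PT i.1 z.2.1.1 ((z.2.2.1.1 : ℝ)/(z.2.2.1.2 + 1))) :=
      (CR_time (tau i.1) (pr_tau i.1)).comp (k := fun z : Arg => (z.2.1.1, z.2.2.1)) (pn.pair pt).to_comp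
    have c1 : CR (fun z : Arg => FV ((tm i.1 i.2).2 0) z.1 z.2.1.2.1 (rv z.2.2.2.1.1)) :=
      (CR_FV i.1 i.2 0).comp (k := fun z : Arg => (z.1, z.2.1.2.1, z.2.2.2.1.1)) (p1.pair (pa.pair px0)).to_comp
    have c2 : CR (fun z : Arg => FV ((tm i.1 i.2).2 1) z.1 z.2.1.2.2.1 (rv z.2.2.2.1.2.1)) :=
      (CR_FV i.1 i.2 1).comp (k := fun z : Arg => (z.1, z.2.1.2.2.1, z.2.2.2.1.2.1)) (p1.pair (pb.pair px1)).to_comp
    have c3 : CR (fun z : Arg => FV ((tm i.1 i.2).2 2) z.1 z.2.1.2.2.2 (rv z.2.2.2.1.2.2)) :=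
      (CR_FV i.1 i.2 2).comp (k := fun z : Arg => (z.1, z.2.1.2.2.2, z.2.2.2.1.2.2)) (p1.pair (pd.pair px2)).to_comp
    exact CR.cond hc (c0.mul ((c1.mul c2).mul c3)) (CR.of_rep (Computable.const _))
  refine (CR.sum Finset.univ fun i _ => key i).congr ?_
  intro z
  unfold Sys.U
  apply Finset.sum_congr rfl
  intro i _
  simp only [sysOf, decide_eq_true_eq, xv, rv000]
  rfl

/-- computable reals -/
def CReal (ν : ℝ) : Prop := ∃ g : ℕ → Rep, Computable g ∧ ∀ n, |ν - rv (g n)| ≤ 1/((n:ℝ)+1)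

theorem CR_const {ν : ℝ} (h : CReal ν) : CR (fun _ : α => ν) := by
  obtain ⟨g, hg, hb⟩ := h
  exact ⟨fun _ n => g n, hg.comp Computable.snd, fun _ n => hb n⟩

abbrev Qry := List (Fin 4) × Fin 3 × (ℕ × ℕ) × (Rep × Rep × Rep)

noncomputable def vv (q : Qry) : Fin 4 → ℝ := ![(q.2.2.1.1 : ℝ)/(q.2.2.1.2 + 1), rv q.2.2.2.1, rv q.2.2.2.2.1, rv q.2.2.2.2.2]

theorem pr_cnt (j : Fin 4) : Primrec (cnt j) := by
  have h : Primrec₂ fun (l : List (Fin 4)) (w : Fin 4 × ℕ) => if w.1 = j then w.2 + 1 else w.2 :=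
    Primrec.ite (Primrec.eq.comp (Primrec.fst.comp Primrec.snd) (Primrec.const j))
      (pr_add (Primrec.snd.comp Primrec.snd) (Primrec.const 1)) (Primrec.snd.comp Primrec.snd)
  exact Primrec.list_foldr (f := fun l : List (Fin 4) => l) (g := fun _ => 0)
    (h := fun (l : List (Fin 4)) (w : Fin 4 × ℕ) => if w.1 = j then w.2 + 1 else w.2) Primrec.id (Primrec.const 0) h

theorem CR_G {ν : ℝ} (hν : CReal ν) : CR (fun z : Inp × Qry => mixed z.2.1 ((sysOf z.1).G ν z.2.2.1 0 0 0 0) (vv z.2)) := by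
  have p1 : Primrec fun z : Inp × Qry => z.1 := Primrec.fst
  have pl : Primrec fun z : Inp × Qry => z.2.1 := Primrec.fst.comp Primrec.snd
  have pk : Primrec fun z : Inp × Qry => z.2.2.1 := Primrec.fst.comp (Primrec.snd.comp Primrec.snd)
  have pt : Primrec fun z : Inp × Qry => z.2.2.2.1 := Primrec.fst.comp (Primrec.snd.comp (Primrec.snd.comp Primrec.snd))
  have px : Primrec fun z : Inp × Qry => z.2.2.2.2 := Primrec.snd.comp (Primrec.snd.comp (Primrec.snd.comp Primrec.snd))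
  have c0 := (pr_cnt 0).comp pl
  have c1 := (pr_cnt 1).comp pl
  have c2 := (pr_cnt 2).comp pl
  have c3 := (pr_cnt 3).comp pl
  have two := Primrec.const (α := Inp × Qry) 2
  have hU : ∀ {n a b d : Inp × Qry → ℕ}, Primrec n → Primrec a → Primrec b → Primrec d →
      CR (fun z : Inp × Qry => (sysOf z.1).U (n z) (a z) (b z) (d z) ((z.2.2.2.1.1 : ℝ)/(z.2.2.2.1.2 + 1)) (xv z.2.2.2.2) z.2.2.1) := by
    intro n a b d hn ha hb hd
    exact CR_U.comp (k := fun z : Inp × Qry => ((z.1, (n z, a z, b z, d z), z.2.2.2.1, z.2.2.2.2, z.2.2.1) : Arg))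
      (p1.pair ((hn.pair (ha.pair (hb.pair hd))).pair (pt.pair (px.pair pk)))).to_comp
  have h1 := hU (pr_add c0 (Primrec.const 1)) c1 c2 c3
  have h2 := hU c0 (pr_add c1 two) c2 c3
  have h3 := hU c0 c1 (pr_add c2 two) c3
  have h4 := hU c0 c1 c2 (pr_add c3 two)
  refine (h1.sub ((CR_const hν).mul ((h2.add h3).add h4))).congr ?_
  intro z
  rw [Sys.mixed_G]
  unfold Sys.G
  have e : (fun j : Fin 3 => vv z.2 j.succ) = xv z.2.2.2.2 := by
    funext j
    fin_cases j <;> rfl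
  have e0 : vv z.2 0 = (z.2.2.2.1.1 : ℝ)/(z.2.2.2.1.2 + 1) := rfl
  rw [e, e0]

/-- s-m-n: a computable family of programs -/
theorem smn {γ : Type} [Primcodable γ] (h : α → β → γ) (hc : Computable₂ h) :
    ∃ comp : α → Nat.Partrec.Code, Computable comp ∧ ∀ a b, (comp a).eval (Encodable.encode b) = Part.some (Encodable.encode (h a b)) := by
  have h1 : Partrec (fun z : α × β => (Part.some (h z.1 z.2) : Part γ)) := hc
  obtain ⟨cd, hcd⟩ := Nat.Partrec.Code.exists_code.1 h1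
  refine ⟨fun a => cd.curry (Encodable.encode a), ?_, ?_⟩
  · exact (Nat.Partrec.Code.primrec₂_curry.comp (Primrec.const cd) Primrec.encode).to_comp
  · intro a b
    rw [Nat.Partrec.Code.eval_curry, hcd]
    have e : Nat.pair (Encodable.encode a) (Encodable.encode b) = Encodable.encode (a, b) := rfl
    rw [e]
    simp only [Encodable.encodek]
    simp

theorem programs {ν : ℝ} (hν : CReal ν) : ∃ comp : Inp → Nat.Partrec.Code, Computable comp ∧
    ∀ (c : Inp) (q : Qry) (n : ℕ), ∃ r : Rep, (comp c).eval (Encodable.encode (q, n)) = Part.some (Encodable.encode r) ∧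
      |mixed q.1 ((sysOf c).G ν q.2.1 0 0 0 0) (vv q) - rv r| ≤ 1/((n:ℝ)+1) := by
  obtain ⟨h, hc, hb⟩ := CR_G hν
  have h' : Computable₂ fun (c : Inp) (z : Qry × ℕ) => h (c, z.1) z.2 :=
    hc.comp ((Computable.fst).pair (Computable.fst.comp Computable.snd)) (Computable.snd.comp Computable.snd)
  obtain ⟨comp, h1, h2⟩ := smn _ h'
  exact ⟨comp, h1, fun c q n => ⟨h (c, q) n, h2 c (q, n), hb (c, q) n⟩⟩

end Vale.Agent.P113
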