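import Vale.Agent.P113.Main
import Vale.Agent.P113.Prog

set_option linter.unusedSectionVars false
set_option linter.unusedVariables false

open Filter Topology Set Function

namespace Vale.Agent.P113

theorem J_shift (c d : ℤ → ℝ) (m : ℤ) (n : ℕ) (y : ℝ) (h0 : c (⌊y⌋ + m) = d ⌊y⌋) (h1 : c (⌊y⌋ + 1 + m) = d (⌊y⌋ + 1)) :
    iteratedDeriv n (J c) (y + m) = iteratedDeriv n (J d) y := by
  cases n with
  | zero =>
    simp only [iteratedDeriv_zero]
    unfold J
    rw [Int.floor_add_intCast, Int.fract_add_intCast, show ⌊y⌋ + m + 1 = (⌊y⌋ + 1) + m by ring, h0, h1]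
  | succ n =>
    rw [J_iter, J_iter]
    rw [Int.floor_add_intCast, Int.fract_add_intCast, show ⌊y⌋ + m + 1 = (⌊y⌋ + 1) + m by ring, h0, h1]

theorem tau_per (i : ℕ) {k : ℕ} (hk : 2 ≤ k) : tau i (k + 22) = tau i k := by
  unfold tau
  have e1 : (k + 22) % 2 = k % 2 := by omega
  have e2 : (k + 22) / 2 = k / 2 + 11 := by omega
  have e3 : sl (k / 2 + 11) = sl (k / 2) := by
    unfold sl
    rw [if_neg (by omega), if_neg (by omega)]
    omega
  rw [e1, e2, e3]

theorem tau_last {k : ℕ} (hk : 2 ≤ k) : tau 11 k = (0, 0, 0) := by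
  unfold tau
  split_ifs with h1 h2
  · exfalso
    unfold sl at h2
    rw [if_neg (by omega)] at h2
    omega
  · rfl
  · rfl

theorem floor_two {t : ℝ} (ht : 1 ≤ t) : 2 ≤ ⌊((2:ℕ):ℝ) * t - 0⌋ := by
  rw [Int.le_floor]; push_cast; linarith

theorem PT_per (i n : ℕ) {t : ℝ} (ht : 1 ≤ t) : PT i n (t + 11) = PT i n t := by
  have hf := floor_two ht
  unfold PT Fc
  have e : ((2:ℕ):ℝ) * (t + 11) - 0 = (((2:ℕ):ℝ) * t - 0) + ((22:ℤ):ℝ) := by push_cast; ring
  rw [e]
  congr 1
  generalize ((2:ℕ):ℝ) * t - 0 = y at *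
  apply J_shift
  · have : (⌊y⌋ + 22).toNat = ⌊y⌋.toNat + 22 := by omega
    simp only [this]
    rw [tau_per i (by omega)]
  · have : (⌊y⌋ + 1 + 22).toNat = (⌊y⌋ + 1).toNat + 22 := by omega
    simp only [this]
    rw [tau_per i (by omega)]

theorem PT_last (n : ℕ) {t : ℝ} (ht : 1 ≤ t) : PT 11 n t = 0 := by
  have hf := floor_two ht
  unfold PT Fc
  generalize ((2:ℕ):ℝ) * t - 0 = y at *
  have h := J_shift (fun k => rv (tau 11 k.toNat)) (fun _ => 0) 0 n y
    (by rw [tau_last (by omega), rv000]) (by rw [tau_last (by omega), rv000])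
  rw [Int.cast_zero, add_zero] at h
  rw [h]
  have : J (fun _ => (0:ℝ)) = fun _ => 0 := by funext z; exact J_const 0 z
  rw [this]
  cases n with
  | zero => simp
  | succ n => simp

/-- all factors but the very last ones depend on the machine only -/
theorem FV_dep (i : Fin 12) (hi : i ≠ 11) (e : Fin 2) (j : Fin 3) (r : Raw) (w w' : List ℕ) (n : ℕ) (x : ℝ) :
    FV ((tm i e).2 j) (r, w) n x = FV ((tm i e).2 j) (r, w') n x := by
  fin_cases i <;> first | exact absurd rfl hi | (fin_cases e <;> fin_cases j <;> rfl)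

/-- the part of the velocity driven by the slots before the last one -/
noncomputable def Ug (r : Raw) (n a b d : ℕ) (t : ℝ) (x : E) : E := fun k =>
  ∑ i : Fin 11 × Fin 2, if (tm i.1.castSucc i.2).1 = k then PT i.1.castSucc n t *
    (FV ((tm i.1.castSucc i.2).2 0) (r, []) a (x 0) * FV ((tm i.1.castSucc i.2).2 1) (r, []) b (x 1) *
      FV ((tm i.1.castSucc i.2).2 2) (r, []) d (x 2)) else 0

theorem U_split (c : Inp) (n a b d : ℕ) (t : ℝ) (x : E) (k : Fin 3) :
    (sysOf c).U n a b d t x k = Ug c.1 n a b d t x k +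
      if k = 1 ∧ a = 0 ∧ b = 0 ∧ d = 0 then PT 11 n t * rv (y0 c) else 0 := by
  unfold Sys.U Ug
  rw [Fintype.sum_prod_type, Fin.sum_univ_castSucc, Fintype.sum_prod_type]
  refine congrArg₂ (· + ·) ?_ ?_
  · apply Finset.sum_congr rfl
    intro i _
    apply Finset.sum_congr rfl
    intro e _
    have hi : i.castSucc ≠ (11 : Fin 12) := (Fin.castSucc_lt_last i).ne
    obtain ⟨r, w⟩ := c
    simp only [sysOf]
    rw [FV_dep i.castSucc hi e 0 r w [], FV_dep i.castSucc hi e 1 r w [], FV_dep i.castSucc hi e 2 r w []]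
    rfl
  · rw [Fin.sum_univ_two]
    have e0 : tm (Fin.last 11) 0 = (1, ![cst y0, one, one]) := rfl
    have e1 : tm (Fin.last 11) 1 = (1, ![cst fun _ => (0, 0, 0), one, one]) := rfl
    have r1 : rv (1, 0, 0) = 1 := by simp [rv]
    simp only [sysOf, e0, e1, one, Matrix.cons_val_zero, Matrix.cons_val_one, Matrix.cons_val, FV_cst, rv000, r1]
    have hl : ((Fin.last 11 : Fin 12) : ℕ) = 11 := rfl
    rw [hl]
    fin_cases k
    · simp
    · rcases Nat.eq_zero_or_pos a with ha | ha <;> rcases Nat.eq_zero_or_pos b with hb | hb <;>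
        rcases Nat.eq_zero_or_pos d with hd | hd <;> simp [ha, hb, hd, Nat.pos_iff_ne_zero.1]
    · simp

/-- the machine part of the force -/
noncomputable def Fg (ν : ℝ) (r : Raw) (t : ℝ) (x : E) : E := fun k =>
  Ug r 1 0 0 0 t x k - ν * (Ug r 0 2 0 0 t x k + Ug r 0 0 2 0 t x k + Ug r 0 0 0 2 t x k)

theorem force_split (ν : ℝ) (c : Inp) (t : ℝ) (x : E) :
    (sysOf c).force ν t x = rv (y0 c) • (fun k => if k = 1 then PT 11 1 t else 0) + Fg ν c.1 t x := by
  funext k
  unfold Sys.force Fg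
  simp only [U_split, Pi.add_apply, Pi.smul_apply, smul_eq_mul]
  by_cases hk : k = 1
  · simp [hk]; ring
  · simp [hk]

theorem Ug_per (r : Raw) (n a b d : ℕ) {t : ℝ} (ht : 1 ≤ t) (x : E) : Ug r n a b d (t + 11) x = Ug r n a b d t x := by
  funext k
  unfold Ug
  simp only [PT_per _ _ ht]

theorem force_late (ν : ℝ) (c : Inp) {t : ℝ} (ht : 1 ≤ t) (x : E) : (sysOf c).force ν t x = Fg ν c.1 t x := by
  rw [force_split]
  simp only [PT_last 1 ht]
  have : (fun k : Fin 3 => if k = 1 then (0:ℝ) else 0) = 0 := by funext k; simp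
  rw [this, smul_zero, zero_add]

theorem Fg_per (ν : ℝ) (r : Raw) {t : ℝ} (ht : 1 ≤ t) (x : E) : Fg ν r (t + 11) x = Fg ν r t x := by
  unfold Fg
  simp only [Ug_per r _ _ _ _ ht]

theorem force_smooth (ν : ℝ) (c : Inp) : ContDiff ℝ (⊤ : ℕ∞) (uncurry ((sysOf c).force ν)) := by
  rw [contDiff_pi]
  intro k
  have h : ∀ n a b d, ContDiff ℝ (⊤ : ℕ∞) (fun z : ℝ × E => uncurry ((sysOf c).U n a b d) z k) := fun n a b d =>
    (contDiff_pi.1 ((sysOf c).smooth n a b d)) k
  exact (h 1 0 0 0).sub (contDiff_const.mul (((h 0 2 0 0).add (h 0 0 2 0)).add (h 0 0 0 2)))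

theorem force_perx (ν : ℝ) (c : Inp) (t : ℝ) (x : E) (k : Fin 3 → ℤ) :
    (sysOf c).force ν t (x + fun i => (k i : ℝ)) = (sysOf c).force ν t x := by
  unfold Sys.force
  simp only [Sys.per_U]

end Vale.Agent.P113
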