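import Mathlib

set_option linter.unusedSectionVars false
set_option linter.unusedVariables false

open MeasureTheory Filter Topology Set
open scoped BoundedContinuousFunction

namespace Vale.Agent.P113

/-- the window operator -/
noncomputable def Tf (g : ℝ → ℝ) (x : ℝ) : ℝ := ∫ r in (2*x-1)..(2*x), g r

theorem Tf_cont {g : ℝ → ℝ} (hg : Continuous g) : Continuous (Tf g) := by
  have h1 : Continuous fun y : ℝ => ∫ r in (0:ℝ)..y, g r :=
    intervalIntegral.continuous_primitive (fun a b => hg.intervalIntegrable a b) 0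
  have h2 : Tf g = fun x => (∫ r in (0:ℝ)..(2*x), g r) - ∫ r in (0:ℝ)..(2*x-1), g r := by
    funext x
    unfold Tf
    rw [intervalIntegral.integral_interval_sub_left (hg.intervalIntegrable _ _)
      (hg.intervalIntegrable _ _)]
  rw [h2]
  exact (h1.comp (by fun_prop)).sub (h1.comp (by fun_prop))

noncomputable def TB (g : ℝ →ᵇ ℝ) : ℝ →ᵇ ℝ :=
  BoundedContinuousFunction.ofNormedAddCommGroup (Tf g) (Tf_cont g.continuous) ‖g‖ (by
    intro x
    unfold Tf
    have h := intervalIntegral.norm_integral_le_of_norm_le_const (a := 2*x-1) (b := 2*x)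
      (f := g) (C := ‖g‖) (fun r _ => g.norm_coe_le_norm r)
    have e : |2*x - (2*x-1)| = 1 := by
      rw [show 2*x - (2*x-1) = 1 by ring]; simp
    rw [e, mul_one] at h
    exact h)

theorem TB_apply (g : ℝ →ᵇ ℝ) (x : ℝ) : TB g x = ∫ r in (2*x-1)..(2*x), g r := rfl

def XS : Set (ℝ →ᵇ ℝ) := {g | (∀ x ≤ 0, g x = 0) ∧ (∀ x, g (1-x) = 1 - g x) ∧ ∀ x, 0 ≤ g x}

theorem XS_closed : IsClosed XS := by
  unfold XS
  have hev : ∀ x : ℝ, Continuous fun g : ℝ →ᵇ ℝ => g x := fun x =>
    BoundedContinuousFunction.lipschitz_eval_const x |>.continuous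
  have h1 : IsClosed {g : ℝ →ᵇ ℝ | ∀ x ≤ 0, g x = 0} := by
    have : {g : ℝ →ᵇ ℝ | ∀ x ≤ 0, g x = 0} = ⋂ x : ℝ, ⋂ _ : x ≤ 0, {g : ℝ →ᵇ ℝ | g x = 0} := by
      ext g; simp
    rw [this]
    refine isClosed_iInter fun x => isClosed_iInter fun _ => ?_
    exact isClosed_eq (hev _) continuous_const
  have h2 : IsClosed {g : ℝ →ᵇ ℝ | ∀ x, g (1-x) = 1 - g x} := by
    have : {g : ℝ →ᵇ ℝ | ∀ x, g (1-x) = 1 - g x} = ⋂ x : ℝ, {g : ℝ →ᵇ ℝ | g (1-x) = 1 - g x} := by
      ext g; simp
    rw [this]
    refine isClosed_iInter fun x => ?_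
    exact isClosed_eq (hev _) (continuous_const.sub (hev _))
  have h3 : IsClosed {g : ℝ →ᵇ ℝ | ∀ x, 0 ≤ g x} := by
    have : {g : ℝ →ᵇ ℝ | ∀ x, 0 ≤ g x} = ⋂ x : ℝ, {g : ℝ →ᵇ ℝ | 0 ≤ g x} := by
      ext g; simp
    rw [this]
    refine isClosed_iInter fun x => ?_
    exact isClosed_le continuous_const (hev _)
  exact h1.inter (h2.inter h3)

theorem XS_maps : MapsTo TB XS XS := by
  intro g hg
  obtain ⟨h0, h1, hp⟩ := hg
  refine ⟨?_, ?_, ?_⟩
  · intro x hx
    rw [TB_apply]
    have : ∫ r in (2*x-1)..(2*x), g r = ∫ r in (2*x-1)..(2*x), (0:ℝ) := by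
      apply intervalIntegral.integral_congr
      intro r hr
      rw [Set.uIcc_of_le (by linarith)] at hr
      exact h0 r (by linarith [hr.2])
    rw [this]; simp
  · intro x
    rw [TB_apply, TB_apply]
    have e1 : ∫ r in (2*x-1)..(2*x), g r = ∫ r in (2*x-1)..(2*x), (1 - g (1 - r)) := by
      apply intervalIntegral.integral_congr
      intro r _
      have := h1 r
      simp only
      linarith
    have e2 : ∫ r in (2*x-1)..(2*x), g (1 - r) = ∫ r in (2*(1-x)-1)..(2*(1-x)), g r := by
      rw [intervalIntegral.integral_comp_sub_left (fun r => g r) 1]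
      congr 1 <;> ring
    have hc : IntervalIntegrable (fun r => g (1 - r)) volume (2*x-1) (2*x) :=
      (g.continuous.comp (by fun_prop : Continuous fun r : ℝ => 1 - r)).intervalIntegrable _ _
    rw [e1, intervalIntegral.integral_sub _root_.intervalIntegrable_const hc, e2]
    simp
  · intro x
    rw [TB_apply]
    exact intervalIntegral.integral_nonneg (by linarith) (fun r _ => hp r)

/-- difference bound -/
theorem TB_contr {g h : ℝ →ᵇ ℝ} (hg : g ∈ XS) (hh : h ∈ XS) : dist (TB g) (TB h) ≤ 1/2 * dist g h := by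
  rw [BoundedContinuousFunction.dist_le (by positivity)]
  set d := dist g h with hd
  have hd0 : 0 ≤ d := dist_nonneg
  have hD : ∀ r, |g r - h r| ≤ d := fun r => by
    have := BoundedContinuousFunction.dist_coe_le_dist (f := g) (g := h) r
    rwa [Real.dist_eq] at this
  have hint : ∀ a b, IntervalIntegrable (fun r => g r - h r) volume a b := fun a b =>
    (g.continuous.sub h.continuous).intervalIntegrable a b
  have hbd : ∀ a b, a ≤ b → |∫ r in a..b, (g r - h r)| ≤ d * (b - a) := by
    intro a b hab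
    have := intervalIntegral.norm_integral_le_of_norm_le_const (a := a) (b := b)
      (f := fun r => g r - h r) (C := d) (fun r _ => hD r)
    rwa [abs_of_nonneg (by linarith : (0:ℝ) ≤ b - a)] at this
  have hneg : ∀ a b, a ≤ b → b ≤ 0 → ∫ r in a..b, (g r - h r) = 0 := by
    intro a b hab hb
    have : ∫ r in a..b, (g r - h r) = ∫ r in a..b, (0:ℝ) := by
      apply intervalIntegral.integral_congr
      intro r hr
      rw [Set.uIcc_of_le hab] at hr
      have hr0 : r ≤ 0 := le_trans hr.2 hb
      simp only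
      rw [hg.1 r hr0, hh.1 r hr0]; ring
    rw [this]; simp
  have hanti : ∀ r, g (1-r) - h (1-r) = -(g r - h r) := fun r => by
    rw [hg.2.1 r, hh.2.1 r]; ring
  have hpos : ∀ a b, a ≤ b → 1 ≤ a → ∫ r in a..b, (g r - h r) = 0 := by
    intro a b hab ha
    have e : ∫ r in a..b, (g r - h r) = ∫ r in (1-b)..(1-a), (g (1-r) - h (1-r)) := by
      rw [intervalIntegral.integral_comp_sub_left (fun r => g r - h r) 1]
      congr 1 <;> ring
    rw [e]
    simp_rw [hanti]
    rw [intervalIntegral.integral_neg, hneg _ _ (by linarith) (by linarith), neg_zero]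
  have hfull : ∫ r in (0:ℝ)..1, (g r - h r) = 0 := by
    have e : ∫ r in (0:ℝ)..1, (g r - h r) = ∫ r in (0:ℝ)..1, (g (1-r) - h (1-r)) := by
      rw [intervalIntegral.integral_comp_sub_left (fun r => g r - h r) 1]
      congr 1 <;> ring
    have e2 := e
    simp_rw [hanti] at e2
    rw [intervalIntegral.integral_neg] at e2
    linarith
  have half : ∀ w, 0 ≤ w → w ≤ 1 → |∫ r in (0:ℝ)..w, (g r - h r)| ≤ 1/2 * d := by
    intro w h0 h1
    rcases le_total w (1/2) with hw | hw
    · refine (hbd 0 w h0).trans ?_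
      nlinarith
    · have e : ∫ r in (0:ℝ)..w, (g r - h r) = - ∫ r in w..1, (g r - h r) := by
        have := intervalIntegral.integral_add_adjacent_intervals (hint 0 w) (hint w 1)
        linarith
      rw [e, abs_neg]
      refine (hbd w 1 h1).trans ?_
      nlinarith
  intro x
  rw [TB_apply, TB_apply, Real.dist_eq, ← intervalIntegral.integral_sub
    (g.continuous.intervalIntegrable _ _) (h.continuous.intervalIntegrable _ _)]
  rcases le_total x 0 with hx0 | hx0
  · rw [hneg _ _ (by linarith) (by linarith)]; simp; positivity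
  rcases le_total 1 x with hx1 | hx1
  · rw [hpos _ _ (by linarith) (by linarith)]; simp; positivity
  rcases le_total x (1/2) with hx | hx
  · have e : ∫ r in (2*x-1)..(2*x), (g r - h r) = ∫ r in (0:ℝ)..(2*x), (g r - h r) := by
      rw [← intervalIntegral.integral_add_adjacent_intervals (hint (2*x-1) 0) (hint 0 (2*x)),
        hneg _ _ (by linarith) le_rfl, zero_add]
    rw [e]
    exact half _ (by linarith) (by linarith)
  · have e : ∫ r in (2*x-1)..(2*x), (g r - h r) = - ∫ r in (0:ℝ)..(2*x-1), (g r - h r) := by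
      have e1 := intervalIntegral.integral_add_adjacent_intervals (hint (2*x-1) 1) (hint 1 (2*x))
      have e2 := intervalIntegral.integral_add_adjacent_intervals (hint 0 (2*x-1)) (hint (2*x-1) 1)
      rw [hpos 1 (2*x) (by linarith) le_rfl, add_zero] at e1
      linarith
    rw [e, abs_neg]
    exact half _ (by linarith) (by linarith)

noncomputable def g0 : ℝ →ᵇ ℝ :=
  BoundedContinuousFunction.ofNormedAddCommGroup (fun x : ℝ => max 0 (min 1 x)) (by fun_prop) 1 (by
    intro x
    rw [Real.norm_eq_abs, abs_le]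
    constructor
    · have : (0:ℝ) ≤ max 0 (min 1 x) := le_max_left _ _
      linarith
    · exact max_le (by norm_num) (min_le_left _ _))

theorem g0_mem : g0 ∈ XS := by
  refine ⟨?_, ?_, fun x => le_max_left _ _⟩
  · intro x hx
    change max 0 (min 1 x) = 0
    rw [min_eq_right (by linarith), max_eq_left hx]
  · intro x
    change max 0 (min 1 (1-x)) = 1 - max 0 (min 1 x)
    rcases le_total x 0 with h | h
    · rw [min_eq_left (by linarith : (1:ℝ) ≤ 1 - x), min_eq_right (by linarith : x ≤ 1),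
        max_eq_left h, max_eq_right (by norm_num)]; ring
    · rcases le_total x 1 with h1 | h1
      · rw [min_eq_right (by linarith : 1 - x ≤ 1), min_eq_right h1,
          max_eq_right h, max_eq_right (by linarith)]
      · rw [min_eq_right (by linarith : 1 - x ≤ 1), min_eq_left h1,
          max_eq_left (by linarith), max_eq_right (by norm_num)]; ring

instance : CompleteSpace XS := XS_closed.completeSpace_coe
instance : Nonempty XS := ⟨⟨g0, g0_mem⟩⟩

noncomputable def TX : XS → XS := fun g => ⟨TB g.1, XS_maps g.2⟩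

theorem TX_contr : ContractingWith (1/2 : NNReal) TX := by
  refine ⟨?_, ?_⟩
  · rw [← NNReal.coe_lt_coe]; push_cast; norm_num
  · apply LipschitzWith.of_dist_le_mul
    intro g h
    have := TB_contr g.2 h.2
    rw [Subtype.dist_eq, Subtype.dist_eq]
    simpa [TX] using this

/-- the smooth step function (Fabius function) -/
noncomputable def S (x : ℝ) : ℝ := (TX_contr.fixedPoint TX).1 x

theorem S_mem : (TX_contr.fixedPoint TX).1 ∈ XS := (TX_contr.fixedPoint TX).2

theorem S_fix (x : ℝ) : S x = ∫ r in (2*x-1)..(2*x), S r := by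
  have h : TX (TX_contr.fixedPoint TX) = TX_contr.fixedPoint TX := TX_contr.fixedPoint_isFixedPt
  have h2 : TB (TX_contr.fixedPoint TX).1 = (TX_contr.fixedPoint TX).1 := by
    have := congrArg Subtype.val h
    exact this
  have h3 : TB (TX_contr.fixedPoint TX).1 x = (TX_contr.fixedPoint TX).1 x := by rw [h2]
  rw [TB_apply] at h3
  exact h3.symm

theorem S_cont : Continuous S := (TX_contr.fixedPoint TX).1.continuous

theorem S_nonpos {x : ℝ} (hx : x ≤ 0) : S x = 0 := S_mem.1 x hx

theorem S_symm (x : ℝ) : S (1 - x) = 1 - S x := S_mem.2.1 x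

theorem S_ge_one {x : ℝ} (hx : 1 ≤ x) : S x = 1 := by
  have h := S_symm x
  rw [S_nonpos (by linarith : 1 - x ≤ 0)] at h
  linarith

theorem S_hasDeriv (x : ℝ) : HasDerivAt S (2 * (S (2*x) - S (2*x-1))) x := by
  have e : S = fun x => (∫ r in (0:ℝ)..(2*x), S r) - ∫ r in (0:ℝ)..(2*x-1), S r := by
    funext x
    rw [intervalIntegral.integral_interval_sub_left (S_cont.intervalIntegrable _ _)
      (S_cont.intervalIntegrable _ _)]
    exact S_fix x
  have hP : ∀ y, HasDerivAt (fun y => ∫ r in (0:ℝ)..y, S r) (S y) y := fun y =>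
    intervalIntegral.integral_hasDerivAt_right (S_cont.intervalIntegrable _ _)
      (S_cont.stronglyMeasurableAtFilter _ _) S_cont.continuousAt
  have h1 : HasDerivAt (fun x : ℝ => ∫ r in (0:ℝ)..(2*x), S r) (S (2*x) * 2) x := by
    have hin : HasDerivAt (fun x : ℝ => 2*x) 2 x := by
      simpa using (hasDerivAt_id x).const_mul (2:ℝ)
    exact HasDerivAt.comp x (hP (2*x)) hin
  have h2 : HasDerivAt (fun x : ℝ => ∫ r in (0:ℝ)..(2*x-1), S r) (S (2*x-1) * 2) x := by
    have hin : HasDerivAt (fun x : ℝ => 2*x-1) 2 x := by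
      simpa using ((hasDerivAt_id x).const_mul (2:ℝ)).sub_const 1
    exact HasDerivAt.comp x (hP (2*x-1)) hin
  have h3 := h1.sub h2
  have h4 : HasDerivAt S (S (2*x) * 2 - S (2*x-1) * 2) x :=
    h3.congr_of_eventuallyEq (Filter.Eventually.of_forall (fun y => congrFun e y))
  convert h4 using 1
  ring

theorem S_deriv (x : ℝ) : deriv S x = 2 * (S (2*x) - S (2*x-1)) := (S_hasDeriv x).deriv

theorem S_smooth : ContDiff ℝ (⊤ : ℕ∞) S := by
  rw [contDiff_infty]
  intro n
  induction n with
  | zero => exact contDiff_zero.mpr S_cont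
  | succ n ih =>
    have : ((n + 1 : ℕ) : WithTop ℕ∞) = (n : WithTop ℕ∞) + 1 := by norm_cast
    rw [this, contDiff_succ_iff_deriv]
    refine ⟨fun x => (S_hasDeriv x).differentiableAt, ?_, ?_⟩
    · intro h
      simp at h
    · have e : deriv S = fun x => 2 * (S (2*x) - S (2*x-1)) := funext S_deriv
      rw [e]
      have h1 : ContDiff ℝ (n : WithTop ℕ∞) fun x : ℝ => S (2*x) := ih.comp (by fun_prop)
      have h2 : ContDiff ℝ (n : WithTop ℕ∞) fun x : ℝ => S (2*x-1) := ih.comp (by fun_prop)
      exact contDiff_const.mul (h1.sub h2)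

/-- `S' = 2 (S(2x) - S(2x-1))` at the level of iterated derivatives -/
theorem S_iter (n : ℕ) (x : ℝ) :
    iteratedDeriv (n+1) S x = 2^(n+1) * (iteratedDeriv n S (2*x) - iteratedDeriv n S (2*x-1)) := by
  induction n generalizing x with
  | zero =>
    simp only [iteratedDeriv_succ, iteratedDeriv_zero, S_deriv]; ring
  | succ n ih =>
    rw [iteratedDeriv_succ]
    have e : iteratedDeriv (n+1) S = fun x => 2^(n+1) * (iteratedDeriv n S (2*x) - iteratedDeriv n S (2*x-1)) :=
      funext ih
    rw [e]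
    have hd : ∀ y, HasDerivAt (iteratedDeriv n S) (iteratedDeriv (n+1) S y) y := by
      intro y
      rw [iteratedDeriv_succ]
      apply DifferentiableAt.hasDerivAt
      have := S_smooth.differentiable_iteratedDeriv n (by exact_mod_cast ENat.natCast_lt_top n)
      exact this y
    have h1 : HasDerivAt (fun x : ℝ => iteratedDeriv n S (2*x)) (iteratedDeriv (n+1) S (2*x) * 2) x := by
      have hin : HasDerivAt (fun x : ℝ => 2*x) 2 x := by
        simpa using (hasDerivAt_id x).const_mul (2:ℝ)
      exact HasDerivAt.comp x (hd (2*x)) hin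
    have h2 : HasDerivAt (fun x : ℝ => iteratedDeriv n S (2*x-1)) (iteratedDeriv (n+1) S (2*x-1) * 2) x := by
      have hin : HasDerivAt (fun x : ℝ => 2*x-1) 2 x := by
        simpa using ((hasDerivAt_id x).const_mul (2:ℝ)).sub_const 1
      exact HasDerivAt.comp x (hd (2*x-1)) hin
    have h3 : HasDerivAt (fun x : ℝ => 2^(n+1) * (iteratedDeriv n S (2*x) - iteratedDeriv n S (2*x-1)))
      (2^(n+1) * (iteratedDeriv (n+1) S (2*x) * 2 - iteratedDeriv (n+1) S (2*x-1) * 2)) x :=
      (h1.sub h2).const_mul (2^(n+1))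
    rw [h3.deriv, ← e]
    ring

theorem S_iter_nonpos (n : ℕ) {x : ℝ} (hx : x ≤ 0) : iteratedDeriv n S x = 0 := by
  induction n generalizing x with
  | zero => rw [iteratedDeriv_zero]; exact S_nonpos hx
  | succ n ih => rw [S_iter, ih (by linarith), ih (by linarith)]; simp

theorem S_iter_ge_one (n : ℕ) {x : ℝ} (hx : 1 ≤ x) : iteratedDeriv (n+1) S x = 0 := by
  induction n generalizing x with
  | zero =>
    rw [S_iter, iteratedDeriv_zero, S_ge_one (by linarith), S_ge_one (by linarith)]; simp
  | succ n ih => rw [S_iter, ih (by linarith), ih (by linarith)]; simp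

/-- linear reproduction -/
theorem S_half : S (1/2) = 1/2 := by
  have := S_symm (1/2)
  rw [show (1:ℝ) - 1/2 = 1/2 by norm_num] at this
  linarith

theorem S_lin {x : ℝ} (h1 : 1/2 ≤ x) (h2 : x ≤ 1) : S x + S (x - 1/2) = 2*x - 1/2 := by
  have key : ∀ y ∈ Icc (1/2:ℝ) 1, (fun y => S y + S (y-1/2) - 2*y) y = (fun y => S y + S (y-1/2) - 2*y) (1/2) := by
    apply constant_of_has_deriv_right_zero
    · exact ((S_cont.add (S_cont.comp (by fun_prop))).sub (by fun_prop)).continuousOn
    · intro y hy
      have a := S_hasDeriv y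
      have b : HasDerivAt (fun y => S (y-1/2)) (2 * (S (2*(y-1/2)) - S (2*(y-1/2)-1)) * 1) y :=
        HasDerivAt.comp y (S_hasDeriv (y-1/2)) ((hasDerivAt_id y).sub_const _)
      have c : HasDerivAt (fun y : ℝ => 2*y) 2 y := by
        simpa using (hasDerivAt_id y).const_mul (2:ℝ)
      have d := (a.add b).sub c
      have e : 2 * (S (2*y) - S (2*y-1)) + 2 * (S (2*(y-1/2)) - S (2*(y-1/2)-1)) * 1 - 2 = 0 := by
        rw [S_ge_one (by linarith [hy.1] : (1:ℝ) ≤ 2*y), S_nonpos (by linarith [hy.2] : 2*(y-1/2)-1 ≤ 0),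
          show 2*(y-1/2) = 2*y-1 by ring]
        ring
      rw [e] at d
      exact d.hasDerivWithinAt
  have h := key x ⟨h1, h2⟩
  simp only at h
  rw [S_half, show (1/2:ℝ) - 1/2 = 0 by norm_num, S_nonpos le_rfl] at h
  linarith

theorem S_nonneg (x : ℝ) : 0 ≤ S x := S_mem.2.2 x

theorem S_le_one (x : ℝ) : S x ≤ 1 := by
  have h1 := S_nonneg (1 - x)
  rw [S_symm] at h1
  linarith

end Vale.Agent.P113
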