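import Vale.Agent.P113.Conc

set_option linter.unusedSectionVars false
set_option linter.unusedVariables false

open MeasureTheory Filter Topology Set Function

namespace Vale.Agent.P113

/-- encoding of a stack -/
noncomputable def enc (b : ℕ) : List ℕ → ℝ
  | [] => 0
  | a :: l => (a + enc b l) / b

noncomputable def ELL (N : Inp → ℕ) (c : Inp) (v : ℝ) : ℝ := FV (linE N) c 0 v + FV (linO N) c 0 v

noncomputable def Wi (c : Inp) (i : Fin 12) (x : E) : E := fun k =>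
  ∑ e : Fin 2, if (tm i e).1 = k then
    FV ((tm i e).2 0) c 0 (x 0) * FV ((tm i e).2 1) c 0 (x 1) * FV ((tm i e).2 2) c 0 (x 2) else 0

theorem FV_one (c : Inp) (x : ℝ) : FV one c 0 x = 1 := by
  unfold one; rw [FV_cst]; simp [rv]

theorem FV_cst0 (r : Inp → Rep) (c : Inp) (x : ℝ) : FV (cst r) c 0 x = rv (r c) := by
  rw [FV_cst]; simp

theorem W0 (c : Inp) (p : E) : Wi c 0 p = ![0, 0, FV ⟨gk 0, fun c => 2 * b2 c, 0⟩ c 0 (p 0) + FV ⟨gk 1, fun c => 2 * b2 c, 0⟩ c 0 (p 1)] := by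
  funext k
  fin_cases k <;> simp [Wi, tm, Fin.sum_univ_two, FV_one]

theorem W1 (c : Inp) (p : E) : Wi c 1 p = ![FV ⟨gC 0, Dc, 0⟩ c 0 (p 2), FV ⟨gC 1, Dc, 0⟩ c 0 (p 2), 0] := by
  funext k
  fin_cases k <;> simp [Wi, tm, Fin.sum_univ_two, FV_one]

theorem W2 (c : Inp) (p : E) : Wi c 2 p = ![0, 0, rv (1, 0, Dc c - 1) * ELL u1 c (p 1)] := by
  funext k
  fin_cases k <;> simp [Wi, tm, Fin.sum_univ_two, FV_one, FV_cst0, ELL]
  ring

theorem W3 (c : Inp) (p : E) : Wi c 3 p = ![0, rv (1, bt c, bt c - 1) * ELL Dc c (p 2), 0] := by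
  funext k
  fin_cases k <;> simp [Wi, tm, Fin.sum_univ_two, FV_one, FV_cst0, ELL]
  ring

theorem W4 (c : Inp) (p : E) : Wi c 4 p = ![0, 0, rv (0, bt c, Dc c - 1) * ELL u1 c (p 1)] := by
  funext k
  fin_cases k <;> simp [Wi, tm, Fin.sum_univ_two, FV_one, FV_cst0, ELL]
  ring

theorem W5 (c : Inp) (p : E) : Wi c 5 p = ![FV ⟨gA1, Dc, 0⟩ c 0 (p 2) * ELL u1 c (p 1), 0, 0] := by
  funext k
  fin_cases k <;> simp [Wi, tm, Fin.sum_univ_two, FV_one, FV_cst0, ELL]
  ring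

theorem W6 (c : Inp) (p : E) : Wi c 6 p = ![0, ELL u1 c (p 0), 0] := by
  funext k
  fin_cases k <;> simp [Wi, tm, Fin.sum_univ_two, FV_one, FV_cst0, ELL]

theorem W7 (c : Inp) (p : E) : Wi c 7 p = ![FV ⟨gA2, Dc, 0⟩ c 0 (p 2) * ELL u1 c (p 1), 0, 0] := by
  funext k
  fin_cases k <;> simp [Wi, tm, Fin.sum_univ_two, FV_one, FV_cst0, ELL]
  ring

theorem W8 (c : Inp) (p : E) : Wi c 8 p = ![0, FV ⟨gA3, Dc, 0⟩ c 0 (p 2) * ELL u1 c (p 0), 0] := by
  funext k
  fin_cases k <;> simp [Wi, tm, Fin.sum_univ_two, FV_one, FV_cst0, ELL]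
  ring

theorem W9 (c : Inp) (p : E) : Wi c 9 p = ![FV ⟨gD 0, Dc, 0⟩ c 0 (p 2), FV ⟨gD 1, Dc, 0⟩ c 0 (p 2), 0] := by
  funext k
  fin_cases k <;> simp [Wi, tm, Fin.sum_univ_two, FV_one]

theorem W10 (c : Inp) (p : E) : Wi c 10 p = ![0, 0, FV ⟨gk' 0, fun c => 2 * b2 c, 0⟩ c 0 (p 0) + FV ⟨gk' 1, fun c => 2 * b2 c, 0⟩ c 0 (p 1)] := by
  funext k
  fin_cases k <;> simp [Wi, tm, Fin.sum_univ_two, FV_one]

theorem W11 (c : Inp) (p : E) : Wi c 11 p = ![0, rv (y0 c), 0] := by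
  funext k
  fin_cases k <;> simp [Wi, tm, Fin.sum_univ_two, FV_one, FV_cst0, rv000]

/-! evaluation of factors -/

theorem FV_node (γ : Inp → ℕ → Rep) (N : Inp → ℕ) (c : Inp) (k : ℕ) (hk : k < N c) {x : ℝ} (hx : (N c : ℝ) * x = k) :
    FV ⟨γ, N, 0⟩ c 0 x = rv (γ c k) := by
  unfold FV
  rw [Fc_zero]
  simp only [Nat.cast_zero, zero_div, sub_zero]
  rw [hx]
  have := J_int (fun m : ℤ => rv (γ c (m % (N c : ℕ)).toNat)) (k : ℤ)
  rw [Int.cast_natCast] at this
  rw [this]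
  have e : ((k:ℤ) % (N c : ℕ)).toNat = k := by
    rw [Int.emod_eq_of_lt (by positivity) (by exact_mod_cast hk)]; simp
  simp only [e]

theorem FV_flat (γ : Inp → ℕ → Rep) (N : Inp → ℕ) (c : Inp) (k : ℕ) (hk : k + 1 < N c) {x : ℝ}
    (h1 : (k:ℝ) ≤ (N c : ℝ) * x) (h2 : (N c : ℝ) * x < k + 1) (he : γ c (k+1) = γ c k) :
    FV ⟨γ, N, 0⟩ c 0 x = rv (γ c k) := by
  unfold FV
  rw [Fc_zero]
  simp only [Nat.cast_zero, zero_div, sub_zero]
  have e : ((k:ℤ) % (N c : ℕ)).toNat = k := by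
    rw [Int.emod_eq_of_lt (by positivity) (by exact_mod_cast (by omega : k < N c))]; simp
  have e' : (((k:ℤ)+1) % (N c : ℕ)).toNat = k+1 := by
    rw [Int.emod_eq_of_lt (by positivity) (by exact_mod_cast hk)]; omega
  rw [J_flat _ (k:ℤ) (by push_cast; exact h1) (by push_cast; exact h2)]
  · simp only [e]
  · simp only [e, e', he]

theorem J_smul (a : ℝ) (c : ℤ → ℝ) (y : ℝ) : J (fun k => a * c k) y = a * J c y := by
  unfold J; ring

theorem ELL_eq (N : Inp → ℕ) (c : Inp) (hN : 0 < N c) (m : ℤ) {v : ℝ} (h1 : -(3/8) ≤ (N c : ℝ) * v - m)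
    (h2 : (N c : ℝ) * v - m ≤ 3/8) : ELL N c v = N c * v - m := by
  unfold ELL FV
  rw [Fc_zero, Fc_zero]
  simp only [linE, linO, Nat.cast_zero, zero_div, sub_zero, Nat.cast_one]
  set ce : ℤ → ℝ := fun k => rv (he c (k % ((8 * N c : ℕ))).toNat) with hce
  set co : ℤ → ℝ := fun k => rv (ho c (k % ((8 * N c : ℕ))).toNat) with hco
  have hmod : ∀ k : ℤ, (k % ((8 * N c : ℕ))).toNat % 8 = (k % 8).toNat := by
    intro k
    have h8 : (0:ℤ) < ((8 * N c : ℕ) : ℤ) := by positivity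
    have a1 := Int.emod_nonneg k h8.ne'
    have a2 : (k % ((8 * N c : ℕ) : ℤ)) % 8 = k % 8 := by
      apply Int.emod_emod_of_dvd
      push_cast
      exact Dvd.intro _ rfl
    omega
  have key := ell_aux (fun k => 2 * ce k) (fun k => 2 * co k) (8*m) (by
    intro k k1 k2
    simp only [hce, he, hmod]
    rcases le_or_gt 0 (k - 8*m) with h | h
    · have e : (k % 8).toNat = (k - 8*m).toNat := by omega
      rw [e, if_pos (by omega)]
      have e2 : (((k - 8*m).toNat : ℕ) : ℝ) = (k:ℝ) - 8*m := by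
        have : (((k - 8*m).toNat : ℕ) : ℤ) = k - 8*m := Int.toNat_of_nonneg h
        have : ((((k - 8*m).toNat : ℕ) : ℤ) : ℝ) = ((k - 8*m : ℤ) : ℝ) := by rw [this]
        push_cast at this; exact this
      unfold rv
      simp only [e2]
      push_cast
      ring
    · have e : (k % 8).toNat = (k - 8*m + 8).toNat := by omega
      rw [e, if_neg (by omega)]
      have e2 : (((k - 8*m + 8).toNat : ℕ) : ℝ) = (k:ℝ) - 8*m + 8 := by
        have : (((k - 8*m + 8).toNat : ℕ) : ℤ) = k - 8*m + 8 := Int.toNat_of_nonneg (by omega)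
        have : ((((k - 8*m + 8).toNat : ℕ) : ℤ) : ℝ) = ((k - 8*m + 8 : ℤ) : ℝ) := by rw [this]
        push_cast at this; exact this
      unfold rv
      simp only [e2]
      push_cast
      ring) (by
    intro k k1 k2
    simp only [hco, ho, hmod]
    rcases le_or_gt 0 (k - 8*m) with h | h
    · have e : (k % 8).toNat = (k - 8*m).toNat := by omega
      rw [e, if_pos (by omega)]
      have e2 : (((k - 8*m).toNat : ℕ) : ℝ) = (k:ℝ) - 8*m := by
        have : (((k - 8*m).toNat : ℕ) : ℤ) = k - 8*m := Int.toNat_of_nonneg h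
        have : ((((k - 8*m).toNat : ℕ) : ℤ) : ℝ) = ((k - 8*m : ℤ) : ℝ) := by rw [this]
        push_cast at this; exact this
      unfold rv
      push_cast
      simp only [e2]
      ring
    · have e : (k % 8).toNat = (k - 8*m + 8).toNat := by omega
      rw [e, if_neg (by omega)]
      have e2 : (((k - 8*m + 8).toNat : ℕ) : ℝ) = (k:ℝ) - 8*m + 8 := by
        have : (((k - 8*m + 8).toNat : ℕ) : ℤ) = k - 8*m + 8 := Int.toNat_of_nonneg (by omega)
        have : ((((k - 8*m + 8).toNat : ℕ) : ℤ) : ℝ) = ((k - 8*m + 8 : ℤ) : ℝ) := by rw [this]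
        push_cast at this; exact this
      unfold rv
      push_cast
      simp only [e2]
      ring) (y := ((8 * N c : ℕ) : ℝ) * v) (by push_cast; linarith) (by push_cast; linarith)
  rw [J_smul, J_smul] at key
  push_cast at key ⊢
  linarith

theorem enc_nonneg (b : ℕ) (l : List ℕ) : 0 ≤ enc b l := by
  induction l with
  | nil => simp [enc]
  | cons a l ih => unfold enc; positivity

theorem enc_lt (c : Inp) (l : List ℕ) (h : ∀ a ∈ l, a < Bc c) : enc (bt c) l < 1/16 := by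
  induction l with
  | nil => simp [enc]
  | cons a l ih =>
    unfold enc
    have hb : (0:ℝ) < bt c := by exact_mod_cast bt_pos c
    rw [div_lt_iff₀ hb]
    have h1 := ih (fun x hx => h x (List.mem_cons_of_mem _ hx))
    have h2 : (a:ℝ) + 1 ≤ Bc c := by exact_mod_cast h a List.mem_cons_self
    have h3 : (bt c : ℝ) = 16 * Bc c := by unfold bt; push_cast; ring
    rw [h3]
    linarith

theorem enc_head (b : ℕ) (l : List ℕ) : enc b l = (l.headD 0 + enc b l.tail) / b := by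
  cases l with
  | nil => simp [enc]
  | cons a l => rfl

end Vale.Agent.P113
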