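import Vale.Agent.P113.Micro2

set_option linter.unusedSectionVars false
set_option linter.unusedVariables false

open Filter Topology Set Function

namespace Vale.Agent.P113

/-- raw configurations of the machine on the two-sided tape -/
structure RC where
  q : ℕ
  pos : ℤ
  tape : ℤ → ℕ

/-- the displacement coded by a number -/
def mvz (m : ℕ) : ℤ := if m = 0 then -1 else if m = 1 then 1 else 0

def rst (c : Inp) (r : RC) : RC :=
  ⟨(tab c r.q (r.tape r.pos)).1, r.pos + mvz (tab c r.q (r.tape r.pos)).2.2,
    Function.update r.tape r.pos (tab c r.q (r.tape r.pos)).2.1⟩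

def rin (c : Inp) : RC := ⟨0, 0, fun i => if 0 ≤ i then c.2.getD i.toNat 0 else 0⟩

def dat (c : Inp) (l : List ℕ) : List ℕ := l.filter (· < Kc c)

def sgn (d : ℕ) : ℤ := if d = 1 then 1 else -1

structure Rel (c : Inp) (r : RC) (m : MC) : Prop where
  hq : m.q = r.q
  hA : ∀ i : ℕ, r.tape (r.pos + sgn m.d * i) = (dat c m.A).getD i 0
  hB : ∀ i : ℕ, r.tape (r.pos - sgn m.d * (1 + i)) = (dat c m.Bs).getD i 0

theorem dat_cons_ge (c : Inp) {a : ℕ} (h : Kc c ≤ a) (l : List ℕ) : dat c (a :: l) = dat c l := by
  unfold dat; rw [List.filter_cons_of_neg (by simpa using h)]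

theorem dat_cons_lt (c : Inp) {a : ℕ} (h : a < Kc c) (l : List ℕ) : dat c (a :: l) = a :: dat c l := by
  unfold dat; rw [List.filter_cons_of_pos (by simpa using h)]

theorem Kc_le_sg (c : Inp) : Kc c ≤ sg c := by unfold sg; omega

theorem rel_skip (c : Inp) {r : RC} {m : MC} (h : Rel c r m) (ha : Kc c ≤ m.A.headD 0) :
    Rel c r (ustep c m) ∧ (ustep c m).A = m.A.tail ∧ m.A ≠ [] := by
  obtain ⟨d, q, A, Bs⟩ := m
  simp only at ha
  have hne : A ≠ [] := by
    rintro rfl
    simp only [List.headD_nil] at ha
    have := Kc_pos c; omega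
  obtain ⟨a, l, rfl⟩ := List.exists_cons_of_ne_nil hne
  simp only [List.headD_cons] at ha
  have ho : outc c d q a = (0, d, q, a, sg c) := by unfold outc; rw [if_pos ha]
  have hu : ustep c ⟨d, q, a :: l, Bs⟩ = ⟨d, q, l, sg c :: a :: Bs⟩ := by
    unfold ustep upd; simp only [List.headD_cons, ho, if_true, List.tail_cons]
  rw [hu]
  refine ⟨⟨h.hq, ?_, ?_⟩, rfl, hne⟩
  · intro i
    have := h.hA i
    simp only [dat_cons_ge c ha] at this
    exact this
  · intro i
    have := h.hB i
    simp only [dat_cons_ge c ha, dat_cons_ge c (Kc_le_sg c)] at this ⊢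
    exact this

theorem sgn_ne (d : ℕ) : sgn d ≠ 0 := by unfold sgn; split_ifs <;> omega

theorem mvz_sgn {m : ℕ} (h : m ≤ 1) : mvz m = sgn m := by
  unfold mvz sgn
  split_ifs <;> omega

theorem rel_exec (c : Inp) (hw : WF c) {r : RC} {m : MC} (hm : VM c m) (h : Rel c r m) (ha : m.A.headD 0 < Kc c) :
    Rel c (rst c r) (ustep c m) := by
  obtain ⟨d, q, A, Bs⟩ := m
  obtain ⟨q', pos, tape⟩ := r
  have hq := h.hq; have hA := h.hA; have hB := h.hB
  have hd := hm.hd; have hqK := hm.hq
  simp only at ha hq hA hB hd hqK
  subst hq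
  -- data view of A
  have hdA : dat c A = [] ∧ A = [] ∨ dat c A = A.headD 0 :: dat c A.tail := by
    cases A with
    | nil => left; exact ⟨rfl, rfl⟩
    | cons a l => right; simp only [List.headD_cons] at ha; simp [dat_cons_lt c ha]
  have hget0 : (dat c A).getD 0 0 = A.headD 0 := by
    rcases hdA with ⟨h1, h2⟩ | h1
    · rw [h1, h2]; rfl
    · rw [h1]; rfl
  have hgetS : ∀ i, (dat c A).getD (i+1) 0 = (dat c A.tail).getD i 0 := by
    intro i
    rcases hdA with ⟨h1, h2⟩ | h1
    · rw [h1, h2]; rfl
    · rw [h1, List.getD_cons_succ]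
  have htp : tape pos = A.headD 0 := by
    have := hA 0
    simp only [Nat.cast_zero, mul_zero, add_zero] at this
    rw [this, hget0]
  set a := A.headD 0 with haD
  have hjk : Kc c ≤ jk c d q a := by unfold jk; omega
  have hs' := (hw q a).2
  have hsg := sgn_ne d
  have hK : ¬ Kc c ≤ a := by omega
  by_cases hnd : (tab c q a).2.2 = d
  · have ho : outc c d q a = (0, d, (tab c q a).1, (tab c q a).2.1, jk c d q a) := by
      unfold outc; rw [if_neg hK, if_pos hnd]
    have hmv : mvz (tab c q a).2.2 = sgn d := by rw [hnd]; exact mvz_sgn hd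
    unfold ustep rst upd
    simp only [← haD, ho, htp, if_true]
    rw [hmv]
    refine ⟨rfl, ?_, ?_⟩
    · intro i
      simp only
      have hne : pos + sgn d + sgn d * (i:ℤ) ≠ pos := by
        have : sgn d * ((i:ℤ) + 1) ≠ 0 := mul_ne_zero hsg (by omega)
        intro hh
        apply this
        linarith
      rw [Function.update_of_ne hne]
      have := hA (i+1)
      rw [hgetS] at this
      rw [← this]
      congr 1
      push_cast; ring
    · intro i
      simp only
      rw [dat_cons_ge c hjk, dat_cons_lt c hs']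
      cases i with
      | zero =>
        have : pos + sgn d - sgn d * (1 + ((0:ℕ):ℤ)) = pos := by push_cast; ring
        rw [this, Function.update_self]; rfl
      | succ i =>
        have hne : pos + sgn d - sgn d * (1 + ((i+1:ℕ):ℤ)) ≠ pos := by
          have : sgn d * ((i:ℤ) + 1) ≠ 0 := mul_ne_zero hsg (by omega)
          intro hh
          apply this
          push_cast at hh
          linarith
        rw [Function.update_of_ne hne, List.getD_cons_succ, ← hB i]
        congr 1
        push_cast; ring
  · by_cases hle : (tab c q a).2.2 ≤ 1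
    · have ho : outc c d q a = (1, (tab c q a).2.2, (tab c q a).1, (tab c q a).2.1, jk c d q a) := by
        unfold outc; rw [if_neg hK, if_neg hnd, if_pos hle]
      have hsg' : sgn (tab c q a).2.2 = - sgn d := by
        unfold sgn
        split_ifs <;> omega
      have hmv : mvz (tab c q a).2.2 = - sgn d := by rw [mvz_sgn hle, hsg']
      unfold ustep rst upd
      simp only [← haD, ho, htp, one_ne_zero, if_false, if_true]
      rw [hmv]
      refine ⟨rfl, ?_, ?_⟩
      · intro i
        simp only
        rw [hsg']
        have hne : pos + -sgn d + -sgn d * (i:ℤ) ≠ pos := by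
          have : sgn d * ((i:ℤ) + 1) ≠ 0 := mul_ne_zero hsg (by omega)
          intro hh
          apply this
          linarith
        rw [Function.update_of_ne hne, ← hB i]
        congr 1
        ring
      · intro i
        simp only
        rw [hsg', dat_cons_ge c hjk, dat_cons_lt c hs']
        cases i with
        | zero =>
          have : pos + -sgn d - -sgn d * (1 + ((0:ℕ):ℤ)) = pos := by push_cast; ring
          rw [this, Function.update_self]; rfl
        | succ i =>
          have hne : pos + -sgn d - -sgn d * (1 + ((i+1:ℕ):ℤ)) ≠ pos := by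
            have : sgn d * ((i:ℤ) + 1) ≠ 0 := mul_ne_zero hsg (by omega)
            intro hh
            apply this
            push_cast at hh
            linarith
          rw [Function.update_of_ne hne, List.getD_cons_succ]
          have := hA (i+1)
          rw [hgetS] at this
          rw [← this]
          congr 1
          push_cast; ring
    · have ho : outc c d q a = (2, d, (tab c q a).1, (tab c q a).2.1, jk c d q a) := by
        unfold outc; rw [if_neg hK, if_neg hnd, if_neg hle]
      have hmv : mvz (tab c q a).2.2 = 0 := by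
        unfold mvz
        split_ifs <;> omega
      unfold ustep rst upd
      simp only [← haD, ho, htp]
      rw [hmv]
      refine ⟨rfl, ?_, ?_⟩
      · intro i
        simp only [OfNat.ofNat_ne_zero, OfNat.ofNat_ne_one, if_false]
        rw [dat_cons_lt c hs']
        cases i with
        | zero =>
          have : pos + 0 + sgn d * (((0:ℕ):ℤ)) = pos := by push_cast; ring
          rw [this, Function.update_self]; rfl
        | succ i =>
          have hne : pos + 0 + sgn d * (((i+1:ℕ):ℤ)) ≠ pos := by
            have : sgn d * ((i:ℤ) + 1) ≠ 0 := mul_ne_zero hsg (by omega)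
            intro hh
            apply this
            push_cast at hh
            linarith
          rw [Function.update_of_ne hne, List.getD_cons_succ]
          have := hA (i+1)
          rw [hgetS] at this
          rw [← this]
          congr 1
          push_cast; ring
      · intro i
        simp only [OfNat.ofNat_ne_zero, OfNat.ofNat_ne_one, if_false]
        rw [dat_cons_ge c hjk]
        have hne : pos + 0 - sgn d * (1 + (i:ℤ)) ≠ pos := by
          have : sgn d * ((i:ℤ) + 1) ≠ 0 := mul_ne_zero hsg (by omega)
          intro hh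
          apply this
          linarith
        rw [Function.update_of_ne hne, ← hB i]
        congr 1
        ring

def m0 (c : Inp) : MC := ⟨1, 0, c.2, []⟩

structure Ok (c : Inp) : Prop where
  wf : WF c
  hw : ∀ a ∈ c.2, a < Kc c

theorem vm0 (c : Inp) (h : Ok c) : VM c (m0 c) :=
  ⟨le_rfl, by have := Kc_pos c; simp only [m0]; omega, fun a ha => (h.hw a ha).le.trans (Kc_le_sg c), fun a ha => by simp [m0] at ha⟩

theorem vmn (c : Inp) (h : Ok c) (n : ℕ) : VM c ((ustep c)^[n] (m0 c)) := by
  induction n with
  | zero => exact vm0 c h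
  | succ n ih => rw [Function.iterate_succ_apply']; exact ustep_valid c h.wf ih

theorem rel0 (c : Inp) (h : Ok c) : Rel c (rin c) (m0 c) := by
  have hd : dat c c.2 = c.2 := by
    unfold dat
    rw [List.filter_eq_self]
    intro a ha; simpa using h.hw a ha
  refine ⟨rfl, ?_, ?_⟩
  · intro i
    simp only [rin, m0, sgn, if_true, hd]
    rw [if_pos (by omega)]
    congr 1
    omega
  · intro i
    simp only [rin, m0, sgn, if_true]
    rw [if_neg (by omega)]
    rfl

theorem sim_sound (c : Inp) (h : Ok c) (n : ℕ) : ∃ k, Rel c ((rst c)^[k] (rin c)) ((ustep c)^[n] (m0 c)) := by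
  induction n with
  | zero => exact ⟨0, rel0 c h⟩
  | succ n ih =>
    obtain ⟨k, hk⟩ := ih
    rw [Function.iterate_succ_apply']
    rcases le_or_gt (Kc c) (((ustep c)^[n] (m0 c)).A.headD 0) with ha | ha
    · exact ⟨k, (rel_skip c hk ha).1⟩
    · refine ⟨k+1, ?_⟩
      rw [Function.iterate_succ_apply']
      exact rel_exec c h.wf (vmn c h n) hk ha

theorem sim_next (c : Inp) (h : Ok c) (r : RC) (L : ℕ) : ∀ n, ((ustep c)^[n] (m0 c)).A.length = L → Rel c r ((ustep c)^[n] (m0 c)) →
    ∃ n', Rel c (rst c r) ((ustep c)^[n'] (m0 c)) := by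
  induction L with
  | zero =>
    intro n hn hr
    refine ⟨n+1, ?_⟩
    rw [Function.iterate_succ_apply']
    apply rel_exec c h.wf (vmn c h n) hr
    rw [List.length_eq_zero_iff.1 hn]
    have := Kc_pos c
    simp; omega
  | succ L ih =>
    intro n hn hr
    rcases le_or_gt (Kc c) (((ustep c)^[n] (m0 c)).A.headD 0) with ha | ha
    · obtain ⟨h1, h2, h3⟩ := rel_skip c hr ha
      rw [← Function.iterate_succ_apply' (ustep c)] at h1 h2
      apply ih (n+1) _ h1
      rw [h2, List.length_tail, hn]; rfl
    · refine ⟨n+1, ?_⟩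
      rw [Function.iterate_succ_apply']
      exact rel_exec c h.wf (vmn c h n) hr ha

theorem sim_complete (c : Inp) (h : Ok c) (k : ℕ) : ∃ n, Rel c ((rst c)^[k] (rin c)) ((ustep c)^[n] (m0 c)) := by
  induction k with
  | zero => exact ⟨0, rel0 c h⟩
  | succ k ih =>
    obtain ⟨n, hn⟩ := ih
    rw [Function.iterate_succ_apply']
    exact sim_next c h _ _ n rfl hn

theorem halts_iff (c : Inp) (h : Ok c) :
    (∃ k, hlt c ((rst c)^[k] (rin c)).q = true) ↔ ∃ n, hlt c ((ustep c)^[n] (m0 c)).q = true := by
  constructor
  · rintro ⟨k, hk⟩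
    obtain ⟨n, hn⟩ := sim_complete c h k
    exact ⟨n, by rw [hn.hq]; exact hk⟩
  · rintro ⟨n, hn⟩
    obtain ⟨k, hk⟩ := sim_sound c h n
    exact ⟨k, by rw [← hk.hq]; exact hn⟩

end Vale.Agent.P113
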