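import Vale.Agent.P113.Mach

set_option linter.unusedSectionVars false
set_option linter.unusedVariables false

open Filter Topology Set Function

namespace Vale.Agent.P113

theorem encF_spec (b : ℕ) (hb : 0 < b) (l : List ℕ) :
    0 < (encF b l).2 ∧ ((encF b l).1 : ℝ) = enc b l * (encF b l).2 := by
  induction l with
  | nil => simp [encF, enc]
  | cons a l ih =>
    have e1 : (encF b (a :: l)).1 = a * (encF b l).2 + (encF b l).1 := rfl
    have e2 : (encF b (a :: l)).2 = b * (encF b l).2 := rfl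
    have hb' : (0:ℝ) < b := by exact_mod_cast hb
    refine ⟨by rw [e2]; exact Nat.mul_pos hb ih.1, ?_⟩
    rw [e1, e2]
    push_cast
    have e3 : enc b (a :: l) = (a + enc b l) / b := rfl
    rw [ih.2, e3]
    field_simp

theorem rv_y0 (c : Inp) : rv (y0 c) = enc (bt c) ((sg c + 1) :: c.2) := by
  obtain ⟨h1, h2⟩ := encF_spec (bt c) (bt_pos c) ((sg c + 1) :: c.2)
  unfold rv y0
  simp only
  rw [Nat.cast_sub h1, h2]
  have h3 : (0:ℝ) < (encF (bt c) ((sg c + 1) :: c.2)).2 := by exact_mod_cast h1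
  generalize ((encF (bt c) ((sg c + 1) :: c.2)).2 : ℝ) = P at *
  generalize enc (bt c) ((sg c + 1) :: c.2) = Q at *
  simp only [Nat.cast_zero, Nat.cast_one, sub_zero, sub_add_cancel]
  field_simp

theorem Vof_eq (c : Inp) (s : ℕ) (x : E) : Vof c s x = Wi c ⟨sl s, sl_lt s⟩ x := rfl

theorem Xs_one (c : Inp) : Xs (Vof c) 0 1 = pt c (m0 c) := by
  have : Xs (Vof c) 0 1 = 0 + Wi c ⟨sl 0, sl_lt 0⟩ 0 := rfl
  rw [this, show (⟨sl 0, sl_lt 0⟩ : Fin 12) = 11 from rfl, W11, rv_y0, zero_add]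
  unfold pt m0
  simp [enc]

theorem Xs_itr (c : Inp) (n : ℕ) (i : ℕ) (hi : i ≤ 11) :
    Xs (Vof c) 0 (1 + 11*n + i) = itr c (Xs (Vof c) 0 (1 + 11*n)) i := by
  induction i with
  | zero => rfl
  | succ i ih =>
    have h1 : Xs (Vof c) 0 (1 + 11*n + (i+1)) = Xs (Vof c) 0 (1 + 11*n + i) + Vof c (1+11*n+i) (Xs (Vof c) 0 (1 + 11*n + i)) := rfl
    rw [h1, ih (by omega), itr_succ, Vof_eq]
    unfold stp
    have h2 : (⟨sl (1 + 11*n+i), sl_lt _⟩ : Fin 12) = idx i := by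
      apply Fin.ext
      simp only [idx, sl]
      rw [if_neg (by omega)]
      omega
    rw [h2]

theorem Xs_pt (c : Inp) (h : Ok c) (n : ℕ) (hn : ∀ n' < n, hlt c ((ustep c)^[n'] (m0 c)).q = false) :
    Xs (Vof c) 0 (1 + 11*n) = pt c ((ustep c)^[n] (m0 c)) := by
  induction n with
  | zero => exact Xs_one c
  | succ n ih =>
    have ih' := ih (fun n' hn' => hn n' (by omega))
    have h1 := Xs_itr c n 11 le_rfl
    have h2 := (micro c h.wf (vmn c h n) (hn n (by omega))).1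
    rw [show 1 + 11*(n+1) = 1 + 11*n + 11 by ring, h1, ih', h2, Function.iterate_succ_apply']

theorem Xs_bound (c : Inp) (h : Ok c) (hn : ∀ n', hlt c ((ustep c)^[n'] (m0 c)).q = false) (s : ℕ) :
    |Xs (Vof c) 0 s 2| ≤ 1/8 := by
  rcases Nat.eq_zero_or_pos s with h0 | h0
  · subst h0; simp [Xs]
  · obtain ⟨n, i, hi, rfl⟩ : ∃ n i, i ≤ 11 ∧ s = 1 + 11*n + i := ⟨(s-1)/11, (s-1)%11, by omega, by omega⟩
    rw [Xs_itr c n i hi, Xs_pt c h n (fun n' _ => hn n')]
    exact (micro c h.wf (vmn c h n) (hn n)).2 i hi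

theorem Xs_halt (c : Inp) (h : Ok c) (n : ℕ) (hn : ∀ n' < n, hlt c ((ustep c)^[n'] (m0 c)).q = false)
    (hh : hlt c ((ustep c)^[n] (m0 c)).q = true) : Xs (Vof c) 0 (1 + 11*n + 1) 2 = 1/2 := by
  rw [Xs_itr c n 1 (by norm_num), Xs_pt c h n hn]
  exact slot0_halt c (vmn c h n) hh

/-- the open set -/
def Oset : Set (Fin 3 → UnitAddCircle) := {p | ∃ z ∈ Ioo (3/8:ℝ) (5/8), (z : UnitAddCircle) = p 2}

theorem Oset_open : IsOpen Oset := by
  have h1 : IsOpen ((fun z : ℝ => (z : UnitAddCircle)) '' Ioo (3/8:ℝ) (5/8)) :=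
    QuotientAddGroup.isOpenMap_coe _ isOpen_Ioo
  have h2 : Oset = (fun p : Fin 3 → UnitAddCircle => p 2) ⁻¹' ((fun z : ℝ => (z : UnitAddCircle)) '' Ioo (3/8:ℝ) (5/8)) := rfl
  rw [h2]
  exact h1.preimage (continuous_apply 2)

theorem traj_iff (c : Inp) (h : Ok c) {X : ℝ → E} (h0 : X 0 = 0)
    (hX : ∀ t, 0 ≤ t → HasDerivWithinAt X ((sysOf c).U 0 0 0 0 t (X t)) (Ici 0) t) :
    (∃ t, 0 ≤ t ∧ (fun i => ((X t i : ℝ) : UnitAddCircle)) ∈ Oset) ↔ ∃ k, hlt c ((rst c)^[k] (rin c)).q = true := by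
  rw [halts_iff c h]
  have htr := traj_step (shears_of c) hX
  rw [h0] at htr
  constructor
  · intro hex
    by_contra hcon
    push Not at hcon
    have hn : ∀ n', hlt c ((ustep c)^[n'] (m0 c)).q = false := fun n' => by simpa using hcon n'
    obtain ⟨t, ht, z, hz, hzt⟩ := hex
    set s := ⌊t⌋₊
    have h1 : (s:ℝ) ≤ t := Nat.floor_le ht
    have h2 : t ≤ s + 1 := (Nat.lt_floor_add_one t).le
    have h3 := congrFun (htr s t h1 h2) 2
    have h4 : Xs (Vof c) 0 (s+1) 2 = Xs (Vof c) 0 s 2 + Vof c s (Xs (Vof c) 0 s) 2 := rfl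
    have b1 := Xs_bound c h hn s
    have b2 := Xs_bound c h hn (s+1)
    have s0 := S_nonneg (t - s)
    have s1 := S_le_one (t - s)
    simp only [Pi.add_apply, Pi.smul_apply, smul_eq_mul] at h3
    rw [abs_le] at b1 b2
    have hlo : -(1/8) ≤ X t 2 := by
      rw [h3]
      nlinarith
    have hhi : X t 2 ≤ 1/8 := by
      rw [h3]
      nlinarith
    have hz' : ((z:ℝ) : UnitAddCircle) = ((X t 2 : ℝ) : UnitAddCircle) := hzt
    rw [QuotientAddGroup.eq] at hz'
    obtain ⟨n, hn⟩ := AddSubgroup.mem_zmultiples_iff.1 hz'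
    simp only [zsmul_eq_mul, mul_one] at hn
    have c1 : (n:ℝ) < 0 := by rw [hn]; linarith [hz.1]
    have c2 : (-1:ℝ) < n := by rw [hn]; linarith [hz.2]
    have c1' : n < 0 := by exact_mod_cast c1
    have c2' : -1 < n := by exact_mod_cast c2
    omega
  · rintro hex
    classical
    have hmin := Nat.find_spec hex
    set n := Nat.find hex with hnD
    have hlt' : ∀ n' < n, hlt c ((ustep c)^[n'] (m0 c)).q = false := fun n' hn' => by
      simpa using Nat.find_min hex hn'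
    have hv := Xs_halt c h n hlt' hmin
    refine ⟨((1 + 11*n + 1 : ℕ) : ℝ), by positivity, 1/2, ⟨by norm_num, by norm_num⟩, ?_⟩
    have h3 := htr (1 + 11*n + 1) ((1 + 11*n + 1 : ℕ) : ℝ) le_rfl (by linarith)
    rw [sub_self, S_nonpos le_rfl, zero_smul, add_zero] at h3
    rw [h3]
    simp only [hv]

end Vale.Agent.P113
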