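import Vale.Agent.P113.Step

set_option linter.unusedSectionVars false
set_option linter.unusedVariables false

open MeasureTheory Filter Topology Set Function

namespace Vale.Agent.P113

theorem level_decode (c : Inp) {d q a : ℕ} (hd : d ≤ 1) (hq : q < Kc c) (ha : a ≤ sg c) :
    (d * b2 c + ((sg c + 1 + q) * bt c + a)) / b2 c = d ∧
    (d * b2 c + ((sg c + 1 + q) * bt c + a)) % b2 c = (sg c + 1 + q) * bt c + a ∧
    lo c (d * b2 c + ((sg c + 1 + q) * bt c + a)) = outc c d q a ∧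
    d * b2 c + ((sg c + 1 + q) * bt c + a) < Dc c ∧
    (((d * b2 c + ((sg c + 1 + q) * bt c + a) : ℕ)) : ℝ) / Dc c ≤ 1/16 := by
  have hb := bt_pos c
  have hb2 := b2_pos c
  have hBb : Bc c ≤ bt c := by unfold bt; omega
  have hac : a < bt c := by have : sg c < Bc c := by unfold Bc; omega
                            omega
  have hcb : sg c + 1 + q < bt c := by have : sg c + 1 + q < Bc c := by unfold Bc; omega
                                       omega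
  have hj : (sg c + 1 + q) * bt c + a < b2 c := by unfold b2; nlinarith
  set j := (sg c + 1 + q) * bt c + a with hjd
  have e1 : (d * b2 c + j) / b2 c = d := by
    rw [mul_comm, Nat.mul_add_div hb2, Nat.div_eq_of_lt hj, add_zero]
  have e2 : (d * b2 c + j) % b2 c = j := by
    rw [mul_comm, Nat.mul_add_mod, Nat.mod_eq_of_lt hj]
  have e3 : (d * b2 c + j) / bt c = d * bt c + (sg c + 1 + q) := by
    have : d * b2 c + j = (d * bt c + (sg c + 1 + q)) * bt c + a := by rw [hjd]; unfold b2; ring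
    rw [this, mul_comm, Nat.mul_add_div hb, Nat.div_eq_of_lt hac, add_zero]
  have e4 : (d * b2 c + j) % bt c = a := by
    have : d * b2 c + j = (d * bt c + (sg c + 1 + q)) * bt c + a := by rw [hjd]; unfold b2; ring
    rw [this, mul_comm, Nat.mul_add_mod, Nat.mod_eq_of_lt hac]
  have e5 : (d * bt c + (sg c + 1 + q)) % bt c = sg c + 1 + q := by
    rw [mul_comm, Nat.mul_add_mod, Nat.mod_eq_of_lt hcb]
  have hlt : d * b2 c + j < 2 * b2 c := by nlinarith
  refine ⟨e1, e2, ?_, ?_, ?_⟩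
  · unfold lo
    rw [e1, e3, e4, e5, show sg c + 1 + q - (sg c + 1) = q by omega]
  · unfold Dc; omega
  · rw [div_le_iff₀ (by exact_mod_cast Dc_pos c)]
    have h1 : ((d * b2 c + j : ℕ) : ℝ) ≤ 2 * b2 c := by exact_mod_cast hlt.le
    have h2 : (Dc c : ℝ) = 32 * b2 c := by unfold Dc; push_cast; ring
    rw [h2]
    linarith

theorem gk'_ctrl (side : ℕ) (c : Inp) {q a1 : ℕ} (h1 : a1 < bt c) :
    gk' side c (2 * ((sg c + 1 + q) * bt c + a1)) = (0, (sg c + 1 + q) * bt c, Dc c - 1) := by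
  obtain ⟨e1, e2, e3⟩ := dv1 (bt c) (sg c + 1 + q) a1 h1
  unfold gk'
  rw [e1, e2, if_neg (by omega)]

theorem gk'_sg (side : ℕ) (c : Inp) {a1 : ℕ} (h1 : a1 < bt c) :
    gk' side c (2 * (sg c * bt c + a1)) = (0, (1 - side) * b2 c + a1, Dc c - 1) := by
  obtain ⟨e1, e2, e3⟩ := dv1 (bt c) (sg c) a1 h1
  unfold gk'
  rw [e1, e2, e3, if_pos le_rfl, if_pos rfl]

theorem gk'_jk (side : ℕ) (c : Inp) {d q s a1 : ℕ} (hd : d ≤ 1) (hq : q < Kc c) (hs : s < Kc c) (h1 : a1 < bt c) :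
    gk' side c (2 * (jk c d q s * bt c + a1)) =
      ((sg c + 1 + (tab c q s).1) * bt c, d * b2 c + (sg c + 1 + q) * bt c + s, Dc c - 1) := by
  obtain ⟨e1, e2, e3⟩ := dv1 (bt c) (jk c d q s) a1 h1
  have hlt := jk_lt c hd hq hs
  have hK : 0 < Kc c := by have := Kc_pos c; omega
  unfold gk'
  rw [e1, e2, if_pos hlt.le, if_neg (by omega)]
  have f1 : jk c d q s - Kc c = (d * Kc c + q) * Kc c + s := by unfold jk; omega
  have f2 : ((d * Kc c + q) * Kc c + s) / Kc c = d * Kc c + q := by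
    rw [mul_comm, Nat.mul_add_div hK, Nat.div_eq_of_lt hs, add_zero]
  have f3 : ((d * Kc c + q) * Kc c + s) % Kc c = s := by
    rw [mul_comm, Nat.mul_add_mod, Nat.mod_eq_of_lt hs]
  have f4 : (d * Kc c + q) / Kc c = d := by
    rw [mul_comm, Nat.mul_add_div hK, Nat.div_eq_of_lt hq, add_zero]
  have f5 : (d * Kc c + q) % Kc c = q := by
    rw [mul_comm, Nat.mul_add_mod, Nat.mod_eq_of_lt hq]
  rw [f1, f2, f3, f4, f5]

theorem kp_sum (c : Inp) {d q a t t2 : ℕ} (hd : d ≤ 1) (hq : q < Kc c) (ha : a ≤ sg c) (ht : t < bt c) (ht2 : t2 < bt c)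
    (hw : WF c) (h2 : Kc c ≤ a → t2 = a) :
    rv (gk' (outc c d q a).2.1 c (2 * ((sg c + 1 + (outc c d q a).2.2.1) * bt c + t))) +
    rv (gk' (1 - (outc c d q a).2.1) c (2 * ((outc c d q a).2.2.2.2 * bt c + t2))) =
      - (((d * b2 c + ((sg c + 1 + q) * bt c + a) : ℕ)) : ℝ) / Dc c := by
  have hD : (0:ℝ) < Dc c := by exact_mod_cast Dc_pos c
  rw [gk'_ctrl _ c ht]
  unfold outc
  split_ifs with h h1 h3
  · simp only
    rw [gk'_sg _ c ht2, rvD, rvD, h2 h]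
    have : 1 - (1 - d) = d := by omega
    rw [this]
    push_cast
    ring
  all_goals
    push Not at h
    simp only
    rw [gk'_jk _ c hd hq h ht2, rvD, rvD]
    push_cast
    ring

/-- iterates within one period -/
def idx (n : ℕ) : Fin 12 := ⟨n % 11, by omega⟩
noncomputable def itr (c : Inp) (p : E) : ℕ → E
  | 0 => p
  | n+1 => stp c (idx n) (itr c p n)

theorem slot0 (c : Inp) {m : MC} (hm : VM c m) (hh : hlt c m.q = false) :
    stp c 0 (pt c m) = ![pt c m 0, pt c m 1, (((m.d * b2 c + ((sg c + 1 + m.q) * bt c + m.A.headD 0) : ℕ)) : ℝ) / Dc c] := by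
  obtain ⟨d, q, A, Bs⟩ := m
  have hd := hm.hd; have hq := hm.hq; have hA := hm.hA; have hB := hm.hB
  simp only at hd hq hA hB hh ⊢
  have hsb : sg c < bt c := by unfold bt Bc; omega
  have hsB : sg c < Bc c := by unfold Bc; omega
  have hAl : ∀ a ∈ (sg c + 1 + q) :: A, a < Bc c := by
    intro a ha
    simp only [List.mem_cons] at ha
    rcases ha with rfl | ha
    · unfold Bc; omega
    · have := hA a ha; omega
  have hBl : ∀ a ∈ Bs, a < Bc c := fun a ha => by have := hB a ha; omega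
  have ha := headD_le hA
  have ctl : ∀ side, FV ⟨gk side, fun c => 2 * b2 c, 0⟩ c 0 (enc (bt c) ((sg c + 1 + q) :: A)) =
      (((side * b2 c + ((sg c + 1 + q) * bt c + A.headD 0) : ℕ)) : ℝ)/Dc c := by
    intro side
    rw [FV_dig _ c (gk_pair side c) _ hAl]
    simp only [List.headD_cons, List.tail_cons]
    rw [gk_ctrl side c (by omega), hh, cond_false, rvD]
    push_cast; ring
  have low : ∀ side, FV ⟨gk side, fun c => 2 * b2 c, 0⟩ c 0 (enc (bt c) Bs) = 0 := by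
    intro side
    rw [FV_dig _ c (gk_pair side c) _ hBl, gk_low side c _ (headD_le hB), rv000]
    exact lt_of_le_of_lt (headD_le (tail_le hB)) hsb
  unfold stp
  rw [W0]
  rcases Nat.le_one_iff_eq_zero_or_eq_one.1 hd with h | h
  · subst h
    unfold pt
    simp only [if_true]
    funext k
    fin_cases k
    · simp
    · simp
    · simp [ctl, low]
  · subst h
    unfold pt
    simp only [one_ne_zero, if_false]
    funext k
    fin_cases k
    · simp
    · simp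
    · simp [ctl, low]

theorem slot0_halt (c : Inp) {m : MC} (hm : VM c m) (hh : hlt c m.q = true) :
    (stp c 0 (pt c m)) 2 = 1/2 := by
  obtain ⟨d, q, A, Bs⟩ := m
  have hd := hm.hd; have hq := hm.hq; have hA := hm.hA; have hB := hm.hB
  simp only at hd hq hA hB hh ⊢
  have hsb : sg c < bt c := by unfold bt Bc; omega
  have hsB : sg c < Bc c := by unfold Bc; omega
  have hAl : ∀ a ∈ (sg c + 1 + q) :: A, a < Bc c := by
    intro a ha
    simp only [List.mem_cons] at ha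
    rcases ha with rfl | ha
    · unfold Bc; omega
    · have := hA a ha; omega
  have hBl : ∀ a ∈ Bs, a < Bc c := fun a ha => by have := hB a ha; omega
  have ha := headD_le hA
  have ctl : ∀ side, FV ⟨gk side, fun c => 2 * b2 c, 0⟩ c 0 (enc (bt c) ((sg c + 1 + q) :: A)) = 1/2 := by
    intro side
    rw [FV_dig _ c (gk_pair side c) _ hAl]
    simp only [List.headD_cons, List.tail_cons]
    rw [gk_ctrl side c (by omega), hh, cond_true]
    simp [rv]; norm_num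
  have low : ∀ side, FV ⟨gk side, fun c => 2 * b2 c, 0⟩ c 0 (enc (bt c) Bs) = 0 := by
    intro side
    rw [FV_dig _ c (gk_pair side c) _ hBl, gk_low side c _ (headD_le hB), rv000]
    exact lt_of_le_of_lt (headD_le (tail_le hB)) hsb
  unfold stp
  rw [W0]
  rcases Nat.le_one_iff_eq_zero_or_eq_one.1 hd with h | h
  · subst h
    unfold pt
    simp [ctl, low]
  · subst h
    unfold pt
    simp [ctl, low]


theorem node_D (c : Inp) (γ : Inp → ℕ → Rep) {j : ℕ} (hj : j < Dc c) :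
    FV ⟨γ, Dc, 0⟩ c 0 ((j:ℝ)/Dc c) = rv (γ c j) := by
  have hD : (0:ℝ) < Dc c := by exact_mod_cast Dc_pos c
  exact FV_node γ Dc c j hj (by field_simp)

/-- slot 10 resets the third coordinate -/
theorem slot10 (c : Inp) {d q a : ℕ} (hd : d ≤ 1) (hq : q < Kc c) (ha : a ≤ sg c) (hw : WF c)
    (X Y : List ℕ) (hX : ∀ a ∈ X, a < Bc c) (hY : ∀ a ∈ Y, a < Bc c)
    (h : ((outc c d q a).2.1 = 0 ∧ (∃ X', X = (sg c + 1 + (outc c d q a).2.2.1) :: X' ∧ ∀ a ∈ X', a ≤ sg c) ∧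
        ∃ Y', Y = (outc c d q a).2.2.2.2 :: Y' ∧ (∀ a ∈ Y', a ≤ sg c) ∧ (Kc c ≤ a → Y'.headD 0 = a)) ∨
      ((outc c d q a).2.1 = 1 ∧ (∃ Y', Y = (sg c + 1 + (outc c d q a).2.2.1) :: Y' ∧ ∀ a ∈ Y', a ≤ sg c) ∧
        ∃ X', X = (outc c d q a).2.2.2.2 :: X' ∧ (∀ a ∈ X', a ≤ sg c) ∧ (Kc c ≤ a → X'.headD 0 = a))) :
    stp c 10 ![enc (bt c) X, enc (bt c) Y, (((d * b2 c + ((sg c + 1 + q) * bt c + a) : ℕ)) : ℝ) / Dc c] =
      ![enc (bt c) X, enc (bt c) Y, 0] := by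
  have hsb : sg c < bt c := by unfold bt Bc; omega
  have e0 := FV_dig _ c (gk'_pair 0 c) X hX
  have e1 := FV_dig _ c (gk'_pair 1 c) Y hY
  have key : rv (gk' 0 c (2 * (X.headD 0 * bt c + X.tail.headD 0))) + rv (gk' 1 c (2 * (Y.headD 0 * bt c + Y.tail.headD 0)))
      = - (((d * b2 c + ((sg c + 1 + q) * bt c + a) : ℕ)) : ℝ) / Dc c := by
    rcases h with ⟨h0, ⟨X', rfl, hX'⟩, ⟨Y', rfl, hY', hy⟩⟩ | ⟨h0, ⟨Y', rfl, hY'⟩, ⟨X', rfl, hX', hx⟩⟩
    · have := kp_sum c (t := X'.headD 0) (t2 := Y'.headD 0) hd hq ha (lt_of_le_of_lt (headD_le hX') hsb)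
        (lt_of_le_of_lt (headD_le hY') hsb) hw hy
      rw [h0] at this
      simpa using this
    · have := kp_sum c (t := Y'.headD 0) (t2 := X'.headD 0) hd hq ha (lt_of_le_of_lt (headD_le hY') hsb)
        (lt_of_le_of_lt (headD_le hX') hsb) hw hx
      rw [h0, add_comm] at this
      simpa using this
  unfold stp
  rw [W10]
  funext k
  fin_cases k
  · simp
  · simp
  · simp only [Fin.reduceFinMk, Pi.add_apply, Matrix.cons_val, Matrix.cons_val_zero, Matrix.cons_val_one]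
    rw [e0, e1, key]
    ring

theorem idx_vals : idx 0 = 0 ∧ idx 1 = 1 ∧ idx 2 = 2 ∧ idx 3 = 3 ∧ idx 4 = 4 ∧ idx 5 = 5 ∧ idx 6 = 6 ∧ idx 7 = 7 ∧
    idx 8 = 8 ∧ idx 9 = 9 ∧ idx 10 = 10 := by
  refine ⟨rfl, rfl, rfl, rfl, rfl, rfl, rfl, rfl, rfl, rfl, rfl⟩

theorem itr_succ (c : Inp) (p : E) (n : ℕ) : itr c p (n+1) = stp c (idx n) (itr c p n) := rfl
theorem itr_zero (c : Inp) (p : E) : itr c p 0 = p := rfl

theorem period_vals (c : Inp) (p : E) (j : ℕ) (hj : j < Dc c) (hJ : (j:ℝ)/Dc c ≤ 1/16) {μ x y X Y : ℝ}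
    (hp : |p 2| ≤ 1/8) (hμ : μ ≠ 0) (hy0 : 0 ≤ y) (hy1 : y ≤ 1/16)
    (h0 : stp c 0 p = ![p 0, p 1, (j:ℝ)/Dc c])
    (h1 : stp c 1 ![p 0, p 1, (j:ℝ)/Dc c] = ![x, y, (j:ℝ)/Dc c])
    (hA1 : rv (gA1 c j) = 1/μ - 1) (hA2 : rv (gA2 c j) = μ - 1) (hA3 : rv (gA3 c j) = -(1/μ))
    (w2 : |y/bt c| ≤ 3/8) (w3 : |x + (1/μ-1) * (y/bt c)| ≤ 3/8) (w4 : |x + (y/bt c)/μ| ≤ 3/8) (w5 : |μ * x| ≤ 3/8)
    (hX : X = μ * x + rv (gD 0 c j)) (hY : Y = (y/bt c)/μ + rv (gD 1 c j))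
    (h10 : stp c 10 ![X, Y, (j:ℝ)/Dc c] = ![X, Y, 0]) :
    itr c p 11 = ![X, Y, 0] ∧ ∀ i ≤ 11, |itr c p i 2| ≤ 1/8 := by
  obtain ⟨x0, x1, x2, x3, x4, x5, x6, x7, x8, x9, x10⟩ := idx_vals
  have hD1 : (1:ℝ) ≤ Dc c := by exact_mod_cast Dc_pos c
  obtain ⟨s2, s3, s4, s5, s6, s7, s8⟩ := lin_part c j hj hμ hA1 hA2 hA3
      (by rw [abs_of_nonneg hy0]; linarith) w2 w3 w4 w5
  have hJ0 : 0 ≤ (j:ℝ)/Dc c := by positivity
  have hz : |(j:ℝ)/Dc c| ≤ 1/8 := by rw [abs_of_nonneg hJ0]; linarith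
  have i1 : itr c p 1 = ![p 0, p 1, (j:ℝ)/Dc c] := by rw [itr_succ, x0, itr_zero, h0]
  have i2 : itr c p 2 = ![x, y, (j:ℝ)/Dc c] := by rw [itr_succ, x1, i1, h1]
  have i3 : itr c p 3 = ![x, y, (j + y)/Dc c] := by rw [itr_succ, x2, i2, s2]
  have i4 : itr c p 4 = ![x, y/bt c, (j + y)/Dc c] := by rw [itr_succ, x3, i3, s3]
  have i5 : itr c p 5 = ![x, y/bt c, (j:ℝ)/Dc c] := by rw [itr_succ, x4, i4, s4]
  have i6 : itr c p 6 = ![x + (1/μ-1) * (y/bt c), y/bt c, (j:ℝ)/Dc c] := by rw [itr_succ, x5, i5, s5]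
  have i7 : itr c p 7 = ![x + (1/μ-1) * (y/bt c), x + (y/bt c)/μ, (j:ℝ)/Dc c] := by rw [itr_succ, x6, i6, s6]
  have i8 : itr c p 8 = ![μ * x, x + (y/bt c)/μ, (j:ℝ)/Dc c] := by rw [itr_succ, x7, i7, s7]
  have i9 : itr c p 9 = ![μ * x, (y/bt c)/μ, (j:ℝ)/Dc c] := by rw [itr_succ, x8, i8, s8]
  have i10 : itr c p 10 = ![X, Y, (j:ℝ)/Dc c] := by
    rw [itr_succ, x9, i9]
    unfold stp
    rw [W9]
    funext k
    fin_cases k
    · simp [node_D c _ hj, hX]
    · simp [node_D c _ hj, hY]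
    · simp
  have i11 : itr c p 11 = ![X, Y, 0] := by rw [itr_succ, x10, i10, h10]
  refine ⟨i11, ?_⟩
  have hz2 : |((j:ℝ) + y)/Dc c| ≤ 1/8 := by
    rw [add_div, abs_of_nonneg (by positivity)]
    have : y / Dc c ≤ y := div_le_self hy0 hD1
    linarith
  intro i hi
  interval_cases i
  · rw [itr_zero]; exact hp
  · rw [i1]; simpa using hz
  · rw [i2]; simpa using hz
  · rw [i3]; simpa using hz2
  · rw [i4]; simpa using hz2
  · rw [i5]; simpa using hz
  · rw [i6]; simpa using hz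
  · rw [i7]; simpa using hz
  · rw [i8]; simpa using hz
  · rw [i9]; simpa using hz
  · rw [i10]; simpa using hz
  · rw [i11]; simp

end Vale.Agent.P113
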