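import Vale.Agent.P113.Micro

set_option linter.unusedSectionVars false
set_option linter.unusedVariables false

open MeasureTheory Filter Topology Set Function

namespace Vale.Agent.P113

/-- level number -/
def lev (c : Inp) (d q a : ℕ) : ℕ := d * b2 c + ((sg c + 1 + q) * bt c + a)

theorem lev_lt (c : Inp) {d q a : ℕ} (hd : d ≤ 1) (hq : q < Kc c) (ha : a ≤ sg c) : lev c d q a < Dc c := by
  unfold lev; exact (level_decode c hd hq ha).2.2.2.1

theorem lev_le (c : Inp) {d q a : ℕ} (hd : d ≤ 1) (hq : q < Kc c) (ha : a ≤ sg c) : ((lev c d q a : ℕ) : ℝ) / Dc c ≤ 1/16 := by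
  unfold lev; exact (level_decode c hd hq ha).2.2.2.2

theorem slot0' (c : Inp) {d q : ℕ} {A Bs : List ℕ} (hm : VM c ⟨d, q, A, Bs⟩) (hh : hlt c q = false) :
    stp c 0 (pt c ⟨d, q, A, Bs⟩) = ![pt c ⟨d, q, A, Bs⟩ 0, pt c ⟨d, q, A, Bs⟩ 1, ((lev c d q (A.headD 0) : ℕ) : ℝ) / Dc c] := by
  unfold lev
  exact slot0 c hm hh

theorem sg_lt_bt (c : Inp) : sg c < bt c := by unfold bt Bc; omega
theorem sg_lt_Bc (c : Inp) : sg c < Bc c := by unfold Bc; omega
theorem btR (c : Inp) : (16:ℝ) ≤ bt c := by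
  have : 16 ≤ bt c := by unfold bt Bc; omega
  exact_mod_cast this
theorem b2R (c : Inp) : (b2 c : ℝ) = bt c * bt c := by unfold b2; push_cast; ring

theorem cons_lt (c : Inp) {q : ℕ} {l : List ℕ} (hq : q < Kc c) (hl : ∀ a ∈ l, a ≤ sg c) :
    ∀ a ∈ (sg c + 1 + q) :: l, a < Bc c := by
  intro a ha
  simp only [List.mem_cons] at ha
  rcases ha with rfl | ha
  · unfold Bc; omega
  · have := hl a ha; have := sg_lt_Bc c; omega

theorem cons2_lt (c : Inp) {u v : ℕ} {l : List ℕ} (hu : u ≤ sg c) (hv : v ≤ sg c) (hl : ∀ a ∈ l, a ≤ sg c) :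
    ∀ a ∈ u :: v :: l, a < Bc c := by
  intro a ha
  have := sg_lt_Bc c
  simp only [List.mem_cons] at ha
  rcases ha with rfl | rfl | ha
  · omega
  · omega
  · have := hl a ha; omega

theorem enc_lt' (c : Inp) (l : List ℕ) (h : ∀ a ∈ l, a ≤ sg c) : enc (bt c) l ≤ 1/16 :=
  (enc_lt c l fun a ha => by have := h a ha; have := sg_lt_Bc c; omega).le

theorem gC_eval (c : Inp) (side : ℕ) {d q a : ℕ} (hd : d ≤ 1) (hq : q < Kc c) (ha : a ≤ sg c) :
    rv (gC side c (lev c d q a)) = if d = side then - ((((sg c + 1 + q) * bt c + a : ℕ)) : ℝ)/b2 c else 0 := by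
  obtain ⟨l1, l2, l3, l4, l5⟩ := level_decode c hd hq ha
  unfold gC lev
  rw [l1, l2]
  split_ifs
  · rw [rvb2]; push_cast; ring
  · exact rv000

theorem gD_eval (c : Inp) (side : ℕ) {d q a ty nd nq c1 c2 : ℕ} (hd : d ≤ 1) (hq : q < Kc c) (ha : a ≤ sg c)
    (ho : outc c d q a = (ty, nd, nq, c1, c2)) :
    rv (gD side c (lev c d q a)) = if ty = 2 then
      (if nd = side then ((((sg c + 1 + nq) * bt c + c1 : ℕ)) : ℝ)/b2 c else ((c2 : ℕ) : ℝ)/bt c)
      else (if nd = side then ((sg c + 1 + nq : ℕ) : ℝ)/bt c else (((c2 * bt c + c1 : ℕ)) : ℝ)/b2 c) := by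
  obtain ⟨l1, l2, l3, l4, l5⟩ := level_decode c hd hq ha
  unfold gD lev
  rw [l3, ho]
  simp only
  split_ifs
  · rw [rvb2]; push_cast; ring
  · rw [rvb]; push_cast; ring
  · rw [rvb]; push_cast; ring
  · rw [rvb2]; push_cast; ring

theorem gA_eval (c : Inp) {d q a ty nd nq c1 c2 : ℕ} (hd : d ≤ 1) (hq : q < Kc c) (ha : a ≤ sg c)
    (ho : outc c d q a = (ty, nd, nq, c1, c2)) {μ : ℝ}
    (hμ : μ = if d = 0 then (if ty = 0 then (bt c : ℝ) else 1) else (if ty = 0 then 1/(b2 c : ℝ) else 1/(bt c : ℝ))) :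
    rv (gA1 c (lev c d q a)) = 1/μ - 1 ∧ rv (gA2 c (lev c d q a)) = μ - 1 ∧ rv (gA3 c (lev c d q a)) = -(1/μ) := by
  obtain ⟨l1, l2, l3, l4, l5⟩ := level_decode c hd hq ha
  have hb : (0:ℝ) < bt c := by exact_mod_cast bt_pos c
  have hb2 : (0:ℝ) < b2 c := by exact_mod_cast b2_pos c
  unfold gA1 gA2 gA3 lev
  rw [l1, l3, ho]
  simp only
  split_ifs at hμ ⊢ with h1 h2 h3
  · subst hμ
    refine ⟨?_, ?_, ?_⟩
    · rw [rvb]; push_cast; field_simp
    · rw [rv0]; push_cast; ring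
    · rw [rvb]; push_cast; ring
  · subst hμ
    refine ⟨?_, ?_, ?_⟩
    · rw [rv000]; ring
    · rw [rv000]; ring
    · rw [rv0]; push_cast; ring
  · subst hμ
    refine ⟨?_, ?_, ?_⟩
    · rw [rv0]; push_cast; field_simp
    · rw [rvb2]; push_cast; field_simp
    · rw [rv0]; push_cast; field_simp; ring
  · subst hμ
    refine ⟨?_, ?_, ?_⟩
    · rw [rv0]; push_cast; field_simp
    · rw [rvb]; push_cast; field_simp
    · rw [rv0]; push_cast; field_simp; ring

theorem enc_c2 (c : Inp) (c1 c2 : ℕ) (l : List ℕ) :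
    enc (bt c) (c2 :: c1 :: l) = enc (bt c) l / b2 c + (((c2 * bt c + c1 : ℕ)) : ℝ)/b2 c := by
  have hb : (0:ℝ) < bt c := by exact_mod_cast bt_pos c
  simp only [enc]
  rw [b2R]
  push_cast
  field_simp
  ring

theorem enc_c1 (c : Inp) (q : ℕ) (l : List ℕ) :
    enc (bt c) ((sg c + 1 + q) :: l) = enc (bt c) l / bt c + ((sg c + 1 + q : ℕ) : ℝ)/bt c := by
  simp only [enc]
  push_cast
  ring

theorem enc_ctrl (c : Inp) (q : ℕ) (A : List ℕ) :
    enc (bt c) ((sg c + 1 + q) :: A) = ((((sg c + 1 + q) * bt c + A.headD 0 : ℕ)) : ℝ)/b2 c + enc (bt c) A.tail / b2 c := by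
  have hb : (0:ℝ) < bt c := by exact_mod_cast bt_pos c
  have : enc (bt c) ((sg c + 1 + q) :: A) = ((sg c + 1 + q : ℕ) + enc (bt c) A) / bt c := rfl
  rw [this, enc_head (bt c) A, b2R]
  push_cast
  field_simp
  ring

/-- the recentering step -/
theorem recenter0 (c : Inp) {q : ℕ} {A Bs : List ℕ} (hq : q < Kc c) (hA : ∀ a ∈ A, a ≤ sg c) :
    stp c 1 ![pt c ⟨0, q, A, Bs⟩ 0, pt c ⟨0, q, A, Bs⟩ 1, ((lev c 0 q (A.headD 0) : ℕ) : ℝ)/Dc c] =
      ![enc (bt c) A.tail / b2 c, enc (bt c) Bs, ((lev c 0 q (A.headD 0) : ℕ) : ℝ)/Dc c] := by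
  have ha := headD_le hA
  have l4 : lev c 0 q (A.headD 0) < Dc c := lev_lt c (Nat.zero_le 1) hq ha
  have hp0 : pt c ⟨0, q, A, Bs⟩ 0 = enc (bt c) ((sg c + 1 + q) :: A) := by simp [pt]
  have hp1 : pt c ⟨0, q, A, Bs⟩ 1 = enc (bt c) Bs := by simp [pt]
  unfold stp
  rw [W1, hp0, hp1]
  funext k
  fin_cases k
  · simp only [Fin.zero_eta, Pi.add_apply, Matrix.cons_val_zero, Matrix.cons_val]
    rw [node_D c _ l4, gC_eval c 0 (Nat.zero_le 1) hq ha, if_pos rfl, enc_ctrl]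
    ring
  · simp only [Fin.mk_one, Pi.add_apply, Matrix.cons_val_one, Matrix.cons_val_zero, Matrix.cons_val]
    rw [node_D c _ l4, gC_eval c 1 (Nat.zero_le 1) hq ha, if_neg (by omega)]
    ring
  · simp

theorem recenter1 (c : Inp) {q : ℕ} {A Bs : List ℕ} (hq : q < Kc c) (hA : ∀ a ∈ A, a ≤ sg c) :
    stp c 1 ![pt c ⟨1, q, A, Bs⟩ 0, pt c ⟨1, q, A, Bs⟩ 1, ((lev c 1 q (A.headD 0) : ℕ) : ℝ)/Dc c] =
      ![enc (bt c) Bs, enc (bt c) A.tail / b2 c, ((lev c 1 q (A.headD 0) : ℕ) : ℝ)/Dc c] := by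
  have ha := headD_le hA
  have l4 : lev c 1 q (A.headD 0) < Dc c := lev_lt c le_rfl hq ha
  have hp0 : pt c ⟨1, q, A, Bs⟩ 0 = enc (bt c) Bs := by simp [pt]
  have hp1 : pt c ⟨1, q, A, Bs⟩ 1 = enc (bt c) ((sg c + 1 + q) :: A) := by simp [pt]
  unfold stp
  rw [W1, hp0, hp1]
  funext k
  fin_cases k
  · simp only [Fin.zero_eta, Pi.add_apply, Matrix.cons_val_zero, Matrix.cons_val]
    rw [node_D c _ l4, gC_eval c 0 le_rfl hq ha, if_neg (by omega)]
    ring
  · simp only [Fin.mk_one, Pi.add_apply, Matrix.cons_val_one, Matrix.cons_val_zero, Matrix.cons_val]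
    rw [node_D c _ l4, gC_eval c 1 le_rfl hq ha, if_pos rfl, enc_ctrl]
    ring
  · simp

theorem pt2 (c : Inp) (m : MC) : |pt c m 2| ≤ 1/8 := by
  unfold pt; split_ifs <;> simp


theorem slot10' (c : Inp) {d q a ty nd nq c1 c2 : ℕ} (hd : d ≤ 1) (hq : q < Kc c) (ha : a ≤ sg c) (hw : WF c)
    (ho : outc c d q a = (ty, nd, nq, c1, c2)) {X Y : List ℕ} (hX : ∀ a ∈ X, a < Bc c) (hY : ∀ a ∈ Y, a < Bc c)
    (h : (nd = 0 ∧ (∃ X', X = (sg c + 1 + nq) :: X' ∧ ∀ a ∈ X', a ≤ sg c) ∧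
        ∃ Y', Y = c2 :: Y' ∧ (∀ a ∈ Y', a ≤ sg c) ∧ (Kc c ≤ a → Y'.headD 0 = a)) ∨
      (nd = 1 ∧ (∃ Y', Y = (sg c + 1 + nq) :: Y' ∧ ∀ a ∈ Y', a ≤ sg c) ∧
        ∃ X', X = c2 :: X' ∧ (∀ a ∈ X', a ≤ sg c) ∧ (Kc c ≤ a → X'.headD 0 = a))) :
    stp c 10 ![enc (bt c) X, enc (bt c) Y, ((lev c d q a : ℕ) : ℝ) / Dc c] = ![enc (bt c) X, enc (bt c) Y, 0] := by
  have := slot10 c hd hq ha hw X Y hX hY (by rw [ho]; exact h)
  unfold lev
  exact this

attribute [local irreducible] lev bt b2 Dc Bc sg Kc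

theorem core0_go (c : Inp) {q ty nd nq c1 c2 : ℕ} {A Bs X Y : List ℕ} (hm : VM c ⟨0, q, A, Bs⟩) (hh : hlt c q = false)
    (ho : outc c 0 q (A.headD 0) = (ty, nd, nq, c1, c2)) (hty : ty = 0)
    (hX : enc (bt c) X = enc (bt c) A.tail / bt c + rv (gD 0 c (lev c 0 q (A.headD 0))))
    (hY : enc (bt c) Y = enc (bt c) Bs / b2 c + rv (gD 1 c (lev c 0 q (A.headD 0))))
    (h10 : stp c 10 ![enc (bt c) X, enc (bt c) Y, ((lev c 0 q (A.headD 0) : ℕ) : ℝ) / Dc c] = ![enc (bt c) X, enc (bt c) Y, 0]) :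
    itr c (pt c ⟨0, q, A, Bs⟩) 11 = ![enc (bt c) X, enc (bt c) Y, 0] ∧
      ∀ i ≤ 11, |itr c (pt c ⟨0, q, A, Bs⟩) i 2| ≤ 1/8 := by
  have hs0 := slot0' c hm hh
  have hd := hm.hd; have hq := hm.hq; have hA := hm.hA; have hB := hm.hB
  simp only at hd hq hA hB hh hs0
  have ha := headD_le hA
  have l4 := lev_lt c hd hq ha
  have l5 := lev_le c hd hq ha
  obtain ⟨a1, a2, a3⟩ := gA_eval c hd hq ha ho (μ := bt c) (by simp [hty])
  have hb : (0:ℝ) < bt c := by exact_mod_cast bt_pos c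
  have hb16 := btR c
  have hb2 := b2R c
  have e0 := enc_nonneg (bt c) A.tail
  have e1 := enc_lt' c A.tail (tail_le hA)
  have eb0 := enc_nonneg (bt c) Bs
  have eb1 := enc_lt' c Bs hB
  have hrec := recenter0 c (Bs := Bs) hq hA
  generalize enc (bt c) A.tail = e at *
  generalize enc (bt c) Bs = eb at *
  have hinv : 1/(bt c:ℝ) ≤ 1 := by rw [div_le_one hb]; linarith
  have hebb : eb / bt c ≤ 1/16 := (div_le_self eb0 (by linarith)).trans eb1
  have heb' : e / bt c ≤ 1/16 := (div_le_self e0 (by linarith)).trans e1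
  have heb2 : e / b2 c ≤ 1/16 := by
    rw [hb2]
    exact (div_le_self e0 (by nlinarith)).trans e1
  have hy : eb / bt c / bt c ≤ 1/16 := (div_le_self (by positivity) (by linarith)).trans hebb
  apply period_vals c (pt c ⟨0, q, A, Bs⟩) (lev c 0 q (A.headD 0)) l4 l5 (μ := bt c) (x := e / b2 c) (y := eb) (pt2 c _) hb.ne' eb0 eb1 hs0 hrec a1 a2 a3
  · rw [abs_of_nonneg (by positivity)]; linarith
  · rw [abs_le]
    have b1 : (1/(bt c:ℝ) - 1) * (eb / bt c) ≤ 0 := by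
      apply mul_nonpos_of_nonpos_of_nonneg
      · linarith
      · positivity
    have b2' : -(eb / bt c) ≤ (1/(bt c:ℝ) - 1) * (eb / bt c) := by
      have : 0 ≤ 1/(bt c:ℝ) * (eb / bt c) := by positivity
      linarith
    have b3 : 0 ≤ e / b2 c := by positivity
    constructor <;> linarith
  · rw [abs_of_nonneg (by positivity)]; linarith
  · rw [abs_of_nonneg (by positivity)]
    have : (bt c:ℝ) * (e / b2 c) = e / bt c := by rw [hb2]; field_simp
    rw [this]; linarith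
  · rw [hX, hb2]; field_simp
  · rw [hY, hb2]; field_simp
  · exact h10

theorem core0_tw (c : Inp) {q ty nd nq c1 c2 : ℕ} {A Bs X Y : List ℕ} (hm : VM c ⟨0, q, A, Bs⟩) (hh : hlt c q = false)
    (ho : outc c 0 q (A.headD 0) = (ty, nd, nq, c1, c2)) (hty : ty ≠ 0)
    (hX : enc (bt c) X = enc (bt c) A.tail / b2 c + rv (gD 0 c (lev c 0 q (A.headD 0))))
    (hY : enc (bt c) Y = enc (bt c) Bs / bt c + rv (gD 1 c (lev c 0 q (A.headD 0))))
    (h10 : stp c 10 ![enc (bt c) X, enc (bt c) Y, ((lev c 0 q (A.headD 0) : ℕ) : ℝ) / Dc c] = ![enc (bt c) X, enc (bt c) Y, 0]) :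
    itr c (pt c ⟨0, q, A, Bs⟩) 11 = ![enc (bt c) X, enc (bt c) Y, 0] ∧
      ∀ i ≤ 11, |itr c (pt c ⟨0, q, A, Bs⟩) i 2| ≤ 1/8 := by
  have hs0 := slot0' c hm hh
  have hd := hm.hd; have hq := hm.hq; have hA := hm.hA; have hB := hm.hB
  simp only at hd hq hA hB hh hs0
  have ha := headD_le hA
  have l4 := lev_lt c hd hq ha
  have l5 := lev_le c hd hq ha
  obtain ⟨a1, a2, a3⟩ := gA_eval c hd hq ha ho (μ := 1) (by simp [hty])
  have hb : (0:ℝ) < bt c := by exact_mod_cast bt_pos c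
  have hb16 := btR c
  have hb2 := b2R c
  have e0 := enc_nonneg (bt c) A.tail
  have e1 := enc_lt' c A.tail (tail_le hA)
  have eb0 := enc_nonneg (bt c) Bs
  have eb1 := enc_lt' c Bs hB
  have hrec := recenter0 c (Bs := Bs) hq hA
  generalize enc (bt c) A.tail = e at *
  generalize enc (bt c) Bs = eb at *
  have hebb : eb / bt c ≤ 1/16 := (div_le_self eb0 (by linarith)).trans eb1
  have heb2 : e / b2 c ≤ 1/16 := by
    rw [hb2]
    exact (div_le_self e0 (by nlinarith)).trans e1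
  apply period_vals c (pt c ⟨0, q, A, Bs⟩) (lev c 0 q (A.headD 0)) l4 l5 (μ := 1) (x := e / b2 c) (y := eb) (pt2 c _) one_ne_zero eb0 eb1 hs0 hrec a1 a2 a3
  · rw [abs_of_nonneg (by positivity)]; linarith
  · rw [show (1/(1:ℝ) - 1) = 0 by norm_num, zero_mul, add_zero, abs_of_nonneg (by positivity)]; linarith
  · rw [div_one, abs_of_nonneg (by positivity)]; linarith
  · rw [one_mul, abs_of_nonneg (by positivity)]; linarith
  · rw [hX]; ring
  · rw [hY]; ring
  · exact h10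

theorem core1_tw (c : Inp) {q ty nd nq c1 c2 : ℕ} {A Bs X Y : List ℕ} (hm : VM c ⟨1, q, A, Bs⟩) (hh : hlt c q = false)
    (ho : outc c 1 q (A.headD 0) = (ty, nd, nq, c1, c2)) (hty : ty ≠ 0)
    (hX : enc (bt c) X = enc (bt c) Bs / bt c + rv (gD 0 c (lev c 1 q (A.headD 0))))
    (hY : enc (bt c) Y = enc (bt c) A.tail / b2 c + rv (gD 1 c (lev c 1 q (A.headD 0))))
    (h10 : stp c 10 ![enc (bt c) X, enc (bt c) Y, ((lev c 1 q (A.headD 0) : ℕ) : ℝ) / Dc c] = ![enc (bt c) X, enc (bt c) Y, 0]) :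
    itr c (pt c ⟨1, q, A, Bs⟩) 11 = ![enc (bt c) X, enc (bt c) Y, 0] ∧
      ∀ i ≤ 11, |itr c (pt c ⟨1, q, A, Bs⟩) i 2| ≤ 1/8 := by
  have hs0 := slot0' c hm hh
  have hd := hm.hd; have hq := hm.hq; have hA := hm.hA; have hB := hm.hB
  simp only at hd hq hA hB hh hs0
  have ha := headD_le hA
  have l4 := lev_lt c hd hq ha
  have l5 := lev_le c hd hq ha
  obtain ⟨a1, a2, a3⟩ := gA_eval c hd hq ha ho (μ := 1/bt c) (by simp [hty])
  have hb : (0:ℝ) < bt c := by exact_mod_cast bt_pos c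
  have hb16 := btR c
  have hb2 := b2R c
  have e0 := enc_nonneg (bt c) A.tail
  have e1 := enc_lt' c A.tail (tail_le hA)
  have eb0 := enc_nonneg (bt c) Bs
  have eb1 := enc_lt' c Bs hB
  have hrec := recenter1 c (Bs := Bs) hq hA
  generalize enc (bt c) A.tail = e at *
  generalize enc (bt c) Bs = eb at *
  have hebb : eb / bt c ≤ 1/16 := (div_le_self eb0 (by linarith)).trans eb1
  have heb2 : e / b2 c ≤ 1/16 := by
    rw [hb2]
    exact (div_le_self e0 (by nlinarith)).trans e1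
  have hdiv1 : e / b2 c / bt c ≤ e / b2 c := div_le_self (by positivity) (by linarith)
  have hdiv0 : 0 ≤ e / b2 c / bt c := by positivity
  apply period_vals c (pt c ⟨1, q, A, Bs⟩) (lev c 1 q (A.headD 0)) l4 l5 (μ := 1/bt c) (x := eb) (y := e / b2 c) (pt2 c _) (by positivity) (by positivity) heb2 hs0 hrec a1 a2 a3
  · rw [abs_of_nonneg (by positivity)]; linarith
  · have b1 : (1/(1/(bt c:ℝ)) - 1) * (e / b2 c / bt c) = e / b2 c - e / b2 c / bt c := by field_simp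
    rw [b1, abs_of_nonneg (by linarith)]
    linarith
  · have b1 : e / b2 c / bt c / (1/bt c) = e / b2 c := by field_simp
    rw [b1, abs_of_nonneg (by positivity)]; linarith
  · rw [abs_of_nonneg (by positivity)]
    have : 1/(bt c:ℝ) * eb = eb / bt c := by ring
    rw [this]; linarith
  · rw [hX]; ring
  · rw [hY]; field_simp
  · exact h10

theorem core1_go (c : Inp) {q ty nd nq c1 c2 : ℕ} {A Bs X Y : List ℕ} (hm : VM c ⟨1, q, A, Bs⟩) (hh : hlt c q = false)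
    (ho : outc c 1 q (A.headD 0) = (ty, nd, nq, c1, c2)) (hty : ty = 0)
    (hX : enc (bt c) X = enc (bt c) Bs / b2 c + rv (gD 0 c (lev c 1 q (A.headD 0))))
    (hY : enc (bt c) Y = enc (bt c) A.tail / bt c + rv (gD 1 c (lev c 1 q (A.headD 0))))
    (h10 : stp c 10 ![enc (bt c) X, enc (bt c) Y, ((lev c 1 q (A.headD 0) : ℕ) : ℝ) / Dc c] = ![enc (bt c) X, enc (bt c) Y, 0]) :
    itr c (pt c ⟨1, q, A, Bs⟩) 11 = ![enc (bt c) X, enc (bt c) Y, 0] ∧
      ∀ i ≤ 11, |itr c (pt c ⟨1, q, A, Bs⟩) i 2| ≤ 1/8 := by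
  have hs0 := slot0' c hm hh
  have hd := hm.hd; have hq := hm.hq; have hA := hm.hA; have hB := hm.hB
  simp only at hd hq hA hB hh hs0
  have ha := headD_le hA
  have l4 := lev_lt c hd hq ha
  have l5 := lev_le c hd hq ha
  obtain ⟨a1, a2, a3⟩ := gA_eval c hd hq ha ho (μ := 1/b2 c) (by simp [hty])
  have hb : (0:ℝ) < bt c := by exact_mod_cast bt_pos c
  have hb2pos : (0:ℝ) < b2 c := by exact_mod_cast b2_pos c
  have hb16 := btR c
  have hb2 := b2R c
  have e0 := enc_nonneg (bt c) A.tail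
  have e1 := enc_lt' c A.tail (tail_le hA)
  have eb0 := enc_nonneg (bt c) Bs
  have eb1 := enc_lt' c Bs hB
  have hrec := recenter1 c (Bs := Bs) hq hA
  generalize enc (bt c) A.tail = e at *
  generalize enc (bt c) Bs = eb at *
  have hb21 : 1 ≤ (b2 c : ℝ) := by rw [hb2]; nlinarith
  have heb2 : e / b2 c ≤ 1/16 := (div_le_self e0 hb21).trans e1
  have heb' : e / bt c ≤ 1/16 := (div_le_self e0 (by linarith)).trans e1
  have hebb : eb / b2 c ≤ 1/16 := (div_le_self eb0 hb21).trans eb1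
  have hdiv1 : e / b2 c / bt c ≤ 1/16 := (div_le_self (by positivity) (by linarith)).trans heb2
  have hdiv0 : 0 ≤ e / b2 c / bt c := by positivity
  have hdiv2 : e / b2 c / bt c ≤ e / bt c := by
    have : e / b2 c / bt c = e / bt c / b2 c := by ring
    rw [this]
    exact div_le_self (by positivity) hb21
  apply period_vals c (pt c ⟨1, q, A, Bs⟩) (lev c 1 q (A.headD 0)) l4 l5 (μ := 1/b2 c) (x := eb) (y := e / b2 c) (pt2 c _) (by positivity) (by positivity) heb2 hs0 hrec a1 a2 a3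
  · rw [abs_of_nonneg (by positivity)]; linarith
  · have b1 : (1/(1/(b2 c:ℝ)) - 1) * (e / b2 c / bt c) = e / bt c - e / b2 c / bt c := by field_simp
    rw [b1, abs_of_nonneg (by linarith)]
    linarith
  · have b1 : e / b2 c / bt c / (1/b2 c) = e / bt c := by field_simp
    rw [b1, abs_of_nonneg (by positivity)]; linarith
  · rw [abs_of_nonneg (by positivity)]
    have : 1/(b2 c:ℝ) * eb = eb / b2 c := by ring
    rw [this]; linarith
  · rw [hX]; ring
  · rw [hY]; field_simp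
  · exact h10

theorem outc_skip {c : Inp} {d q a ty nd nq c1 c2 : ℕ} (h : Kc c ≤ a) (ho : outc c d q a = (ty, nd, nq, c1, c2)) :
    ty = 0 ∧ c1 = a := by
  unfold outc at ho
  rw [if_pos h] at ho
  simp only [Prod.mk.injEq] at ho
  exact ⟨ho.1.symm, ho.2.2.2.1.symm⟩

theorem micro (c : Inp) (hw : WF c) {m : MC} (hm : VM c m) (hh : hlt c m.q = false) :
    itr c (pt c m) 11 = pt c (ustep c m) ∧ ∀ i ≤ 11, |itr c (pt c m) i 2| ≤ 1/8 := by
  obtain ⟨d, q, A, Bs⟩ := m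
  have hd := hm.hd; have hq := hm.hq; have hA := hm.hA; have hB := hm.hB
  simp only at hd hq hA hB hh
  have ha := headD_le hA
  have hov := outc_valid c hw hd hq ha
  have hu : ustep c ⟨d, q, A, Bs⟩ = upd ⟨d, q, A, Bs⟩ (outc c d q (A.headD 0)) := rfl
  rw [hu]
  rcases ho : outc c d q (A.headD 0) with ⟨ty, nd, nq, c1, c2⟩
  rw [ho] at hov
  have vnd := hov.nd; have vnq := hov.nq; have vc1 := hov.c1; have vc2 := hov.c2
  have vty := hov.ty; have vnd0 := hov.nd0; have vnd1 := hov.nd1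
  simp only at vnd vnq vc1 vc2 vty vnd0 vnd1
  have hAt := tail_le hA
  have sk : Kc c ≤ A.headD 0 → ty = 0 ∧ c1 = A.headD 0 := fun h => outc_skip h ho
  unfold upd
  simp only
  rcases Nat.le_one_iff_eq_zero_or_eq_one.1 hd with h0 | h0 <;> subst h0
  · have g0 := gD_eval c 0 hd hq ha ho
    have g1 := gD_eval c 1 hd hq ha ho
    rcases vty with ht | ht | ht
    · have hnd : nd = 0 := vnd0 (by omega)
      subst hnd
      rw [if_pos ht]
      have hpt : pt c ⟨0, nq, A.tail, c2 :: c1 :: Bs⟩ = ![enc (bt c) ((sg c + 1 + nq) :: A.tail), enc (bt c) (c2 :: c1 :: Bs), 0] := by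
        simp [pt]
      rw [hpt]
      rw [if_neg (by omega), if_pos rfl] at g0
      rw [if_neg (by omega), if_neg (by omega)] at g1
      apply core0_go c hm hh ho ht
      · rw [enc_c1, g0]
      · rw [enc_c2, g1]
      · exact slot10' c hd hq ha hw ho (cons_lt c vnq hAt) (cons2_lt c vc2 vc1 hB)
          (Or.inl ⟨rfl, ⟨_, rfl, hAt⟩, ⟨_, rfl, cons_le vc1 hB, fun h => (sk h).2⟩⟩)
    · have hnd : nd = 1 := by have := vnd1 ht; omega
      subst hnd
      rw [if_neg (by omega), if_pos ht]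
      have hpt : pt c ⟨1, nq, Bs, c2 :: c1 :: A.tail⟩ = ![enc (bt c) (c2 :: c1 :: A.tail), enc (bt c) ((sg c + 1 + nq) :: Bs), 0] := by
        simp [pt]
      rw [hpt]
      rw [if_neg (by omega), if_neg (by omega)] at g0
      rw [if_neg (by omega), if_pos rfl] at g1
      apply core0_tw c hm hh ho (by omega)
      · rw [enc_c2, g0]
      · rw [enc_c1, g1]
      · exact slot10' c hd hq ha hw ho (cons2_lt c vc2 vc1 hAt) (cons_lt c vnq hB)
          (Or.inr ⟨rfl, ⟨_, rfl, hB⟩, ⟨_, rfl, cons_le vc1 hAt, fun h => absurd (sk h).1 (by omega)⟩⟩)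
    · have hnd : nd = 0 := vnd0 (by omega)
      subst hnd
      rw [if_neg (by omega), if_neg (by omega)]
      have hpt : pt c ⟨0, nq, c1 :: A.tail, c2 :: Bs⟩ = ![enc (bt c) ((sg c + 1 + nq) :: c1 :: A.tail), enc (bt c) (c2 :: Bs), 0] := by
        simp [pt]
      rw [hpt]
      rw [if_pos ht, if_pos rfl] at g0
      rw [if_pos ht, if_neg (by omega)] at g1
      apply core0_tw c hm hh ho (by omega)
      · rw [enc_c2, g0]
      · rw [g1]
        have : enc (bt c) (c2 :: Bs) = ((c2:ℝ) + enc (bt c) Bs) / bt c := rfl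
        rw [this]; ring
      · exact slot10' c hd hq ha hw ho (cons_lt c vnq (cons_le vc1 hAt))
          (fun x hx => by have := cons_le vc2 hB x hx; have := sg_lt_Bc c; omega)
          (Or.inl ⟨rfl, ⟨_, rfl, cons_le vc1 hAt⟩, ⟨_, rfl, hB, fun h => absurd (sk h).1 (by omega)⟩⟩)
  · have g0 := gD_eval c 0 hd hq ha ho
    have g1 := gD_eval c 1 hd hq ha ho
    rcases vty with ht | ht | ht
    · have hnd : nd = 1 := vnd0 (by omega)
      subst hnd
      rw [if_pos ht]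
      have hpt : pt c ⟨1, nq, A.tail, c2 :: c1 :: Bs⟩ = ![enc (bt c) (c2 :: c1 :: Bs), enc (bt c) ((sg c + 1 + nq) :: A.tail), 0] := by
        simp [pt]
      rw [hpt]
      rw [if_neg (by omega), if_neg (by omega)] at g0
      rw [if_neg (by omega), if_pos rfl] at g1
      apply core1_go c hm hh ho ht
      · rw [enc_c2, g0]
      · rw [enc_c1, g1]
      · exact slot10' c hd hq ha hw ho (cons2_lt c vc2 vc1 hB) (cons_lt c vnq hAt)
          (Or.inr ⟨rfl, ⟨_, rfl, hAt⟩, ⟨_, rfl, cons_le vc1 hB, fun h => (sk h).2⟩⟩)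
    · have hnd : nd = 0 := by have := vnd1 ht; omega
      subst hnd
      rw [if_neg (by omega), if_pos ht]
      have hpt : pt c ⟨0, nq, Bs, c2 :: c1 :: A.tail⟩ = ![enc (bt c) ((sg c + 1 + nq) :: Bs), enc (bt c) (c2 :: c1 :: A.tail), 0] := by
        simp [pt]
      rw [hpt]
      rw [if_neg (by omega), if_pos rfl] at g0
      rw [if_neg (by omega), if_neg (by omega)] at g1
      apply core1_tw c hm hh ho (by omega)
      · rw [enc_c1, g0]
      · rw [enc_c2, g1]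
      · exact slot10' c hd hq ha hw ho (cons_lt c vnq hB) (cons2_lt c vc2 vc1 hAt)
          (Or.inl ⟨rfl, ⟨_, rfl, hB⟩, ⟨_, rfl, cons_le vc1 hAt, fun h => absurd (sk h).1 (by omega)⟩⟩)
    · have hnd : nd = 1 := vnd0 (by omega)
      subst hnd
      rw [if_neg (by omega), if_neg (by omega)]
      have hpt : pt c ⟨1, nq, c1 :: A.tail, c2 :: Bs⟩ = ![enc (bt c) (c2 :: Bs), enc (bt c) ((sg c + 1 + nq) :: c1 :: A.tail), 0] := by
        simp [pt]
      rw [hpt]
      rw [if_pos ht, if_neg (by omega)] at g0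
      rw [if_pos ht, if_pos rfl] at g1
      apply core1_tw c hm hh ho (by omega)
      · rw [g0]
        have : enc (bt c) (c2 :: Bs) = ((c2:ℝ) + enc (bt c) Bs) / bt c := rfl
        rw [this]; ring
      · rw [enc_c2, g1]
      · exact slot10' c hd hq ha hw ho
          (fun x hx => by have := cons_le vc2 hB x hx; have := sg_lt_Bc c; omega)
          (cons_lt c vnq (cons_le vc1 hAt))
          (Or.inr ⟨rfl, ⟨_, rfl, cons_le vc1 hAt⟩, ⟨_, rfl, hB, fun h => absurd (sk h).1 (by omega)⟩⟩)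

end Vale.Agent.P113
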