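import Vale.Agent.P113.Uniq

set_option linter.unusedSectionVars false
set_option linter.unusedVariables false

open MeasureTheory Filter Topology Set Function

namespace Vale.Agent.P113

/-- separated-variables system -/
structure Sys (ι : Type) [Fintype ι] where
  P : ι → ℕ → ℝ → ℝ
  Φ : ι → Fin 3 → ℕ → ℝ → ℝ
  dir : ι → Fin 3
  hP : ∀ i n t, HasDerivAt (P i n) (P i (n+1) t) t
  hΦ : ∀ i j n x, HasDerivAt (Φ i j n) (Φ i j (n+1) x) x
  sP : ∀ i n, ContDiff ℝ (⊤ : ℕ∞) (P i n)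
  sΦ : ∀ i j n, ContDiff ℝ (⊤ : ℕ∞) (Φ i j n)
  per : ∀ i j n x (k : ℤ), Φ i j n (x + k) = Φ i j n x
  c1 : ∀ i n x, Φ i (dir i) (n+1) x = 0
  c2 : ∀ i i', (∀ t, P i 0 t * P i' 0 t = 0) ∨ (∀ x, Φ i' (dir i) 1 x = 0)

variable {ι : Type} [Fintype ι] (A : Sys ι)

noncomputable def Sys.U (n a b d : ℕ) (t : ℝ) (x : E) : E := fun k =>
  ∑ i, if A.dir i = k then A.P i n t * (A.Φ i 0 a (x 0) * A.Φ i 1 b (x 1) * A.Φ i 2 d (x 2)) else 0

theorem Sys.hasDeriv_t (n a b d : ℕ) (t : ℝ) (x : E) :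
    HasDerivAt (fun s => A.U n a b d s x) (A.U (n+1) a b d t x) t := by
  rw [hasDerivAt_pi]
  intro k
  unfold Sys.U
  apply HasDerivAt.fun_sum
  intro i _
  by_cases h : A.dir i = k
  · simp only [h, if_true]
    exact (A.hP i n t).mul_const _
  · simp only [h, if_false]
    exact hasDerivAt_const _ _

noncomputable def pj (j : Fin 3) : E →L[ℝ] ℝ := ContinuousLinearMap.proj j

theorem pj_apply (j : Fin 3) (y : E) : pj j y = y j := rfl

noncomputable def sR (j : Fin 3) : E →L[ℝ] (E →L[ℝ] E) := ContinuousLinearMap.smulRightL ℝ E E (pj j)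

theorem sR_apply (j : Fin 3) (v y : E) : sR j v y = y j • v := rfl

noncomputable def sR2 (j : Fin 3) : (E →L[ℝ] E) →L[ℝ] (E →L[ℝ] E →L[ℝ] E) :=
  ContinuousLinearMap.smulRightL ℝ E (E →L[ℝ] E) (pj j)

noncomputable def Sys.D (n a b d : ℕ) (t : ℝ) (x : E) : E →L[ℝ] E :=
  sR 0 (A.U n (a+1) b d t x) + sR 1 (A.U n a (b+1) d t x) + sR 2 (A.U n a b (d+1) t x)

theorem Sys.hasFDeriv (n a b d : ℕ) (t : ℝ) (x : E) :
    HasFDerivAt (A.U n a b d t) (A.D n a b d t x) x := by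
  rw [hasFDerivAt_pi']
  intro k
  have hx : ∀ j : Fin 3, HasFDerivAt (fun y : E => y j) (pj j) x := fun j => (pj j).hasFDerivAt
  have hterm : ∀ i, HasFDerivAt (fun y : E => if A.dir i = k then A.P i n t * (A.Φ i 0 a (y 0) * A.Φ i 1 b (y 1) * A.Φ i 2 d (y 2)) else 0)
      (if A.dir i = k then A.P i n t • ((A.Φ i 0 a (x 0) * A.Φ i 1 b (x 1)) • (A.Φ i 2 (d+1) (x 2) • pj 2) +
        A.Φ i 2 d (x 2) • (A.Φ i 0 a (x 0) • (A.Φ i 1 (b+1) (x 1) • pj 1) + A.Φ i 1 b (x 1) • (A.Φ i 0 (a+1) (x 0) • pj 0))) else 0) x := by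
    intro i
    by_cases h : A.dir i = k
    · simp only [h, if_true]
      have g0 : HasFDerivAt (fun y : E => A.Φ i 0 a (y 0)) (A.Φ i 0 (a+1) (x 0) • pj 0) x :=
        (A.hΦ i 0 a (x 0)).comp_hasFDerivAt x (hx 0)
      have g1 : HasFDerivAt (fun y : E => A.Φ i 1 b (y 1)) (A.Φ i 1 (b+1) (x 1) • pj 1) x :=
        (A.hΦ i 1 b (x 1)).comp_hasFDerivAt x (hx 1)
      have g2 : HasFDerivAt (fun y : E => A.Φ i 2 d (y 2)) (A.Φ i 2 (d+1) (x 2) • pj 2) x :=
        (A.hΦ i 2 d (x 2)).comp_hasFDerivAt x (hx 2)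
      exact ((g0.mul g1).mul g2).const_mul _
    · simp only [h, if_false]
      exact hasFDerivAt_const _ _
  have hs := HasFDerivAt.fun_sum (u := Finset.univ) fun i (_ : i ∈ Finset.univ) => hterm i
  have e : (ContinuousLinearMap.proj k).comp (A.D n a b d t x) = ∑ i, (if A.dir i = k then A.P i n t • ((A.Φ i 0 a (x 0) * A.Φ i 1 b (x 1)) • (A.Φ i 2 (d+1) (x 2) • pj 2) +
        A.Φ i 2 d (x 2) • (A.Φ i 0 a (x 0) • (A.Φ i 1 (b+1) (x 1) • pj 1) + A.Φ i 1 b (x 1) • (A.Φ i 0 (a+1) (x 0) • pj 0))) else 0) := by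
    ext1 y
    simp only [Sys.D, ContinuousLinearMap.comp_apply, add_apply, sR_apply, ContinuousLinearMap.proj_apply,
      Pi.add_apply, Pi.smul_apply, Sys.U, sum_apply, smul_eq_mul, Finset.mul_sum]
    rw [← Finset.sum_add_distrib, ← Finset.sum_add_distrib]
    apply Finset.sum_congr rfl
    intro i _
    by_cases h : A.dir i = k
    · simp only [h, if_true, add_apply, smul_apply, smul_eq_mul, pj_apply]
      ring
    · simp [h]
  rw [e]
  exact hs

theorem Sys.smooth (n a b d : ℕ) : ContDiff ℝ (⊤ : ℕ∞) (uncurry (A.U n a b d)) := by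
  rw [contDiff_pi]
  intro k
  have : (fun z : ℝ × E => uncurry (A.U n a b d) z k) = fun z : ℝ × E => ∑ i, if A.dir i = k then A.P i n z.1 * (A.Φ i 0 a (z.2 0) * A.Φ i 1 b (z.2 1) * A.Φ i 2 d (z.2 2)) else 0 := rfl
  rw [this]
  apply ContDiff.sum
  intro i _
  by_cases h : A.dir i = k
  · simp only [h, if_true]
    have q : ∀ j : Fin 3, ContDiff ℝ (⊤ : ℕ∞) fun z : ℝ × E => z.2 j := fun j => by fun_prop
    exact ((A.sP i n).comp contDiff_fst).mul ((((A.sΦ i 0 a).comp (q 0)).mul ((A.sΦ i 1 b).comp (q 1))).mul ((A.sΦ i 2 d).comp (q 2)))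
  · simp only [h, if_false]
    exact contDiff_const

theorem Sys.cont (n a b d : ℕ) : Continuous (uncurry (A.U n a b d)) := (A.smooth n a b d).continuous

theorem Sys.contD (n a b d : ℕ) : Continuous (uncurry (A.D n a b d)) := by
  have e : uncurry (A.D n a b d) = fun z : ℝ × E => sR 0 (uncurry (A.U n (a+1) b d) z) + sR 1 (uncurry (A.U n a (b+1) d) z) + sR 2 (uncurry (A.U n a b (d+1)) z) := rfl
  rw [e]
  exact (((sR 0).continuous.comp (A.cont _ _ _ _)).add ((sR 1).continuous.comp (A.cont _ _ _ _))).add ((sR 2).continuous.comp (A.cont _ _ _ _))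

/-- second derivative -/
noncomputable def Sys.D2 (t : ℝ) (x : E) : E →L[ℝ] E →L[ℝ] E :=
  (sR 0).comp (A.D 0 1 0 0 t x) + (sR 1).comp (A.D 0 0 1 0 t x) + (sR 2).comp (A.D 0 0 0 1 t x)

theorem Sys.hasFDeriv2 (t : ℝ) (x : E) : HasFDerivAt (A.D 0 0 0 0 t) (A.D2 t x) x := by
  have h : ∀ j : Fin 3, ∀ a b d, HasFDerivAt (fun y => sR j (A.U 0 a b d t y)) ((sR j).comp (A.D 0 a b d t x)) x :=
    fun j a b d => (sR j).hasFDerivAt.comp x (A.hasFDeriv 0 a b d t x)
  exact ((h 0 1 0 0).add (h 1 0 1 0)).add (h 2 0 0 1)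

noncomputable def Sys.force (ν : ℝ) (t : ℝ) (x : E) : E := fun k =>
  A.U 1 0 0 0 t x k - ν * (A.U 0 2 0 0 t x k + A.U 0 0 2 0 t x k + A.U 0 0 0 2 t x k)

theorem Sys.per_U (n a b d : ℕ) (t : ℝ) (x : E) (k : Fin 3 → ℤ) : A.U n a b d t (x + fun i => (k i : ℝ)) = A.U n a b d t x := by
  funext l
  unfold Sys.U
  apply Finset.sum_congr rfl
  intro i _
  simp only [Pi.add_apply, A.per]

theorem Sys.D_ev (n a b d : ℕ) (t : ℝ) (x : E) :
    A.D n a b d t x (ev 0) = A.U n (a+1) b d t x ∧ A.D n a b d t x (ev 1) = A.U n a (b+1) d t x ∧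
    A.D n a b d t x (ev 2) = A.U n a b (d+1) t x := by
  refine ⟨?_, ?_, ?_⟩ <;> (simp [Sys.D, sR_apply, ev])

theorem Sys.D2_ev (t : ℝ) (x : E) :
    A.D2 t x (ev 0) (ev 0) = A.U 0 2 0 0 t x ∧ A.D2 t x (ev 1) (ev 1) = A.U 0 0 2 0 t x ∧
    A.D2 t x (ev 2) (ev 2) = A.U 0 0 0 2 t x := by
  have h1 := A.D_ev 0 1 0 0 t x
  have h2 := A.D_ev 0 0 1 0 t x
  have h3 := A.D_ev 0 0 0 1 t x
  refine ⟨?_, ?_, ?_⟩ <;> simp [Sys.D2, sR_apply, h1, h2, h3] <;> simp [ev]

theorem Sys.div_free (t : ℝ) (x : E) : A.U 0 1 0 0 t x 0 + A.U 0 0 1 0 t x 1 + A.U 0 0 0 1 t x 2 = 0 := by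
  have h0 : A.U 0 1 0 0 t x 0 = 0 := by
    unfold Sys.U
    apply Finset.sum_eq_zero
    intro i _
    split_ifs with h
    · have := A.c1 i 0 (x 0); rw [h] at this; rw [this]; ring
    · rfl
  have h1 : A.U 0 0 1 0 t x 1 = 0 := by
    unfold Sys.U
    apply Finset.sum_eq_zero
    intro i _
    split_ifs with h
    · have := A.c1 i 0 (x 1); rw [h] at this; rw [this]; ring
    · rfl
  have h2 : A.U 0 0 0 1 t x 2 = 0 := by
    unfold Sys.U
    apply Finset.sum_eq_zero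
    intro i _
    split_ifs with h
    · have := A.c1 i 0 (x 2); rw [h] at this; rw [this]; ring
    · rfl
  rw [h0, h1, h2]; ring

theorem Sys.conv (t : ℝ) (x : E) (k : Fin 3) :
    A.U 0 0 0 0 t x 0 * A.U 0 1 0 0 t x k + A.U 0 0 0 0 t x 1 * A.U 0 0 1 0 t x k + A.U 0 0 0 0 t x 2 * A.U 0 0 0 1 t x k = 0 := by
  have key : ∀ (j : Fin 3) (a b d : ℕ), ((a, b, d) = if j = 0 then (1, 0, 0) else if j = 1 then (0, 1, 0) else (0, 0, 1)) →
      A.U 0 0 0 0 t x j * A.U 0 a b d t x k = 0 := by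
    intro j a b d habd
    unfold Sys.U
    rw [Finset.sum_mul_sum]
    apply Finset.sum_eq_zero
    intro i _
    apply Finset.sum_eq_zero
    intro i' _
    by_cases h : A.dir i = j
    · by_cases h' : A.dir i' = k
      · simp only [h, h', if_true]
        rcases A.c2 i i' with hh | hh
        · have := hh t
          linear_combination (A.Φ i 0 0 (x 0) * A.Φ i 1 0 (x 1) * A.Φ i 2 0 (x 2) * (A.Φ i' 0 a (x 0) * A.Φ i' 1 b (x 1) * A.Φ i' 2 d (x 2))) * this
        · rw [h] at hh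
          have z : A.Φ i' 0 a (x 0) * A.Φ i' 1 b (x 1) * A.Φ i' 2 d (x 2) = 0 := by
            fin_cases j
            · simp only [Fin.zero_eta, Fin.isValue, if_true, Prod.mk.injEq] at habd hh
              obtain ⟨rfl, rfl, rfl⟩ := habd
              rw [hh]; ring
            · simp only [Fin.mk_one, Fin.isValue, if_true, Prod.mk.injEq, one_ne_zero, if_false] at habd hh
              obtain ⟨rfl, rfl, rfl⟩ := habd
              rw [hh]; ring
            · have e2 : ((⟨2, by norm_num⟩ : Fin 3)) = 2 := rfl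
              simp only [Fin.reduceFinMk, Fin.isValue, Prod.mk.injEq, Fin.reduceEq, if_false] at habd hh
              obtain ⟨rfl, rfl, rfl⟩ := habd
              rw [hh]; ring
          rw [z]; ring
      · simp [h']
    · simp [h]
  rw [key 0 1 0 0 rfl, key 1 0 1 0 rfl, key 2 0 0 1 rfl]; ring

theorem Sys.classical (ν : ℝ) (I : Set ℝ) (h0 : ∀ x, A.U 0 0 0 0 0 x = 0) :
    CD ν (A.force ν) I (A.U 0 0 0 0) (fun _ _ => 0) (A.U 1 0 0 0) (A.D 0 0 0 0) A.D2 (fun _ _ => 0) where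
  cu := (A.cont _ _ _ _).continuousOn
  cut := (A.cont _ _ _ _).continuousOn
  cDu := (A.contD _ _ _ _).continuousOn
  cD2u := by
    have h : ∀ j : Fin 3, ∀ a b d, Continuous fun z : ℝ × E => (sR j).comp (uncurry (A.D 0 a b d) z) := fun j a b d =>
      ((ContinuousLinearMap.compL ℝ E E (E →L[ℝ] E)) (sR j)).continuous.comp (A.contD 0 a b d)
    have e : uncurry A.D2 = fun z : ℝ × E => (sR 0).comp (uncurry (A.D 0 1 0 0) z) + (sR 1).comp (uncurry (A.D 0 0 1 0) z) + (sR 2).comp (uncurry (A.D 0 0 0 1) z) := rfl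
    rw [e]
    have : ContinuousAdd (E →L[ℝ] E →L[ℝ] E) := by
      have h : IsTopologicalAddGroup (E →L[ℝ] E →L[ℝ] E) := ContinuousLinearMap.topologicalAddGroup
      exact h.toContinuousAdd
    exact (((h 0 1 0 0).add (h 1 0 1 0)).add (h 2 0 0 1)).continuousOn
  cp := continuousOn_const
  cDp := continuousOn_const
  dt := fun t _ x => (A.hasDeriv_t 0 0 0 0 t x).hasDerivWithinAt
  dx := fun t _ x => A.hasFDeriv 0 0 0 0 t x
  dxx := fun t _ x => A.hasFDeriv2 t x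
  dp := fun t _ x => hasFDerivAt_const _ _
  per := fun t _ x k => ⟨A.per_U 0 0 0 0 t x k, rfl⟩
  eqn := by
    intro t _ x k
    have h1 := A.D_ev 0 0 0 0 t x
    have h2 := A.D2_ev t x
    have h3 := A.conv t x k
    simp only [Fin.sum_univ_three, h1.1, h1.2.1, h1.2.2, h2.1, h2.2.1, h2.2.2, Sys.force]
    simp only [zero_apply]
    linear_combination h3
  div := by
    intro t _ x
    have h1 := A.D_ev 0 0 0 0 t x
    simp only [Fin.sum_univ_three, h1.1, h1.2.1, h1.2.2]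
    exact A.div_free t x
  init := h0
  mean := fun t _ => by simp

end Vale.Agent.P113
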