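import Vale.Agent.P113.Fab

set_option linter.unusedSectionVars false
set_option linter.unusedVariables false

open MeasureTheory Filter Topology Set

namespace Vale.Agent.P113

/-- smooth interpolation of a sequence -/
noncomputable def J (c : ℤ → ℝ) (y : ℝ) : ℝ := c ⌊y⌋ + (c (⌊y⌋+1) - c ⌊y⌋) * S (Int.fract y)

theorem J_eq (c : ℤ → ℝ) (k : ℤ) {t : ℝ} (h0 : 0 ≤ t) (h1 : t < 1) :
    J c (k + t) = c k + (c (k+1) - c k) * S t := by
  have hf : ⌊(k:ℝ) + t⌋ = k := by
    rw [Int.floor_eq_iff]; constructor <;> linarith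
  unfold J
  rw [Int.fract, hf]
  congr 2
  ring_nf

theorem J_eq' (c : ℤ → ℝ) (k : ℤ) {y : ℝ} (h0 : k ≤ y) (h1 : y < k + 1) :
    J c y = c k + (c (k+1) - c k) * S (y - k) := by
  have := J_eq c k (t := y - k) (by linarith) (by linarith)
  rwa [show (k:ℝ) + (y - k) = y by ring] at this

theorem J_int (c : ℤ → ℝ) (k : ℤ) : J c k = c k := by
  have := J_eq c k (t := 0) le_rfl one_pos
  rw [S_nonpos le_rfl] at this
  simpa using this

theorem J_flat (c : ℤ → ℝ) (k : ℤ) {y : ℝ} (h0 : k ≤ y) (h1 : y < k + 1) (h : c (k+1) = c k) :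
    J c y = c k := by
  rw [J_eq' c k h0 h1, h]; ring

theorem J_const (a : ℝ) (y : ℝ) : J (fun _ => a) y = a := by
  unfold J; ring

theorem J_local (c : ℤ → ℝ) (k : ℤ) {y : ℝ} (h0 : k - 1 < y) (h1 : y < k + 1) :
    J c y = c (k-1) + (c k - c (k-1)) * S (y - (k - 1)) + (c (k+1) - c k) * S (y - k) := by
  rcases lt_or_ge y k with h | h
  · rw [J_eq' c (k-1) (by push_cast; linarith) (by push_cast; linarith),
      S_nonpos (by linarith : y - k ≤ 0)]
    push_cast
    rw [show k - 1 + 1 = k by ring]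
    ring
  · rw [J_eq' c k h h1, S_ge_one (by linarith : 1 ≤ y - (k-1))]
    ring

theorem J_contDiff (c : ℤ → ℝ) : ContDiff ℝ (⊤ : ℕ∞) (J c) := by
  rw [contDiff_iff_contDiffAt]
  intro y0
  set k := ⌊y0⌋ with hk
  have h0 : (k:ℝ) ≤ y0 := Int.floor_le y0
  have h1 : y0 < k + 1 := Int.lt_floor_add_one y0
  have hloc : J c =ᶠ[𝓝 y0] fun y => c (k-1) + (c k - c (k-1)) * S (y - (k - 1)) + (c (k+1) - c k) * S (y - k) := by
    filter_upwards [Ioo_mem_nhds (by linarith : (k:ℝ) - 1 < y0) h1] with y hy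
    exact J_local c k hy.1 hy.2
  refine ContDiffAt.congr_of_eventuallyEq ?_ hloc
  apply ContDiff.contDiffAt
  have a1 : ContDiff ℝ (⊤ : ℕ∞) fun y : ℝ => S (y - (k - 1)) := S_smooth.comp (by fun_prop)
  have a2 : ContDiff ℝ (⊤ : ℕ∞) fun y : ℝ => S (y - k) := S_smooth.comp (by fun_prop)
  exact (contDiff_const.add (contDiff_const.mul a1)).add (contDiff_const.mul a2)

theorem J_hasDeriv_iter (c : ℤ → ℝ) (n : ℕ) (y : ℝ) :
    HasDerivAt (iteratedDeriv n (J c)) (iteratedDeriv (n+1) (J c) y) y := by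
  rw [iteratedDeriv_succ]
  apply DifferentiableAt.hasDerivAt
  exact (J_contDiff c).differentiable_iteratedDeriv n (by exact_mod_cast ENat.natCast_lt_top n) y

theorem S_hasDeriv_iter (n : ℕ) (y : ℝ) :
    HasDerivAt (iteratedDeriv n S) (iteratedDeriv (n+1) S y) y := by
  rw [iteratedDeriv_succ]
  apply DifferentiableAt.hasDerivAt
  exact S_smooth.differentiable_iteratedDeriv n (by exact_mod_cast ENat.natCast_lt_top n) y

theorem J_iter_local (c : ℤ → ℝ) (n : ℕ) (k : ℤ) {y : ℝ} (h0 : k - 1 < y) (h1 : y < k + 1) :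
    iteratedDeriv (n+1) (J c) y = (c k - c (k-1)) * iteratedDeriv (n+1) S (y - (k - 1)) +
      (c (k+1) - c k) * iteratedDeriv (n+1) S (y - k) := by
  induction n generalizing y with
  | zero =>
    have hloc : J c =ᶠ[𝓝 y] fun y => c (k-1) + (c k - c (k-1)) * S (y - (k - 1)) + (c (k+1) - c k) * S (y - k) := by
      filter_upwards [Ioo_mem_nhds h0 h1] with y hy
      exact J_local c k hy.1 hy.2
    simp only [zero_add, iteratedDeriv_one]
    rw [hloc.deriv_eq]
    have a : ∀ s : ℝ, HasDerivAt (fun y => S (y - s)) (deriv S (y - s)) y := fun s => by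
      have := HasDerivAt.comp y (S_hasDeriv (y - s)) ((hasDerivAt_id y).sub_const s)
      rw [← S_deriv, mul_one] at this
      exact this
    have b := (((a (k-1)).const_mul (c k - c (k-1))).const_add (c (k-1))).add ((a k).const_mul (c (k+1) - c k))
    exact b.deriv
  | succ n ih =>
    have hloc : iteratedDeriv (n+1) (J c) =ᶠ[𝓝 y] fun y => (c k - c (k-1)) * iteratedDeriv (n+1) S (y - (k - 1)) +
      (c (k+1) - c k) * iteratedDeriv (n+1) S (y - k) := by
      filter_upwards [Ioo_mem_nhds h0 h1] with y hy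
      exact ih hy.1 hy.2
    rw [iteratedDeriv_succ, hloc.deriv_eq]
    have a : ∀ s : ℝ, HasDerivAt (fun y => iteratedDeriv (n+1) S (y - s)) (iteratedDeriv (n+2) S (y - s)) y := fun s => by
      have := HasDerivAt.comp y (S_hasDeriv_iter (n+1) (y - s)) ((hasDerivAt_id y).sub_const s)
      rw [mul_one] at this
      exact this
    have b := ((a (k-1)).const_mul (c k - c (k-1))).add ((a k).const_mul (c (k+1) - c k))
    exact b.deriv

theorem J_iter (c : ℤ → ℝ) (n : ℕ) (y : ℝ) :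
    iteratedDeriv (n+1) (J c) y = (c (⌊y⌋+1) - c ⌊y⌋) * iteratedDeriv (n+1) S (Int.fract y) := by
  have h0 : ((⌊y⌋:ℤ):ℝ) ≤ y := Int.floor_le y
  have h1 : y < ⌊y⌋ + 1 := Int.lt_floor_add_one y
  rw [J_iter_local c n ⌊y⌋ (by linarith) h1, S_iter_ge_one n (by linarith : 1 ≤ y - (⌊y⌋ - 1))]
  rw [Int.fract]; ring

theorem J_periodic (c : ℤ → ℝ) (N : ℤ) (hc : ∀ k, c (k + N) = c k) (y : ℝ) : J c (y + N) = J c y := by
  unfold J
  rw [Int.floor_add_intCast, Int.fract_add_intCast, hc, show ⌊y⌋ + N + 1 = (⌊y⌋ + 1) + N by ring, hc]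

/-- a factor: `x ↦ J c (N x - h)` -/
noncomputable def Fc (c : ℤ → ℝ) (N : ℕ) (h : ℝ) (n : ℕ) (x : ℝ) : ℝ := (N:ℝ)^n * iteratedDeriv n (J c) (N * x - h)

theorem Fc_zero (c : ℤ → ℝ) (N : ℕ) (h : ℝ) (x : ℝ) : Fc c N h 0 x = J c (N * x - h) := by
  unfold Fc; simp

theorem Fc_hasDeriv (c : ℤ → ℝ) (N : ℕ) (h : ℝ) (n : ℕ) (x : ℝ) :
    HasDerivAt (Fc c N h n) (Fc c N h (n+1) x) x := by
  unfold Fc
  have h1 : HasDerivAt (fun x : ℝ => (N:ℝ) * x - h) N x := by
    simpa using ((hasDerivAt_id x).const_mul (N:ℝ)).sub_const h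
  have h2 : HasDerivAt (iteratedDeriv n (J c) ∘ fun x : ℝ => (N:ℝ) * x - h)
    (iteratedDeriv (n+1) (J c) (N * x - h) * N) x :=
    HasDerivAt.comp x (J_hasDeriv_iter c n ((N:ℝ) * x - h)) h1
  have h3 := h2.const_mul ((N:ℝ)^n)
  have h4 : (N:ℝ)^(n+1) * iteratedDeriv (n+1) (J c) (N * x - h) =
    (N:ℝ)^n * (iteratedDeriv (n+1) (J c) (N * x - h) * N) := by ring
  rw [h4]
  exact h3

theorem Fc_contDiff (c : ℤ → ℝ) (N : ℕ) (h : ℝ) (n : ℕ) : ContDiff ℝ (⊤ : ℕ∞) (Fc c N h n) := by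
  unfold Fc
  apply contDiff_const.mul
  have h1 : ContDiff ℝ (⊤ : ℕ∞) (iteratedDeriv n (J c)) := by
    rw [iteratedDeriv_eq_iterate]
    exact ContDiff.iterate_deriv n (J_contDiff c)
  exact h1.comp (by fun_prop)

theorem Fc_periodic (g : ℕ → ℝ) (N : ℕ) (h : ℝ) (n : ℕ) (x : ℝ) (k : ℤ) :
    Fc (fun j => g (j % N).toNat) N h n (x + k) = Fc (fun j => g (j % N).toNat) N h n x := by
  induction n generalizing x with
  | zero =>
    rw [Fc_zero, Fc_zero]
    have e : (N:ℝ) * (x + k) - h = (N * x - h) + ((N * k : ℤ) : ℝ) := by push_cast; ring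
    rw [e, J_periodic]
    intro j
    simp
  | succ n ih =>
    have h1 := (Fc_hasDeriv (fun j => g (j % N).toNat) N h n x).deriv
    have h2 := (Fc_hasDeriv (fun j => g (j % N).toNat) N h n (x + k)).deriv
    rw [← h1, ← h2, ← deriv_comp_add_const]
    congr 1
    funext y
    exact ih y

/-- even and odd node values of the linear profile -/
noncomputable def eN (r : ℕ) : ℝ := if r ≤ 3 then (r:ℝ)/8 else ((r:ℝ) - 8)/8
noncomputable def oN (r : ℕ) : ℝ := if r ≤ 3 then (2*(r:ℝ)+1)/16 else (2*(r:ℝ) - 15)/16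

theorem ell_aux (c d : ℤ → ℝ) (m : ℤ) (hc : ∀ k : ℤ, -3 ≤ k - m → k - m ≤ 3 → c k = (k-m)/8)
    (hd : ∀ k : ℤ, -4 ≤ k - m → k - m ≤ 3 → d k = (2*(k-m)+1)/16) {y : ℝ} (h1 : -3 ≤ y - m) (h2 : y - m ≤ 3) :
    1/2 * (J c y + J d (y - 1/2)) = (y - m)/8 := by
  set k := ⌊y⌋ with hk
  have f0 : (k:ℝ) ≤ y := Int.floor_le y
  have f1 : y < k + 1 := Int.lt_floor_add_one y
  have k0 : -3 ≤ k - m := by
    have : m + (-3) ≤ k := by
      rw [hk, Int.le_floor]; push_cast; linarith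
    linarith
  have k1 : k - m ≤ 3 := by
    have : (k:ℝ) - m ≤ 3 := by linarith
    exact_mod_cast this
  have hJc : J c y = (k-m)/8 + 1/8 * S (y-k) := by
    rw [J_eq' c k f0 f1, hc k k0 k1]
    rcases lt_or_eq_of_le k1 with h | h
    · rw [hc (k+1) (by linarith) (by linarith)]
      push_cast; ring
    · have h' : (k:ℝ) - m = 3 := by exact_mod_cast h
      have : y - k ≤ 0 := by linarith
      rw [S_nonpos this]; ring
  rcases lt_or_ge (y - k) (1/2) with h | h
  · have hJd : J d (y - 1/2) = (2*(k-m)-1)/16 + 1/8 * S (y - k + 1/2) := by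
      rw [J_eq' d (k-1) (by push_cast; linarith) (by push_cast; linarith),
        hd (k-1) (by linarith) (by linarith), hd (k-1+1) (by linarith) (by linarith)]
      push_cast
      rw [show y - 1/2 - (k - 1) = y - k + 1/2 by ring]
      ring
    have hl := S_lin (x := y - k + 1/2) (by linarith) (by linarith)
    rw [show y - k + 1/2 - 1/2 = y - k by ring] at hl
    rw [hJc, hJd]
    linarith
  · have k2 : k - m < 3 := by
      have : (k:ℝ) - m < 3 := by linarith
      exact_mod_cast this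
    have hJd : J d (y - 1/2) = (2*(k-m)+1)/16 + 1/8 * S (y - k - 1/2) := by
      rw [J_eq' d k (by linarith) (by linarith),
        hd k (by linarith) (by linarith), hd (k+1) (by linarith) (by linarith)]
      push_cast
      rw [show y - 1/2 - k = y - k - 1/2 by ring]
      ring
    have hl := S_lin (x := y - k) h (by linarith)
    rw [hJc, hJd]
    linarith

end Vale.Agent.P113
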