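import Vale.Agent.P113.Prof

set_option linter.unusedSectionVars false
set_option linter.unusedVariables false

open MeasureTheory Filter Topology Set

namespace Vale.Agent.P113

theorem S_lip (x y : ℝ) : |S x - S y| ≤ 2 * |x - y| := by
  have h := Convex.norm_image_sub_le_of_norm_deriv_le (f := S) (C := 2) (s := univ) (x := y) (y := x)
    (fun z _ => (S_hasDeriv z).differentiableAt) (fun z _ => by
      rw [S_deriv, Real.norm_eq_abs, abs_le]
      have a := S_nonneg (2*z); have b := S_nonneg (2*z-1)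
      have c := S_le_one (2*z); have d := S_le_one (2*z-1)
      constructor <;> linarith) convex_univ (mem_univ _) (mem_univ _)
  simpa [Real.norm_eq_abs] using h

/-- table rows -/
def row (K : ℕ) : ℕ → List ℕ
  | 0 => (List.range (K+1)).map fun i => if K ≤ i then 1 else 0
  | n+1 => (List.range (K+1)).map fun i =>
      ((List.range K).map fun j => (row K n).getD (min (2*i+j-K) K) 0).sum

def Af (K n i : ℕ) : ℕ := (row K n).getD (min i K) 0

theorem Af_zero (K i : ℕ) : Af K 0 i = if K ≤ i then 1 else 0 := by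
  unfold Af row
  rw [List.getD_eq_getElem?_getD, List.getElem?_map, List.getElem?_range (by omega)]
  simp
  

theorem list_sum_range (K : ℕ) (g : ℕ → ℕ) : ((List.range K).map g).sum = ∑ j ∈ Finset.range K, g j := by
  induction K with
  | zero => simp
  | succ K ih => rw [List.range_succ, Finset.sum_range_succ, List.map_append, List.sum_append, ih]; simp

theorem Af_succ (K n i : ℕ) : Af K (n+1) i = ∑ j ∈ Finset.range K, Af K n (2*(min i K)+j-K) := by
  have : Af K (n+1) i = ((List.range K).map fun j => (row K n).getD (min (2*(min i K)+j-K) K) 0).sum := by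
    unfold Af
    rw [row, List.getD_eq_getElem?_getD, List.getElem?_map, List.getElem?_range (by omega)]
    simp
  rw [this, list_sum_range]
  rfl

theorem Af_K (K n i : ℕ) (hi : K ≤ i) : Af K n i = K^n := by
  induction n generalizing i with
  | zero => rw [Af_zero]; simp [hi]
  | succ n ih =>
    rw [Af_succ, min_eq_right hi, Finset.sum_congr rfl (fun j _ => ih _ (by omega))]
    simp [pow_succ, mul_comm]

theorem Af_0 (K n : ℕ) (hK : 0 < K) : Af K n 0 = 0 := by
  induction n with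
  | zero => rw [Af_zero]; simp; omega
  | succ n ih =>
    rw [Af_succ]
    apply Finset.sum_eq_zero
    intro j hj
    have hj' := Finset.mem_range.1 hj
    have : 2*(min 0 K)+j-K = 0 := by omega
    rw [this, ih]

/-- the error -/
noncomputable def er (K n m : ℕ) : ℝ := |(Af K n m : ℝ)/K^n - S ((m:ℝ)/K)|

theorem er_K {K n m : ℕ} (hK : 0 < K) (h : K ≤ m) : er K n m = 0 := by
  unfold er
  have hk : (0:ℝ) < K := by exact_mod_cast hK
  rw [Af_K K n m h, S_ge_one (by rw [le_div_iff₀ hk]; exact_mod_cast (by omega : 1 * K ≤ m))]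
  push_cast
  rw [div_self (by positivity)]; simp

theorem er_0 {K n : ℕ} (hK : 0 < K) : er K n 0 = 0 := by
  unfold er
  rw [Af_0 K n hK]
  simp [S_nonpos le_rfl]

theorem er_nonneg (K n m : ℕ) : 0 ≤ er K n m := abs_nonneg _

theorem riemann {K : ℕ} (hK : 0 < K) (i : ℕ) :
    |S ((i:ℝ)/K) - (1/K) * ∑ j ∈ Finset.range K, S (((2*i+j:ℝ)-K)/K)| ≤ 2/K := by
  have hk : (0:ℝ) < K := by exact_mod_cast hK
  have e1 : S ((i:ℝ)/K) = ∑ j ∈ Finset.range K, ∫ r in (((2*i+(j:ℕ):ℝ)-K)/K)..(((2*i+((j+1:ℕ):ℝ))-K)/K), S r := by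
    rw [intervalIntegral.sum_integral_adjacent_intervals (a := fun j : ℕ => ((2*(i:ℝ)+j)-K)/K)
      (fun j _ => S_cont.intervalIntegrable _ _), S_fix]
    congr 1
    · push_cast; field_simp; ring
    · field_simp; ring
  rw [e1, Finset.mul_sum, ← Finset.sum_sub_distrib]
  refine (Finset.abs_sum_le_sum_abs _ _).trans ?_
  have hterm : ∀ j ∈ Finset.range K, |(∫ r in (((2*i+(j:ℕ):ℝ)-K)/K)..(((2*i+((j+1:ℕ):ℝ))-K)/K), S r) - 1/K * S (((2*i+j:ℝ)-K)/K)| ≤ 2/K/K := by
    intro j _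
    set a : ℝ := ((2*i+(j:ℕ):ℝ)-K)/K with ha
    have hb : (((2*i+((j+1:ℕ):ℝ))-K)/K) = a + 1/K := by
      rw [ha]; push_cast; field_simp; ring
    rw [hb]
    have e2 : 1/K * S a = ∫ r in a..(a+1/K), S a := by simp
    rw [e2, ← intervalIntegral.integral_sub (S_cont.intervalIntegrable _ _) (by simp)]
    have h := intervalIntegral.norm_integral_le_of_norm_le_const (a := a) (b := a+1/K)
      (f := fun r => S r - S a) (C := 2/K) (fun r hr => by
        rw [uIoc_of_le (by have : (0:ℝ) < 1/K := by positivity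
                           linarith)] at hr
        rw [Real.norm_eq_abs]
        refine (S_lip r a).trans ?_
        rw [abs_of_nonneg (by linarith [hr.1])]
        have : r - a ≤ 1/K := by linarith [hr.2]
        calc 2 * (r - a) ≤ 2 * (1/K) := by linarith
          _ = 2/K := by ring)
    rw [show a + 1/K - a = 1/(K:ℝ) by ring, abs_of_pos (by positivity : (0:ℝ) < 1/K)] at h
    rw [Real.norm_eq_abs] at h
    calc _ ≤ 2/(K:ℝ) * (1/K) := h
      _ = 2/K/K := by ring
  refine (Finset.sum_le_sum hterm).trans ?_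
  rw [Finset.sum_const, Finset.card_range, nsmul_eq_mul]
  rw [mul_div_cancel₀]
  positivity

theorem er_succ {K n i : ℕ} (hK : 0 < K) (hi : i ≤ K) :
    er K (n+1) i ≤ 1/K * (∑ j ∈ Finset.range K, er K n (2*i+j-K)) + 2/K := by
  have hk : (0:ℝ) < K := by exact_mod_cast hK
  have hr := riemann hK i
  have e1 : (Af K (n+1) i : ℝ)/K^(n+1) = 1/K * ∑ j ∈ Finset.range K, (Af K n (2*i+j-K) : ℝ)/K^n := by
    rw [Af_succ, min_eq_left hi]
    push_cast
    rw [← Finset.sum_div]
    field_simp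
    ring
  have e2 : ∀ j ∈ Finset.range K, S (((2*i+j:ℝ)-K)/K) = S (((2*i+j-K:ℕ):ℝ)/K) := by
    intro j _
    rcases le_total K (2*i+j) with h | h
    · rw [Nat.cast_sub h]; push_cast; rfl
    · rw [Nat.sub_eq_zero_of_le h]
      have h' : (2*(i:ℝ)+j) ≤ K := by exact_mod_cast h
      rw [S_nonpos (div_nonpos_of_nonpos_of_nonneg (by linarith) hk.le), S_nonpos (by simp)]
  rw [Finset.sum_congr rfl e2] at hr
  unfold er
  rw [e1]
  have e3 : 1/(K:ℝ) * ∑ j ∈ Finset.range K, (Af K n (2*i+j-K) : ℝ)/K^n - S ((i:ℝ)/K) =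
    1/K * (∑ j ∈ Finset.range K, ((Af K n (2*i+j-K) : ℝ)/K^n - S (((2*i+j-K:ℕ):ℝ)/K)))
      - (S ((i:ℝ)/K) - (1/K) * ∑ j ∈ Finset.range K, S (((2*i+j-K:ℕ):ℝ)/K)) := by
    rw [Finset.sum_sub_distrib]; ring
  rw [e3]
  refine (abs_sub _ _).trans ?_
  apply add_le_add _ hr
  rw [abs_mul, abs_of_pos (by positivity : (0:ℝ) < 1/K)]
  apply mul_le_mul_of_nonneg_left (Finset.abs_sum_le_sum_abs _ _) (by positivity)

theorem L1 {K : ℕ} (φ : ℕ → ℝ) (h0 : ∀ m, 0 ≤ φ m) (hz : φ 0 = 0) (hK : ∀ m, K ≤ m → φ m = 0) (i : ℕ) :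
    ∑ j ∈ Finset.range K, φ (2*i+j-K) ≤ ∑ m ∈ Finset.range K, φ m := by
  have e : ∑ j ∈ Finset.range K, φ (2*i+j-K) = ∑ j ∈ (Finset.range K).filter (fun j => K < 2*i+j ∧ 2*i+j-K < K), φ (2*i+j-K) := by
    symm
    apply Finset.sum_subset (Finset.filter_subset _ _)
    intro j hj hn
    simp only [Finset.mem_filter, not_and, not_lt] at hn
    by_cases h : K < 2*i+j
    · exact hK _ (hn hj h)
    · have : 2*i+j-K = 0 := by omega
      rw [this, hz]
  rw [e]
  have inj : ∀ x ∈ (Finset.range K).filter (fun j => K < 2*i+j ∧ 2*i+j-K < K), ∀ y ∈ (Finset.range K).filter (fun j => K < 2*i+j ∧ 2*i+j-K < K), 2*i+x-K = 2*i+y-K → x = y := by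
    intro x hx y hy hxy
    simp only [Finset.mem_filter] at hx hy
    omega
  rw [← Finset.sum_image (f := φ) (g := fun j => 2*i+j-K) (s := (Finset.range K).filter (fun j => K < 2*i+j ∧ 2*i+j-K < K)) (fun x hx y hy h => inj x hx y hy h)]
  apply Finset.sum_le_sum_of_subset_of_nonneg
  · intro m hm
    simp only [Finset.mem_image, Finset.mem_filter, Finset.mem_range] at hm ⊢
    obtain ⟨j, hj, rfl⟩ := hm
    exact hj.2.2
  · intro m _ _; exact h0 m

theorem L2 {K : ℕ} (φ : ℕ → ℝ) {M : ℝ} (hM : 0 ≤ M) (hφ : ∀ m, φ m ≤ M) (hz : φ 0 = 0) (hK : ∀ m, K ≤ m → φ m = 0)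
    {i : ℕ} (hi : i ≤ K) :
    ∑ j ∈ Finset.range K, φ (2*i+j-K) ≤ M * (min (2*i) (2*K-2*i) : ℕ) := by
  have e : ∀ j ∈ Finset.range K, φ (2*i+j-K) ≤ if (K < 2*i+j ∧ 2*i+j-K < K) then M else 0 := by
    intro j _
    split_ifs with h
    · exact hφ _
    · by_cases h1 : K < 2*i+j
      · have : K ≤ 2*i+j-K := by
          by_contra h2
          exact h ⟨h1, by omega⟩
        rw [hK _ this]
      · have : 2*i+j-K = 0 := by omega
        rw [this, hz]
  refine (Finset.sum_le_sum e).trans ?_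
  rw [← Finset.sum_filter, Finset.sum_const, nsmul_eq_mul, mul_comm]
  apply mul_le_mul_of_nonneg_left _ hM
  have : ((Finset.range K).filter (fun j => K < 2*i+j ∧ 2*i+j-K < K)).card ≤ min (2*i) (2*K-2*i) := by
    apply le_min
    · calc _ ≤ (Finset.range (2*i)).card := by
            apply Finset.card_le_card_of_injOn (fun j => 2*i+j-K)
            · intro j hj
              simp only [Finset.coe_filter, Finset.mem_range, Set.mem_setOf_eq, Finset.coe_range, Set.mem_Iio] at hj ⊢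
              omega
            · intro x hx y hy hxy
              simp only [Finset.coe_filter, Finset.mem_range, Set.mem_setOf_eq] at hx hy
              simp only at hxy
              omega
        _ = _ := by simp
    · calc _ ≤ (Finset.range (2*K-2*i)).card := by
            apply Finset.card_le_card
            intro j hj
            simp only [Finset.mem_filter, Finset.mem_range] at hj ⊢
            omega
        _ = _ := by simp
  exact_mod_cast this


theorem sum_id_sq (K : ℕ) : ∑ m ∈ Finset.range K, ((m:ℝ) * (K - m)) ≤ (K:ℝ)^3/6 := by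
  have h : ∀ (c : ℝ) (K : ℕ), ∑ m ∈ Finset.range K, ((m:ℝ) * (c - m)) = c * (K * (K-1))/2 - (K*(K-1)*(2*K-1))/6 := by
    intro c K
    induction K with
    | zero => simp
    | succ K ih => rw [Finset.sum_range_succ, ih]; push_cast; ring
  rw [h]
  have hk : (0:ℝ) ≤ K := Nat.cast_nonneg K
  nlinarith

theorem min_weight {K i : ℕ} (hK : 0 < K) (hi : i ≤ K) :
    ((min (2*i) (2*K-2*i) : ℕ) : ℝ) ≤ 4 * ((i:ℝ) * (K - i)) / K := by
  have hk : (0:ℝ) < K := by exact_mod_cast hK
  have hi' : (i:ℝ) ≤ K := by exact_mod_cast hi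
  have hi0 : (0:ℝ) ≤ i := Nat.cast_nonneg i
  rw [le_div_iff₀ hk]
  rcases le_total (2*i) (2*K-2*i) with h | h
  · rw [min_eq_left h]
    have h' : 2*(i:ℝ) ≤ 2*K - 2*i := by
      have : (2*i + 2*i : ℕ) ≤ 2*K := by omega
      have : (2*(i:ℝ) + 2*i) ≤ 2*K := by exact_mod_cast this
      linarith
    push_cast
    nlinarith
  · rw [min_eq_right h, Nat.cast_sub (by omega)]
    have h' : 2*(K:ℝ) - 2*i ≤ 2*i := by
      have : 2*K ≤ (2*i + 2*i : ℕ) := by omega
      have : 2*(K:ℝ) ≤ (2*(i:ℝ) + 2*i) := by exact_mod_cast this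
      linarith
    push_cast
    nlinarith

/-- two steps contract by `2/3` -/
theorem er_two {K n : ℕ} (hK : 0 < K) {M : ℝ} (hM : 0 ≤ M) (h : ∀ m, er K n m ≤ M) :
    ∀ m, er K (n+2) m ≤ 2/3 * M + 4/K := by
  have hk : (0:ℝ) < K := by exact_mod_cast hK
  have h1 : ∀ i, i ≤ K → er K (n+1) i ≤ M * (4 * ((i:ℝ) * (K - i)) / K) / K + 2/K := by
    intro i hi
    refine (er_succ hK hi).trans ?_
    have a := L2 (fun m => er K n m) hM h (er_0 hK) (fun m hm => er_K hK hm) hi
    have b := mul_le_mul_of_nonneg_left (min_weight hK hi) hM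
    have c : 1/(K:ℝ) * (∑ j ∈ Finset.range K, er K n (2*i+j-K)) ≤ 1/K * (M * (4 * ((i:ℝ) * (K - i)) / K)) :=
      mul_le_mul_of_nonneg_left (a.trans b) (by positivity)
    have d : 1/(K:ℝ) * (M * (4 * ((i:ℝ) * (K - i)) / K)) = M * (4 * ((i:ℝ) * (K - i)) / K) / K := by ring
    linarith
  intro m
  rcases le_total K m with hm | hm
  · rw [er_K hK hm]; positivity
  refine (er_succ hK hm).trans ?_
  have a := L1 (fun m => er K (n+1) m) (fun m => er_nonneg _ _ _) (er_0 hK) (fun m hm => er_K hK hm) m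
  have b : ∑ m ∈ Finset.range K, er K (n+1) m ≤ ∑ m ∈ Finset.range K, (M * (4 * ((m:ℝ) * (K - m)) / K) / K + 2/K) :=
    Finset.sum_le_sum fun i hi => h1 i (Finset.mem_range.1 hi).le
  have c : ∑ m ∈ Finset.range K, (M * (4 * ((m:ℝ) * (K - m)) / K) / K + 2/K) =
      4 * M/K/K * (∑ m ∈ Finset.range K, ((m:ℝ) * (K - m))) + 2 := by
    rw [Finset.sum_add_distrib, Finset.sum_const, Finset.card_range, nsmul_eq_mul, Finset.mul_sum]
    congr 1
    · apply Finset.sum_congr rfl; intro i _; ring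
    · field_simp
  have d : 4 * M/K/K * (∑ m ∈ Finset.range K, ((m:ℝ) * (K - m))) ≤ 4 * M/K/K * ((K:ℝ)^3/6) :=
    mul_le_mul_of_nonneg_left (sum_id_sq K) (by positivity)
  have e : 4 * M/K/K * ((K:ℝ)^3/6) = 2/3 * M * K := by field_simp; ring
  have f : ∑ j ∈ Finset.range K, er K (n+1) (2*m+j-K) ≤ 2/3 * M * K + 2 := by linarith
  have g : 1/(K:ℝ) * (∑ j ∈ Finset.range K, er K (n+1) (2*m+j-K)) ≤ 1/K * (2/3 * M * K + 2) :=
    mul_le_mul_of_nonneg_left f (by positivity)
  have k : 1/(K:ℝ) * (2/3 * M * K + 2) + 2/K = 2/3 * M + 4/K := by field_simp; ring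
  linarith

theorem er_bound {K : ℕ} (hK : 0 < K) (N : ℕ) : ∀ m, er K (2*N) m ≤ (2/3)^N + 12/K := by
  have hk : (0:ℝ) < K := by exact_mod_cast hK
  induction N with
  | zero =>
    intro m
    have : er K 0 m ≤ 1 := by
      unfold er
      rw [Af_zero, abs_le]
      have a := S_nonneg ((m:ℝ)/K)
      have b := S_le_one ((m:ℝ)/K)
      split_ifs <;> constructor <;> norm_num <;> linarith
    have : (0:ℝ) < 12/K := by positivity
    simp only [pow_zero, mul_zero]
    linarith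
  | succ N ih =>
    intro m
    have h := er_two hK (by positivity) ih m
    have e : 2/3 * ((2/3:ℝ)^N + 12/K) + 4/K = (2/3)^(N+1) + 12/K := by rw [pow_succ]; ring
    rw [e] at h
    exact h

/-- numerator and denominator of the approximation of `S (p/(q+1))` -/
def Sap (p q n : ℕ) : ℕ × ℕ × ℕ :=
  (Af (24*(n+1)*(q+1)) (4*(n+2)) (24*(n+1)*p), 0, (24*(n+1)*(q+1))^(4*(n+2)) - 1)

theorem Sap_spec (p q n : ℕ) :
    |S ((p:ℝ)/(q+1)) - ((((Sap p q n).1 : ℝ) - (Sap p q n).2.1) / ((Sap p q n).2.2 + 1))| ≤ 1/((n:ℝ)+1) := by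
  set K := 24*(n+1)*(q+1) with hKd
  have hK : 0 < K := by positivity
  have hk : (0:ℝ) < K := by exact_mod_cast hK
  have h := er_bound hK (2*(n+2)) (24*(n+1)*p)
  rw [show 2*(2*(n+2)) = 4*(n+2) by ring] at h
  have e1 : (((24*(n+1)*p : ℕ)):ℝ)/K = (p:ℝ)/(q+1) := by
    rw [hKd]; push_cast
    rw [div_eq_div_iff (by positivity) (by positivity)]
    ring
  have e2 : (((K^(4*(n+2)) - 1 : ℕ) : ℝ) + 1) = (K:ℝ)^(4*(n+2)) := by
    rw [Nat.cast_sub (Nat.one_le_pow _ _ hK)]
    push_cast; ring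
  unfold er at h
  rw [e1] at h
  unfold Sap
  simp only [← hKd]
  rw [e2, Nat.cast_zero, sub_zero, abs_sub_comm]
  refine h.trans ?_
  have a : (2/3:ℝ)^(2*(n+2)) ≤ (1/2)^(n+2) := by
    rw [pow_mul]
    apply pow_le_pow_left₀ (by positivity)
    norm_num
  have b : (1/2:ℝ)^(n+2) ≤ 1/(2*((n:ℝ)+1)) := by
    rw [one_div, inv_pow, one_div]
    apply inv_anti₀ (by positivity)
    have : n + 2 ≤ 2^(n+1) := by
      have := @Nat.lt_two_pow_self (n+1)
      omega
    have h2 : ((n:ℝ) + 2) ≤ 2^(n+1) := by exact_mod_cast this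
    rw [pow_succ]
    linarith
  have c : 12/(K:ℝ) ≤ 1/(2*((n:ℝ)+1)) := by
    rw [hKd]; push_cast
    rw [div_le_div_iff₀ (by positivity) (by positivity)]
    have hq : (0:ℝ) ≤ q := Nat.cast_nonneg q
    have hn : (0:ℝ) ≤ n := Nat.cast_nonneg n
    nlinarith [mul_nonneg hn hq]
  have d : 1/(2*((n:ℝ)+1)) + 1/(2*((n:ℝ)+1)) = 1/((n:ℝ)+1) := by field_simp; norm_num
  linarith

end Vale.Agent.P113
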