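import Vale.Agent.P113.Geo

set_option linter.unusedSectionVars false
set_option linter.unusedVariables false

open MeasureTheory Filter Topology Set Function

namespace Vale.Agent.P113

/-- micro configurations -/
structure MC where
  d : ℕ
  q : ℕ
  A : List ℕ
  Bs : List ℕ

/-- the update, from an outcome -/
def upd (m : MC) (o : ℕ × ℕ × ℕ × ℕ × ℕ) : MC :=
  if o.1 = 0 then ⟨o.2.1, o.2.2.1, m.A.tail, o.2.2.2.2 :: o.2.2.2.1 :: m.Bs⟩
  else if o.1 = 1 then ⟨o.2.1, o.2.2.1, m.Bs, o.2.2.2.2 :: o.2.2.2.1 :: m.A.tail⟩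
  else ⟨o.2.1, o.2.2.1, o.2.2.2.1 :: m.A.tail, o.2.2.2.2 :: m.Bs⟩

def ustep (c : Inp) (m : MC) : MC := upd m (outc c m.d m.q (m.A.headD 0))

/-- well-formed tables -/
def WF (c : Inp) : Prop := ∀ q s, (tab c q s).1 < Kc c ∧ (tab c q s).2.1 < Kc c

structure VM (c : Inp) (m : MC) : Prop where
  hd : m.d ≤ 1
  hq : m.q < Kc c
  hA : ∀ a ∈ m.A, a ≤ sg c
  hB : ∀ a ∈ m.Bs, a ≤ sg c

theorem Kc_pos (c : Inp) : 2 ≤ Kc c := by unfold Kc; omega

theorem jk_lt (c : Inp) {d q s : ℕ} (hd : d ≤ 1) (hq : q < Kc c) (hs : s < Kc c) : jk c d q s < sg c := by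
  unfold jk sg
  have h1 : d * Kc c + q + 1 ≤ 2 * Kc c := by nlinarith
  have h2 : (d * Kc c + q) * Kc c + Kc c ≤ 2 * Kc c * Kc c := by nlinarith
  omega

/-- facts about the outcome -/
structure OV (c : Inp) (d q a : ℕ) (o : ℕ × ℕ × ℕ × ℕ × ℕ) : Prop where
  ty : o.1 = 0 ∨ o.1 = 1 ∨ o.1 = 2
  nd0 : o.1 ≠ 1 → o.2.1 = d
  nd1 : o.1 = 1 → o.2.1 ≠ d
  nd : o.2.1 ≤ 1
  nq : o.2.2.1 < Kc c
  c1 : o.2.2.2.1 ≤ sg c
  c2 : o.2.2.2.2 ≤ sg c

theorem outc_valid (c : Inp) (hw : WF c) {d q a : ℕ} (hd : d ≤ 1) (hq : q < Kc c) (ha : a ≤ sg c) :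
    OV c d q a (outc c d q a) := by
  unfold outc
  have := Kc_pos c
  have hs : Kc c ≤ sg c := by unfold sg; omega
  split_ifs with h h1 h2
  · exact ⟨Or.inl rfl, fun _ => rfl, fun h => by simp at h, hd, hq, ha, le_rfl⟩
  · have hj := jk_lt c hd hq (by omega : a < Kc c)
    exact ⟨Or.inl rfl, fun _ => rfl, fun h => by simp at h, hd, (hw _ _).1, ((hw q a).2.le.trans hs), hj.le⟩
  · have hj := jk_lt c hd hq (by omega : a < Kc c)
    exact ⟨Or.inr (Or.inl rfl), fun h => absurd rfl h, fun _ => h1, h2, (hw _ _).1, ((hw q a).2.le.trans hs), hj.le⟩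
  · have hj := jk_lt c hd hq (by omega : a < Kc c)
    exact ⟨Or.inr (Or.inr rfl), fun _ => rfl, fun h => by simp at h, hd, (hw _ _).1, ((hw q a).2.le.trans hs), hj.le⟩

theorem headD_le {l : List ℕ} {b : ℕ} (h : ∀ a ∈ l, a ≤ b) : l.headD 0 ≤ b := by
  cases l with
  | nil => simp
  | cons a l => exact h a List.mem_cons_self

theorem tail_le {l : List ℕ} {b : ℕ} (h : ∀ a ∈ l, a ≤ b) : ∀ a ∈ l.tail, a ≤ b :=
  fun a ha => h a (List.mem_of_mem_tail ha)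

theorem cons_le {l : List ℕ} {a b : ℕ} (ha : a ≤ b) (h : ∀ x ∈ l, x ≤ b) : ∀ x ∈ a :: l, x ≤ b := by
  intro x hx
  rcases List.mem_cons.1 hx with rfl | hx
  · exact ha
  · exact h x hx

theorem ustep_valid (c : Inp) (hw : WF c) {m : MC} (hm : VM c m) : VM c (ustep c m) := by
  have ho := outc_valid c hw hm.hd hm.hq (headD_le hm.hA)
  unfold ustep upd
  split_ifs with h h1
  · exact ⟨ho.nd, ho.nq, tail_le hm.hA, cons_le ho.c2 (cons_le ho.c1 hm.hB)⟩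
  · exact ⟨ho.nd, ho.nq, hm.hB, cons_le ho.c2 (cons_le ho.c1 (tail_le hm.hA))⟩
  · exact ⟨ho.nd, ho.nq, cons_le ho.c1 (tail_le hm.hA), cons_le ho.c2 hm.hB⟩

noncomputable def pt (c : Inp) (m : MC) : E :=
  if m.d = 0 then ![enc (bt c) ((sg c + 1 + m.q) :: m.A), enc (bt c) m.Bs, 0]
  else ![enc (bt c) m.Bs, enc (bt c) ((sg c + 1 + m.q) :: m.A), 0]

noncomputable def stp (c : Inp) (i : Fin 12) (p : E) : E := p + Wi c i p

theorem FV_dig (γ : Inp → ℕ → Rep) (c : Inp) (hγ : ∀ j, γ c (2*j+1) = γ c (2*j)) (l : List ℕ) (hl : ∀ a ∈ l, a < Bc c) :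
    FV ⟨γ, fun c => 2 * b2 c, 0⟩ c 0 (enc (bt c) l) = rv (γ c (2 * (l.headD 0 * bt c + l.tail.headD 0))) := by
  have hb : (0:ℝ) < bt c := by exact_mod_cast bt_pos c
  have hB : Bc c ≤ bt c := by unfold bt; omega
  have hBpos : 0 < Bc c := by unfold Bc; omega
  set a0 := l.headD 0
  set a1 := l.tail.headD 0
  have ha0 : a0 < Bc c := by
    cases l with
    | nil => exact hBpos
    | cons a l => exact hl a List.mem_cons_self
  have ha1 : a1 < Bc c := by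
    have : ∀ a ∈ l.tail, a < Bc c := fun a ha => hl a (List.mem_of_mem_tail ha)
    change l.tail.headD 0 < Bc c
    cases h : l.tail with
    | nil => exact hBpos
    | cons a l' => exact this a (by rw [h]; exact List.mem_cons_self)
  set e := enc (bt c) l.tail.tail with he
  have he0 : 0 ≤ e := enc_nonneg _ _
  have he1 : e < 1/16 := enc_lt c _ fun a ha => hl a (List.mem_of_mem_tail (List.mem_of_mem_tail ha))
  have hx : enc (bt c) l = (a0 + (a1 + e)/bt c)/bt c := by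
    rw [enc_head, enc_head (bt c) l.tail]
  have hNx : ((2 * b2 c : ℕ) : ℝ) * enc (bt c) l = 2 * (a0 * bt c + a1) + 2 * e := by
    rw [hx]; unfold b2; push_cast; field_simp; ring
  apply FV_flat γ (fun c => 2 * b2 c) c (2 * (a0 * bt c + a1))
  · have h1 : a0 * bt c + a1 + 1 ≤ bt c * bt c := by nlinarith
    unfold b2
    omega
  · rw [hNx]; push_cast; linarith
  · rw [hNx]; push_cast; linarith
  · exact hγ _

theorem gk_pair (side : ℕ) (c : Inp) (j : ℕ) : gk side c (2*j+1) = gk side c (2*j) := by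
  unfold gk
  rw [show (2*j+1)/2 = 2*j/2 by omega]

theorem gk'_pair (side : ℕ) (c : Inp) (j : ℕ) : gk' side c (2*j+1) = gk' side c (2*j) := by
  unfold gk'
  rw [show (2*j+1)/2 = 2*j/2 by omega]

theorem dv1 (b a0 a1 : ℕ) (h : a1 < b) : (2 * (a0 * b + a1)) / 2 = a0 * b + a1 ∧ (a0 * b + a1) / b = a0 ∧ (a0 * b + a1) % b = a1 := by
  have hb : 0 < b := by omega
  refine ⟨by omega, ?_, ?_⟩
  · rw [mul_comm, Nat.mul_add_div hb, Nat.div_eq_of_lt h, add_zero]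
  · rw [mul_comm, Nat.mul_add_mod, Nat.mod_eq_of_lt h]

/-- the reading function on a non-control top digit -/
theorem gk_low (side : ℕ) (c : Inp) {a0 a1 : ℕ} (h1 : a1 < bt c) (h0 : a0 ≤ sg c) :
    gk side c (2 * (a0 * bt c + a1)) = (0, 0, 0) := by
  obtain ⟨e1, e2, e3⟩ := dv1 (bt c) a0 a1 h1
  unfold gk
  rw [e1, e2, if_pos h0]

theorem gk_ctrl (side : ℕ) (c : Inp) {q a1 : ℕ} (h1 : a1 < bt c) :
    gk side c (2 * ((sg c + 1 + q) * bt c + a1)) =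
      bif hlt c q then (1, 0, 1) else (side * b2 c + ((sg c + 1 + q) * bt c + a1), 0, Dc c - 1) := by
  obtain ⟨e1, e2, e3⟩ := dv1 (bt c) (sg c + 1 + q) a1 h1
  unfold gk
  rw [e1, e2, if_neg (by omega), show sg c + 1 + q - (sg c + 1) = q by omega]

theorem rvD (c : Inp) (a b : ℕ) : rv (a, b, Dc c - 1) = ((a:ℝ) - b)/Dc c := by
  unfold rv
  simp only
  rw [Nat.cast_sub (Dc_pos c)]
  push_cast
  ring_nf

theorem rvb (c : Inp) (a b : ℕ) : rv (a, b, bt c - 1) = ((a:ℝ) - b)/bt c := by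
  unfold rv
  simp only
  rw [Nat.cast_sub (bt_pos c)]
  push_cast
  ring_nf

theorem rvb2 (c : Inp) (a b : ℕ) : rv (a, b, b2 c - 1) = ((a:ℝ) - b)/b2 c := by
  unfold rv
  simp only
  rw [Nat.cast_sub (b2_pos c)]
  push_cast
  ring_nf

theorem rv0 (a b : ℕ) : rv (a, b, 0) = (a:ℝ) - b := by
  unfold rv; simp

/-- the linear part, slots 2-8 -/
theorem lin_part (c : Inp) (j : ℕ) (hj : j < Dc c) {μ x y : ℝ} (hμ : μ ≠ 0)
    (h1 : rv (gA1 c j) = 1/μ - 1) (h2 : rv (gA2 c j) = μ - 1) (h3 : rv (gA3 c j) = -(1/μ))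
    (wy : |y| ≤ 3/8) (wy2 : |y/bt c| ≤ 3/8) (wx3 : |x + (1/μ-1) * (y/bt c)| ≤ 3/8)
    (wy3 : |x + (y/bt c)/μ| ≤ 3/8) (wx4 : |μ * x| ≤ 3/8) :
    stp c 2 ![x, y, (j:ℝ)/Dc c] = ![x, y, (j + y)/Dc c] ∧
    stp c 3 ![x, y, (j + y)/Dc c] = ![x, y/bt c, (j + y)/Dc c] ∧
    stp c 4 ![x, y/bt c, (j + y)/Dc c] = ![x, y/bt c, (j:ℝ)/Dc c] ∧
    stp c 5 ![x, y/bt c, (j:ℝ)/Dc c] = ![x + (1/μ-1) * (y/bt c), y/bt c, (j:ℝ)/Dc c] ∧
    stp c 6 ![x + (1/μ-1) * (y/bt c), y/bt c, (j:ℝ)/Dc c] = ![x + (1/μ-1) * (y/bt c), x + (y/bt c)/μ, (j:ℝ)/Dc c] ∧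
    stp c 7 ![x + (1/μ-1) * (y/bt c), x + (y/bt c)/μ, (j:ℝ)/Dc c] = ![μ * x, x + (y/bt c)/μ, (j:ℝ)/Dc c] ∧
    stp c 8 ![μ * x, x + (y/bt c)/μ, (j:ℝ)/Dc c] = ![μ * x, (y/bt c)/μ, (j:ℝ)/Dc c] := by
  have hb : (0:ℝ) < bt c := by exact_mod_cast bt_pos c
  have hD : (0:ℝ) < Dc c := by exact_mod_cast Dc_pos c
  have hu : ∀ v : ℝ, |v| ≤ 3/8 → ELL u1 c v = v := by
    intro v hv
    rw [abs_le] at hv
    have := ELL_eq u1 c one_pos 0 (v := v) (by simp [u1]; linarith [hv.1]) (by simp [u1]; linarith [hv.2])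
    rw [this]; simp [u1]
  have hDz : ∀ v : ℝ, |v| ≤ 3/8 → ELL Dc c ((j + v)/Dc c) = v := by
    intro v hv
    rw [abs_le] at hv
    have e : (Dc c : ℝ) * ((j + v)/Dc c) - ((j:ℤ):ℝ) = v := by
      push_cast; field_simp; ring
    rw [ELL_eq Dc c (Dc_pos c) (j:ℤ) (by rw [e]; linarith [hv.1]) (by rw [e]; linarith [hv.2]), e]
  have hn : ∀ γ : Inp → ℕ → Rep, FV ⟨γ, Dc, 0⟩ c 0 ((j:ℝ)/Dc c) = rv (γ c j) := by
    intro γ
    exact FV_node γ Dc c j hj (by field_simp)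
  refine ⟨?_, ?_, ?_, ?_, ?_, ?_, ?_⟩
  · unfold stp
    rw [W2]
    funext k
    fin_cases k
    · simp
    · simp
    · simp [hu y wy, rvD]; field_simp
  · unfold stp
    rw [W3]
    funext k
    fin_cases k
    · simp
    · simp [hDz y wy, rvb]; field_simp; ring
    · simp
  · unfold stp
    rw [W4]
    funext k
    fin_cases k
    · simp
    · simp
    · simp [hu _ wy2, rvD]; field_simp; ring
  · unfold stp
    rw [W5]
    funext k
    fin_cases k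
    · simp [hu _ wy2, hn, h1]
    · simp
    · simp
  · unfold stp
    rw [W6]
    funext k
    fin_cases k
    · simp
    · simp only [Fin.mk_one, Pi.add_apply, Matrix.cons_val_one, Matrix.cons_val_zero]
      rw [hu _ wx3]; field_simp; ring
    · simp
  · unfold stp
    rw [W7]
    funext k
    fin_cases k
    · simp only [Fin.zero_eta, Pi.add_apply, Matrix.cons_val_one, Matrix.cons_val_zero, Matrix.cons_val]
      rw [hu _ wy3, hn, h2]; field_simp; ring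
    · simp
    · simp
  · unfold stp
    rw [W8]
    funext k
    fin_cases k
    · simp
    · simp only [Fin.mk_one, Pi.add_apply, Matrix.cons_val_one, Matrix.cons_val_zero, Matrix.cons_val]
      rw [hu _ wx4, hn, h3]; field_simp; ring
    · simp

end Vale.Agent.P113
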