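import Vale.Agent.P113.Pde
import Vale.Agent.P113.Prof

set_option linter.unusedSectionVars false
set_option linter.unusedVariables false

open MeasureTheory Filter Topology Set Function

namespace Vale.Agent.P113

/-! mixed derivatives -/

noncomputable def pd (j : Fin 4) (F : (Fin 4 → ℝ) → ℝ) (v : Fin 4 → ℝ) : ℝ :=
  deriv (fun s => F (Function.update v j s)) (v j)

noncomputable def mixed (l : List (Fin 4)) (F : (Fin 4 → ℝ) → ℝ) : (Fin 4 → ℝ) → ℝ := l.foldr pd F

variable {ι : Type} [Fintype ι] (A : Sys ι)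

noncomputable def Sys.G (ν : ℝ) (k : Fin 3) (n a b d : ℕ) (v : Fin 4 → ℝ) : ℝ :=
  A.U (n+1) a b d (v 0) (fun j => v j.succ) k - ν * (A.U n (a+2) b d (v 0) (fun j => v j.succ) k +
    A.U n a (b+2) d (v 0) (fun j => v j.succ) k + A.U n a b (d+2) (v 0) (fun j => v j.succ) k)

theorem Sys.d0 (n a b d : ℕ) (k : Fin 3) (v : Fin 4 → ℝ) :
    HasDerivAt (fun s => A.U n a b d ((Function.update v 0 s) 0) (fun j => (Function.update v 0 s) j.succ) k)
      (A.U (n+1) a b d (v 0) (fun j => v j.succ) k) (v 0) := by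
  have h := (hasDerivAt_pi.1 (A.hasDeriv_t n a b d (v 0) (fun j => v j.succ))) k
  have e : (fun s => A.U n a b d ((Function.update v 0 s) 0) (fun j => (Function.update v 0 s) j.succ) k) =
    fun s => A.U n a b d s (fun j => v j.succ) k := by
    funext s
    simp
  rw [e]; exact h

theorem Sys.dj (n a b d : ℕ) (k : Fin 3) (v : Fin 4 → ℝ) (i : Fin 3) :
    HasDerivAt (fun s => A.U n a b d ((Function.update v i.succ s) 0) (fun j => (Function.update v i.succ s) j.succ) k)
      (A.D n a b d (v 0) (fun j => v j.succ) (ev i) k) (v i.succ) := by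
  set x : E := fun j => v j.succ with hx
  have e : (fun s => A.U n a b d ((Function.update v i.succ s) 0) (fun j => (Function.update v i.succ s) j.succ) k) =
    fun s => A.U n a b d (v 0) (Function.update x i s) k := by
    funext s
    have e1 : (Function.update v i.succ s) 0 = v 0 := Function.update_of_ne (Fin.succ_ne_zero _).symm _ _
    have e2 : (fun j : Fin 3 => (Function.update v i.succ s) j.succ) = Function.update x i s := by
      funext j
      by_cases h : j = i
      · subst h; simp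
      · rw [Function.update_of_ne h, Function.update_of_ne (fun hh => h (Fin.succ_injective _ hh))]
    rw [e1, e2]
  rw [e]
  have h1 : HasFDerivAt (A.U n a b d (v 0)) (A.D n a b d (v 0) x) (Function.update x i (x i)) := by
    rw [Function.update_eq_self]; exact A.hasFDeriv n a b d (v 0) x
  have h2 : HasDerivAt (fun s => Function.update x i s) (Pi.single i 1) (x i) := hasDerivAt_update x i (x i)
  have h3 := h1.comp_hasDerivAt (x i) h2
  exact (hasDerivAt_pi.1 h3) k

theorem Sys.pdG (ν : ℝ) (k : Fin 3) (n a b d : ℕ) :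
    pd 0 (A.G ν k n a b d) = A.G ν k (n+1) a b d ∧ pd 1 (A.G ν k n a b d) = A.G ν k n (a+1) b d ∧
    pd 2 (A.G ν k n a b d) = A.G ν k n a (b+1) d ∧ pd 3 (A.G ν k n a b d) = A.G ν k n a b (d+1) := by
  have hj : ∀ (i : Fin 3) (v : Fin 4 → ℝ), pd i.succ (A.G ν k n a b d) v =
      A.D (n+1) a b d (v 0) (fun j => v j.succ) (ev i) k - ν * (A.D n (a+2) b d (v 0) (fun j => v j.succ) (ev i) k +
        A.D n a (b+2) d (v 0) (fun j => v j.succ) (ev i) k + A.D n a b (d+2) (v 0) (fun j => v j.succ) (ev i) k) := by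
    intro i v
    exact ((A.dj (n+1) a b d k v i).sub ((((A.dj n (a+2) b d k v i).add (A.dj n a (b+2) d k v i)).add (A.dj n a b (d+2) k v i)).const_mul ν)).deriv
  refine ⟨?_, ?_, ?_, ?_⟩
  · funext v
    exact ((A.d0 (n+1) a b d k v).sub ((((A.d0 n (a+2) b d k v).add (A.d0 n a (b+2) d k v)).add (A.d0 n a b (d+2) k v)).const_mul ν)).deriv
  · funext v
    have := hj 0 v
    simp only [Fin.succ_zero_eq_one] at this
    rw [this, (A.D_ev _ _ _ _ _ _).1, (A.D_ev _ _ _ _ _ _).1, (A.D_ev _ _ _ _ _ _).1, (A.D_ev _ _ _ _ _ _).1]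
    unfold Sys.G
    ring_nf
  · funext v
    have := hj 1 v
    rw [show (1 : Fin 3).succ = 2 from rfl] at this
    rw [this, (A.D_ev _ _ _ _ _ _).2.1, (A.D_ev _ _ _ _ _ _).2.1, (A.D_ev _ _ _ _ _ _).2.1, (A.D_ev _ _ _ _ _ _).2.1]
    unfold Sys.G
    ring_nf
  · funext v
    have := hj 2 v
    rw [show (2 : Fin 3).succ = 3 from rfl] at this
    rw [this, (A.D_ev _ _ _ _ _ _).2.2, (A.D_ev _ _ _ _ _ _).2.2, (A.D_ev _ _ _ _ _ _).2.2, (A.D_ev _ _ _ _ _ _).2.2]
    unfold Sys.G
    ring_nf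

def cnt (j : Fin 4) (l : List (Fin 4)) : ℕ := l.foldr (fun a s => if a = j then s + 1 else s) 0

theorem Sys.mixed_G (ν : ℝ) (k : Fin 3) (l : List (Fin 4)) :
    mixed l (A.G ν k 0 0 0 0) = A.G ν k (cnt 0 l) (cnt 1 l) (cnt 2 l) (cnt 3 l) := by
  induction l with
  | nil => rfl
  | cons j l ih =>
    have e : mixed (j :: l) (A.G ν k 0 0 0 0) = pd j (mixed l (A.G ν k 0 0 0 0)) := rfl
    rw [e, ih]
    have h := A.pdG ν k (cnt 0 l) (cnt 1 l) (cnt 2 l) (cnt 3 l)
    have hc : ∀ i : Fin 4, cnt i (j :: l) = if j = i then cnt i l + 1 else cnt i l := fun i => rfl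
    simp only [hc]
    fin_cases j
    · exact h.1
    · exact h.2.1
    · exact h.2.2.1
    · exact h.2.2.2

/-! trajectories -/

noncomputable def Xs (V : ℕ → E → E) (a : E) : ℕ → E
  | 0 => a
  | s+1 => Xs V a s + V s (Xs V a s)

structure Shears (u : ℝ → E → E) (V : ℕ → E → E) : Prop where
  hu : ∀ (s : ℕ) (t : ℝ), s ≤ t → t ≤ s + 1 → ∀ x, u t x = deriv S (t - s) • V s x
  hV : ∀ s, ∃ A : Set (Fin 3), (∀ j ∉ A, ∀ x, V s x j = 0) ∧ ∀ x y : E, (∀ j ∉ A, x j = y j) → V s x = V s y

theorem traj_step {u : ℝ → E → E} {V : ℕ → E → E} (h : Shears u V) {X : ℝ → E}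
    (hX : ∀ t, 0 ≤ t → HasDerivWithinAt X (u t (X t)) (Ici 0) t) (s : ℕ) :
    ∀ t : ℝ, (s:ℝ) ≤ t → t ≤ s + 1 → X t = Xs V (X 0) s + S (t - s) • V s (Xs V (X 0) s) := by
  have main : ∀ s : ℕ, X s = Xs V (X 0) s → ∀ t : ℝ, (s:ℝ) ≤ t → t ≤ s + 1 → X t = Xs V (X 0) s + S (t - s) • V s (Xs V (X 0) s) := by
    intro s hs t h1 h2
    obtain ⟨B, hB0, hB⟩ := h.hV s
    have hs0 : (0:ℝ) ≤ s := Nat.cast_nonneg s
    have hcont : ContinuousOn X (Icc s (s+1)) := fun r hr =>
      ((hX r (hs0.trans hr.1)).mono (fun y hy => hs0.trans hy.1)).continuousWithinAt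
    have hder : ∀ r ∈ Ico (s:ℝ) (s+1), HasDerivWithinAt X (deriv S (r - s) • V s (X r)) (Ici r) r := by
      intro r hr
      rw [← h.hu s r hr.1 hr.2.le]
      exact (hX r (hs0.trans hr.1)).mono (fun y hy => (hs0.trans hr.1).trans hy)
    have hconst : ∀ j ∉ B, ∀ r ∈ Icc (s:ℝ) (s+1), X r j = X s j := by
      intro j hj
      apply constant_of_has_deriv_right_zero (f := fun r => X r j)
      · exact (continuous_apply j).comp_continuousOn hcont
      · intro r hr
        have := (hasDerivWithinAt_pi.1 (hder r hr)) j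
        simp only [Pi.smul_apply, hB0 j hj, smul_zero] at this
        exact this
    have hVc : ∀ r ∈ Icc (s:ℝ) (s+1), V s (X r) = V s (X s) := fun r hr => hB _ _ fun j hj => hconst j hj r hr
    have hY := constant_of_has_deriv_right_zero (f := fun r => X r - S (r - s) • V s (X s)) (a := (s:ℝ)) (b := s+1)
      (hcont.sub ((S_cont.comp (by fun_prop : Continuous fun r : ℝ => r - s)).continuousOn.smul continuousOn_const)) (by
        intro r hr
        have d1 := hder r hr
        rw [hVc r ⟨hr.1, hr.2.le⟩] at d1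
        have d2 : HasDerivAt (fun r : ℝ => S (r - s)) (deriv S (r - s)) r := by
          have := HasDerivAt.comp r (S_hasDeriv (r - s)) ((hasDerivAt_id r).sub_const (s:ℝ))
          rw [← S_deriv, mul_one] at this
          exact this
        have d3 := d1.sub (d2.smul_const (V s (X s))).hasDerivWithinAt
        rw [sub_self] at d3
        exact d3) t ⟨h1, h2⟩
    simp only [sub_self, S_nonpos le_rfl, zero_smul, sub_zero] at hY
    rw [← hs]
    exact sub_eq_iff_eq_add.1 hY
  have ind : ∀ s : ℕ, X s = Xs V (X 0) s := by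
    intro s
    induction s with
    | zero => simp [Xs]
    | succ s ih =>
      have := main s ih (s+1) (by linarith) le_rfl
      push_cast
      rw [this, Xs, show (s:ℝ) + 1 - s = 1 by ring, S_ge_one le_rfl, one_smul]
  exact main s (ind s)

theorem traj_exists {u : ℝ → E → E} {V : ℕ → E → E} (h : Shears u V) (a : E) :
    ∃ X : ℝ → E, X 0 = a ∧ ∀ t, 0 ≤ t → HasDerivWithinAt X (u t (X t)) (Ici 0) t := by
  set c : Fin 3 → ℤ → ℝ := fun j k => Xs V a k.toNat j with hc
  have hval : ∀ (s : ℕ) (t : ℝ), (s:ℝ) ≤ t → t < s + 1 → (fun j => J (c j) t) = Xs V a s + S (t - s) • V s (Xs V a s) := by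
    intro s t h1 h2
    funext j
    rw [J_eq' (c j) (s:ℤ) (by push_cast; exact h1) (by push_cast; exact h2)]
    have e1 : c j (s:ℤ) = Xs V a s j := by simp [hc]
    have e2 : c j ((s:ℤ)+1) = Xs V a s j + V s (Xs V a s) j := by
      have : ((s:ℤ)+1).toNat = s + 1 := by omega
      simp only [hc, this]
      rfl
    rw [e1, e2]
    simp only [Pi.add_apply, Pi.smul_apply, smul_eq_mul]
    push_cast
    ring
  refine ⟨fun t j => J (c j) t, ?_, ?_⟩
  · have := hval 0 0 (by simp) (by simp)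
    simp only at this ⊢
    rw [this]
    simp [Xs, S_nonpos]
  · intro t ht
    set s := ⌊t⌋₊ with hs
    have h1 : (s:ℝ) ≤ t := Nat.floor_le ht
    have h2 : t < s + 1 := Nat.lt_floor_add_one t
    apply HasDerivAt.hasDerivWithinAt
    have hv := hval s t h1 h2
    have hut : u t (fun j => J (c j) t) = deriv S (t - s) • V s (Xs V a s) := by
      rw [h.hu s t h1 h2.le]
      congr 1
      obtain ⟨B, hB0, hB⟩ := h.hV s
      apply hB
      intro j hj
      have := congrFun hv j
      rw [this]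
      simp [hB0 j hj]
    rw [hut, hasDerivAt_pi]
    intro j
    have d := J_hasDeriv_iter (c j) 0 t
    rw [iteratedDeriv_zero, J_iter] at d
    have hfl : ⌊t⌋ = (s:ℤ) := by
      rw [Int.floor_eq_iff]; push_cast; exact ⟨h1, h2⟩
    rw [hfl, Int.fract, hfl] at d
    have e1 : c j (s:ℤ) = Xs V a s j := by simp [hc]
    have e2 : c j ((s:ℤ)+1) = Xs V a s j + V s (Xs V a s) j := by
      have : ((s:ℤ)+1).toNat = s + 1 := by omega
      simp only [hc, this]
      rfl
    rw [e1, e2, iteratedDeriv_one] at d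
    refine d.congr_deriv ?_
    simp only [Pi.smul_apply, smul_eq_mul]
    push_cast
    ring

end Vale.Agent.P113
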