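import Mathlib

set_option linter.unusedSectionVars false
set_option linter.unusedVariables false

open MeasureTheory Filter Topology Set Function

namespace Vale.Agent.P113

abbrev E := Fin 3 → ℝ

def ev (j : Fin 3) : E := Pi.single j 1

theorem div_zero (Φ : Fin 3 → E → ℝ) (Φ' : Fin 3 → E → E →L[ℝ] ℝ)
    (hd : ∀ i x, HasFDerivAt (Φ i) (Φ' i x) x) (hc : ∀ i, Continuous fun x => Φ' i x (ev i))
    (hper : ∀ i x, Φ i (x + ev i) = Φ i x) :
    ∫ x in Icc (0:E) 1, ∑ i, Φ' i x (ev i) = 0 := by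
  have hcont : ∀ i, Continuous (Φ i) := fun i => continuous_iff_continuousAt.2 fun x => (hd i x).continuousAt
  have h := integral_divergence_of_hasFDerivAt_off_countable' (n := 2) (0 : Fin 3 → ℝ) 1
    (by intro i; simp) Φ Φ' ∅ countable_empty (fun i => (hcont i).continuousOn)
    (fun x _ i => hd i x)
    ((continuous_finsetSum _ fun i _ => hc i).continuousOn.integrableOn_compact isCompact_Icc)
  simp only [ev] at *
  rw [h]
  apply Finset.sum_eq_zero
  intro i _
  rw [sub_eq_zero]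
  congr 1
  funext x
  have hp := hper i (i.insertNth ((0:Fin 3 → ℝ) i) x)
  rw [← hp]
  congr 1
  funext j
  rcases Fin.eq_self_or_eq_succAbove i j with h | ⟨k, h⟩
  · subst h; simp
  · subst h; simp [Fin.succAbove_ne]

/-- spatial energy inequality at a fixed time -/
theorem energy_ineq (ν C : ℝ) (hν : 0 ≤ ν) (hC : 0 ≤ C) (v w wt : E → E) (r : E → ℝ)
    (Du Dv Dw : E → E →L[ℝ] E) (D2w : E → E →L[ℝ] E →L[ℝ] E) (Dr : E → E →L[ℝ] ℝ)
    (hv : ∀ x, HasFDerivAt v (Dv x) x) (hw : ∀ x, HasFDerivAt w (Dw x) x)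
    (hDw : ∀ x, HasFDerivAt Dw (D2w x) x) (hr : ∀ x, HasFDerivAt r (Dr x) x)
    (cDu : Continuous Du) (cDv : Continuous Dv) (cD2w : ∀ j i, Continuous fun x => D2w x (ev j) (ev j) i) (cDr : Continuous Dr)
    (cwt : Continuous wt)
    (pv : ∀ x i, v (x + ev i) = v x) (pw : ∀ x i, w (x + ev i) = w x) (pr : ∀ x i, r (x + ev i) = r x)
    (eqn : ∀ x i, wt x i + ∑ j, v x j * Dw x (ev j) i + ∑ j, w x j * Du x (ev j) i =
      - Dr x (ev i) + ν * ∑ j, D2w x (ev j) (ev j) i)
    (dv : ∀ x, ∑ j, Dv x (ev j) j = 0) (dw : ∀ x, ∑ j, Dw x (ev j) j = 0)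
    (bd : ∀ x ∈ Icc (0:E) 1, ∀ i j, |Du x (ev j) i| ≤ C) :
    ∫ x in Icc (0:E) 1, ∑ i, w x i * wt x i ≤ (3 * C) * ∫ x in Icc (0:E) 1, ∑ i, (w x i)^2 := by
  have cv : Continuous v := continuous_iff_continuousAt.2 fun x => (hv x).continuousAt
  have cw : Continuous w := continuous_iff_continuousAt.2 fun x => (hw x).continuousAt
  have cDw : Continuous Dw := continuous_iff_continuousAt.2 fun x => (hDw x).continuousAt
  have cr : Continuous r := continuous_iff_continuousAt.2 fun x => (hr x).continuousAt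
  have pDw : ∀ x i, Dw (x + ev i) = Dw x := by
    intro x i
    have h1 : HasFDerivAt (fun y => w (y + ev i)) (Dw (x + ev i)) x := by
      have := (hw (x + ev i)).comp x ((hasFDerivAt_id x).add_const (ev i))
      simpa using this
    have h2 : (fun y => w (y + ev i)) = w := funext fun y => pw y i
    rw [h2] at h1
    exact h1.unique (hw x)
  -- scalar derivatives
  have hwi : ∀ x i, HasFDerivAt (fun x => w x i) ((ContinuousLinearMap.proj i).comp (Dw x)) x := fun x i =>
    (ContinuousLinearMap.proj (R := ℝ) (φ := fun _ : Fin 3 => ℝ) i).hasFDerivAt.comp x (hw x)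
  have hvi : ∀ x i, HasFDerivAt (fun x => v x i) ((ContinuousLinearMap.proj i).comp (Dv x)) x := fun x i =>
    (ContinuousLinearMap.proj (R := ℝ) (φ := fun _ : Fin 3 => ℝ) i).hasFDerivAt.comp x (hv x)
  have hDwi : ∀ x j i, HasFDerivAt (fun x => Dw x (ev j) i)
      ((ContinuousLinearMap.proj i).comp ((D2w x).flip (ev j))) x := by
    intro x j i
    have h1 : HasFDerivAt (fun x => Dw x (ev j)) ((D2w x).flip (ev j)) x := by
      have e : (ContinuousLinearMap.apply ℝ E (ev j)).comp (D2w x) = (D2w x).flip (ev j) := by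
        ext; rfl
      rw [← e]
      exact (ContinuousLinearMap.apply ℝ E (ev j)).hasFDerivAt.comp x (hDw x)
    exact (ContinuousLinearMap.proj (R := ℝ) (φ := fun _ : Fin 3 => ℝ) i).hasFDerivAt.comp x h1
  set Φ : Fin 3 → E → ℝ := fun j x =>
    -(1/2) * (∑ i, w x i * w x i) * v x j - r x * w x j + ν * ∑ i, w x i * Dw x (ev j) i with hΦ
  have hΦd : ∀ j x, ∃ L : E →L[ℝ] ℝ, HasFDerivAt (Φ j) L x ∧
      L (ev j) = - (∑ i, w x i * Dw x (ev j) i) * v x j - 1/2 * (∑ i, w x i * w x i) * Dv x (ev j) j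
        - Dr x (ev j) * w x j - r x * Dw x (ev j) j
        + ν * ∑ i, ((Dw x (ev j) i)^2 + w x i * D2w x (ev j) (ev j) i) := by
    intro j x
    have s1 : HasFDerivAt (fun x => ∑ i, w x i * w x i) (∑ i, (w x i • ((ContinuousLinearMap.proj i).comp (Dw x)) + w x i • ((ContinuousLinearMap.proj i).comp (Dw x)))) x :=
      HasFDerivAt.fun_sum fun i _ => (hwi x i).mul (hwi x i)
    have s2 : HasFDerivAt (fun x => ∑ i, w x i * Dw x (ev j) i) (∑ i, (w x i • ((ContinuousLinearMap.proj i).comp ((D2w x).flip (ev j))) + Dw x (ev j) i • ((ContinuousLinearMap.proj i).comp (Dw x)))) x :=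
      HasFDerivAt.fun_sum fun i _ => (hwi x i).mul (hDwi x j i)
    have s3 := (((s1.const_mul (-(1/2))).mul (hvi x j)).sub ((hr x).mul (hwi x j))).add (s2.const_mul ν)
    refine ⟨_, s3, ?_⟩
    simp [Finset.sum_add_distrib, Fin.sum_univ_three]
    ring
  choose Φ' hΦ' hΦe using hΦd
  have hce : ∀ j, Continuous fun x => Φ' j x (ev j) := by
    intro j
    have : (fun x => Φ' j x (ev j)) = fun x => - (∑ i, w x i * Dw x (ev j) i) * v x j - 1/2 * (∑ i, w x i * w x i) * Dv x (ev j) j
        - Dr x (ev j) * w x j - r x * Dw x (ev j) j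
        + ν * ∑ i, ((Dw x (ev j) i)^2 + w x i * D2w x (ev j) (ev j) i) := funext fun x => hΦe j x
    rw [this]
    have c1 := cD2w j
    fun_prop
  have hdiv := div_zero Φ Φ' hΦ' hce (by
    intro j x
    simp only [hΦ, pw, pv, pr, pDw])
  -- pointwise identity
  have hpt : ∀ x, ∑ i, w x i * wt x i = (∑ j, Φ' j x (ev j)) - ν * (∑ j, ∑ i, (Dw x (ev j) i)^2)
      - ∑ i, w x i * ∑ j, w x j * Du x (ev j) i := by
    intro x
    have e1 : ∀ i, wt x i = - Dr x (ev i) + ν * ∑ j, D2w x (ev j) (ev j) i - ∑ j, v x j * Dw x (ev j) i - ∑ j, w x j * Du x (ev j) i := fun i => by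
      have := eqn x i; linarith
    have d1 := dv x
    have d2 := dw x
    simp only [hΦe, e1]
    simp only [Fin.sum_univ_three] at *
    linear_combination (1/2 * (w x 0 * w x 0 + w x 1 * w x 1 + w x 2 * w x 2)) * d1 + r x * d2
  have hbd : ∀ x ∈ Icc (0:E) 1, ∑ i, w x i * wt x i ≤ (∑ j, Φ' j x (ev j)) + (3*C) * ∑ i, (w x i)^2 := by
    intro x hx
    rw [hpt x]
    have n1 : 0 ≤ ν * (∑ j, ∑ i, (Dw x (ev j) i)^2) := mul_nonneg hν (Finset.sum_nonneg fun j _ => Finset.sum_nonneg fun i _ => sq_nonneg _)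
    have n2 : - ∑ i, w x i * ∑ j, w x j * Du x (ev j) i ≤ (3*C) * ∑ i, (w x i)^2 := by
      have m : ∀ i j, - (w x i * (w x j * Du x (ev j) i)) ≤ C * ((w x i)^2 + (w x j)^2)/2 := by
        intro i j
        have b := bd x hx i j
        have a1 : - (w x i * (w x j * Du x (ev j) i)) ≤ |w x i| * |w x j| * |Du x (ev j) i| := by
          rw [← abs_mul, ← abs_mul, mul_assoc]; exact neg_le_abs _
        have a2 : |w x i| * |w x j| * |Du x (ev j) i| ≤ |w x i| * |w x j| * C :=
          mul_le_mul_of_nonneg_left b (by positivity)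
        have a3 : |w x i| * |w x j| ≤ ((w x i)^2 + (w x j)^2)/2 := by
          nlinarith [sq_nonneg (|w x i| - |w x j|), sq_abs (w x i), sq_abs (w x j)]
        nlinarith
      have m00 := m 0 0; have m01 := m 0 1; have m02 := m 0 2
      have m10 := m 1 0; have m11 := m 1 1; have m12 := m 1 2
      have m20 := m 2 0; have m21 := m 2 1; have m22 := m 2 2
      simp only [Fin.sum_univ_three]
      nlinarith
    linarith
  have i1 : IntegrableOn (fun x => ∑ i, w x i * wt x i) (Icc (0:E) 1) :=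
    (by fun_prop : Continuous fun x => ∑ i, w x i * wt x i).continuousOn.integrableOn_compact isCompact_Icc
  have i2 : IntegrableOn (fun x => ∑ j, Φ' j x (ev j)) (Icc (0:E) 1) :=
    (continuous_finsetSum _ fun j _ => hce j).continuousOn.integrableOn_compact isCompact_Icc
  have i3 : IntegrableOn (fun x => (3*C) * ∑ i, (w x i)^2) (Icc (0:E) 1) :=
    (by fun_prop : Continuous fun x => (3*C) * ∑ i, (w x i)^2).continuousOn.integrableOn_compact isCompact_Icc
  calc ∫ x in Icc (0:E) 1, ∑ i, w x i * wt x i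
      ≤ ∫ x in Icc (0:E) 1, ((∑ j, Φ' j x (ev j)) + (3*C) * ∑ i, (w x i)^2) :=
        setIntegral_mono_on i1 (i2.add i3) measurableSet_Icc hbd
    _ = (3 * C) * ∫ x in Icc (0:E) 1, ∑ i, (w x i)^2 := by
        rw [integral_add i2 i3, hdiv, zero_add, integral_const_mul]


structure CD (ν : ℝ) (f : ℝ → E → E) (I : Set ℝ) (u : ℝ → E → E) (p : ℝ → E → ℝ)
    (ut : ℝ → E → E) (Du : ℝ → E → E →L[ℝ] E) (D2u : ℝ → E → E →L[ℝ] E →L[ℝ] E)
    (Dp : ℝ → E → E →L[ℝ] ℝ) : Prop where
  cu : ContinuousOn (uncurry u) (I ×ˢ univ)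
  cut : ContinuousOn (uncurry ut) (I ×ˢ univ)
  cDu : ContinuousOn (uncurry Du) (I ×ˢ univ)
  cD2u : ContinuousOn (uncurry D2u) (I ×ˢ univ)
  cp : ContinuousOn (uncurry p) (I ×ˢ univ)
  cDp : ContinuousOn (uncurry Dp) (I ×ˢ univ)
  dt : ∀ t ∈ I, ∀ x, HasDerivWithinAt (fun s => u s x) (ut t x) I t
  dx : ∀ t ∈ I, ∀ x, HasFDerivAt (u t) (Du t x) x
  dxx : ∀ t ∈ I, ∀ x, HasFDerivAt (Du t) (D2u t x) x
  dp : ∀ t ∈ I, ∀ x, HasFDerivAt (p t) (Dp t x) x
  per : ∀ t ∈ I, ∀ x (k : Fin 3 → ℤ), u t (x + fun i => (k i : ℝ)) = u t x ∧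
    p t (x + fun i => (k i : ℝ)) = p t x
  eqn : ∀ t ∈ I, ∀ x i, ut t x i + ∑ j, u t x j * Du t x (ev j) i =
    - Dp t x (ev i) + ν * ∑ j, D2u t x (ev j) (ev j) i + f t x i
  div : ∀ t ∈ I, ∀ x, ∑ j, Du t x (ev j) j = 0
  init : ∀ x, u 0 x = 0
  mean : ∀ t ∈ I, ∫ x in Icc (0:E) 1, p t x = 0

theorem cl_mem {T : ℝ} (hT : 0 < T) (t : ℝ) : max 0 (min T t) ∈ Icc (0:ℝ) T :=
  ⟨le_max_left _ _, max_le hT.le (min_le_left _ _)⟩

theorem cl_eq {T t : ℝ} (ht : t ∈ Icc (0:ℝ) T) : max 0 (min T t) = t := by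
  rw [min_eq_right ht.2, max_eq_right ht.1]

theorem Q_closure : Icc (0:E) 1 ⊆ closure (interior (Icc (0:E) 1)) := by
  have h : (interior (Icc (0:E) 1)).Nonempty := by
    refine ⟨fun _ => 1/2, ?_⟩
    rw [mem_interior]
    refine ⟨Set.pi univ fun _ => Ioo (0:ℝ) 1, ?_, isOpen_set_pi finite_univ (fun _ _ => isOpen_Ioo), ?_⟩
    · intro x hx
      constructor
      · intro i; exact (hx i (mem_univ _)).1.le
      · intro i; exact (hx i (mem_univ _)).2.le
    · intro i _; constructor <;> norm_num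
  rw [(convex_Icc (𝕜 := ℝ) (0:E) 1).closure_interior_eq_closure_of_nonempty_interior h]
  exact subset_closure

theorem int_repr (x : E) : ∃ k : Fin 3 → ℤ, ∃ y ∈ Icc (0:E) 1, x = y + fun i => (k i : ℝ) := by
  refine ⟨fun i => ⌊x i⌋, fun i => Int.fract (x i), ⟨fun i => Int.fract_nonneg _, fun i => (Int.fract_lt_one _).le⟩, ?_⟩
  funext i
  exact (Int.fract_add_floor (x i)).symm

theorem zero_of_int_zero {g : E → ℝ} (hg : Continuous g) (h0 : ∀ x, 0 ≤ g x)
    (hp : ∀ x (k : Fin 3 → ℤ), g (x + fun i => (k i : ℝ)) = g x) (hi : ∫ x in Icc (0:E) 1, g x = 0) :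
    ∀ x, g x = 0 := by
  have h1 : g =ᵐ[volume.restrict (Icc (0:E) 1)] 0 := by
    rw [← setIntegral_eq_zero_iff_of_nonneg_ae (Filter.Eventually.of_forall h0)
      (hg.continuousOn.integrableOn_compact isCompact_Icc)]
    exact hi
  have h2 : EqOn g 0 (Icc (0:E) 1) :=
    MeasureTheory.Measure.eqOn_of_ae_eq h1 hg.continuousOn continuousOn_const Q_closure
  intro x
  obtain ⟨k, y, hy, rfl⟩ := int_repr x
  rw [hp]
  exact h2 hy

theorem slice {F : Type*} [TopologicalSpace F] {g : ℝ → E → F} {I : Set ℝ} (h : ContinuousOn (uncurry g) (I ×ˢ univ))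
    {t : ℝ} (ht : t ∈ I) : Continuous (g t) := by
  have := h.comp_continuous (f := fun x : E => (t, x)) (by fun_prop) (by simp [ht])
  exact this

theorem clc {F : Type*} [TopologicalSpace F] {g : ℝ → E → F} {T : ℝ} (hT : 0 < T)
    (h : ContinuousOn (uncurry g) (Icc 0 T ×ˢ univ)) :
    Continuous (uncurry fun (t : ℝ) (x : E) => g (max 0 (min T t)) x) := by
  have := h.comp_continuous (f := fun z : ℝ × E => (max 0 (min T z.1), z.2)) (by fun_prop)
    (fun z => ⟨cl_mem hT z.1, mem_univ _⟩)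
  exact this

theorem fubini {G : ℝ → E → ℝ} (hG : Continuous (uncurry G)) {t : ℝ} (ht : 0 ≤ t) :
    ∫ x in Icc (0:E) 1, ∫ s in (0:ℝ)..t, G s x = ∫ s in (0:ℝ)..t, ∫ x in Icc (0:E) 1, G s x := by
  simp only [intervalIntegral.integral_of_le ht]
  rw [integral_integral_swap]
  rw [Measure.prod_restrict]
  have hc : Continuous (uncurry fun (x : E) (s : ℝ) => G s x) :=
    hG.comp (by fun_prop : Continuous fun z : E × ℝ => (z.2, z.1))
  have : IntegrableOn (uncurry fun (x : E) (s : ℝ) => G s x) (Icc (0:E) 1 ×ˢ Icc (0:ℝ) t) (volume.prod volume) :=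
    hc.continuousOn.integrableOn_compact (isCompact_Icc.prod isCompact_Icc)
  exact this.mono_set (prod_mono le_rfl Ioc_subset_Icc_self)

theorem gronwall0 {e h : ℝ → ℝ} {T C : ℝ} (hT : 0 < T) (hC : 0 ≤ C) (he : Continuous e) (hh : Continuous h)
    (e0 : ∀ t, 0 ≤ e t) (hint : ∀ t ∈ Icc 0 T, e t = ∫ s in (0:ℝ)..t, h s)
    (hle : ∀ t ∈ Icc 0 T, h t ≤ C * e t) : ∀ t ∈ Icc 0 T, e t = 0 := by
  set G : ℝ → ℝ := fun t => ∫ s in (0:ℝ)..t, e s with hG
  have hGd : ∀ t, HasDerivAt G (e t) t := fun t =>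
    intervalIntegral.integral_hasDerivAt_right (he.intervalIntegrable _ _)
      (he.stronglyMeasurableAtFilter _ _) he.continuousAt
  have hle2 : ∀ t ∈ Icc 0 T, e t ≤ C * G t := by
    intro t ht
    rw [hint t ht]
    have : C * G t = ∫ s in (0:ℝ)..t, C * e s := by
      rw [intervalIntegral.integral_const_mul]
    rw [this]
    apply intervalIntegral.integral_mono_on ht.1 (hh.intervalIntegrable _ _)
      ((continuous_const.mul he).intervalIntegrable _ _)
    intro s hs
    exact hle s ⟨hs.1, hs.2.trans ht.2⟩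
  have hFd : ∀ t, HasDerivAt (fun t => G t * Real.exp (-(C*t))) (e t * Real.exp (-(C*t)) + G t * (Real.exp (-(C*t)) * (-C))) t := by
    intro t
    have h1 : HasDerivAt (fun t : ℝ => -(C*t)) (-C) t := by
      simpa using ((hasDerivAt_id t).const_mul C).fun_neg
    exact (hGd t).mul h1.exp
  have hanti : AntitoneOn (fun t => G t * Real.exp (-(C*t))) (Icc 0 T) := by
    apply antitoneOn_of_deriv_nonpos (convex_Icc 0 T)
    · exact fun t _ => (hFd t).continuousAt.continuousWithinAt
    · intro t _; exact (hFd t).differentiableAt.differentiableWithinAt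
    · intro t ht
      rw [interior_Icc] at ht
      rw [(hFd t).deriv]
      have := hle2 t ⟨ht.1.le, ht.2.le⟩
      have hpos := Real.exp_pos (-(C*t))
      nlinarith
  intro t ht
  have h0 := hanti (left_mem_Icc.2 hT.le) ht ht.1
  have hG0 : G 0 = 0 := by simp [hG]
  simp only [hG0, zero_mul] at h0
  have hpos := Real.exp_pos (-(C*t))
  have hGle : G t ≤ 0 := by
    by_contra hcon
    push Not at hcon
    have := mul_pos hcon hpos
    linarith
  have := hle2 t ht
  have := e0 t
  nlinarith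

theorem unique_classical {ν : ℝ} {f : ℝ → E → E} {T : ℝ} {u v : ℝ → E → E} {p q : ℝ → E → ℝ}
    {ut vt : ℝ → E → E} {Du Dv : ℝ → E → E →L[ℝ] E} {D2u D2v : ℝ → E → E →L[ℝ] E →L[ℝ] E}
    {Dp Dq : ℝ → E → E →L[ℝ] ℝ} (hν : 0 ≤ ν) (hT : 0 < T)
    (h1 : CD ν f (Icc 0 T) u p ut Du D2u Dp) (h2 : CD ν f (Icc 0 T) v q vt Dv D2v Dq) :
    ∀ t ∈ Icc 0 T, ∀ x, v t x = u t x ∧ q t x = p t x := by
  -- bound on the gradient
  obtain ⟨C, hC⟩ := (isCompact_Icc.prod isCompact_Icc : IsCompact (Icc (0:ℝ) T ×ˢ Icc (0:E) 1)).exists_bound_of_continuousOn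
    (h1.cDu.mono (prod_mono le_rfl (subset_univ _)))
  have hC0 : 0 ≤ C := le_trans (norm_nonneg _) (hC (0, 0) ⟨left_mem_Icc.2 hT.le, left_mem_Icc.2 (fun _ => zero_le_one)⟩)
  have hbd : ∀ t ∈ Icc 0 T, ∀ x ∈ Icc (0:E) 1, ∀ i j, |Du t x (ev j) i| ≤ C := by
    intro t ht x hx i j
    have a1 := hC (t, x) ⟨ht, hx⟩
    have a2 : ‖Du t x (ev j)‖ ≤ ‖Du t x‖ * ‖ev j‖ := (Du t x).le_opNorm _
    have a3 : ‖ev j‖ = 1 := by
      have := Pi.norm_single (G := fun _ : Fin 3 => ℝ) (i := j) (1:ℝ)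
      rw [norm_one] at this
      exact this
    have a4 : ‖Du t x (ev j) i‖ ≤ ‖Du t x (ev j)‖ := norm_le_pi_norm _ i
    rw [a3, mul_one] at a2
    rw [← Real.norm_eq_abs]
    exact a4.trans (a2.trans a1)
  set w : ℝ → E → E := fun t x => v t x - u t x with hw
  set wt : ℝ → E → E := fun t x => vt t x - ut t x with hwt
  have cw : ContinuousOn (uncurry w) (Icc 0 T ×ˢ univ) := h2.cu.sub h1.cu
  have cwt : ContinuousOn (uncurry wt) (Icc 0 T ×ˢ univ) := h2.cut.sub h1.cut
  have hsp : ∀ x (i : Fin 3), x + ev i = x + fun j => ((Pi.single i 1 : Fin 3 → ℤ) j : ℝ) := by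
    intro x i
    congr 1
    funext j
    by_cases h : j = i
    · subst h; simp [ev]
    · simp [ev, Pi.single_apply, h]
  have energy : ∀ t ∈ Icc 0 T, ∫ x in Icc (0:E) 1, ∑ i, w t x i * wt t x i ≤
      (3 * C) * ∫ x in Icc (0:E) 1, ∑ i, (w t x i)^2 := by
    intro t ht
    apply energy_ineq ν C hν hC0 (v t) (w t) (wt t) (fun x => q t x - p t x) (Du t) (Dv t)
      (fun x => Dv t x - Du t x) (fun x => D2v t x - D2u t x) (fun x => Dq t x - Dp t x)
      (h2.dx t ht) (fun x => (h2.dx t ht x).sub (h1.dx t ht x)) (fun x => (h2.dxx t ht x).sub (h1.dxx t ht x))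
      (fun x => (h2.dp t ht x).sub (h1.dp t ht x)) (slice h1.cDu ht) (slice h2.cDu ht)
      (fun j i => by
        have c1 := slice h2.cD2u ht
        have c2 := slice h1.cD2u ht
        have e1 : Continuous fun x => D2v t x (ev j) (ev j) i := by fun_prop
        have e2 : Continuous fun x => D2u t x (ev j) (ev j) i := by fun_prop
        exact e1.sub e2) ((slice h2.cDp ht).sub (slice h1.cDp ht))
      (slice cwt ht)
    · intro x i; rw [hsp]; exact (h2.per t ht x _).1
    · intro x i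
      simp only [hw]
      rw [hsp, (h2.per t ht x _).1, (h1.per t ht x _).1]
    · intro x i
      rw [hsp, (h2.per t ht x _).2, (h1.per t ht x _).2]
    · intro x i
      have a := h1.eqn t ht x i
      have b := h2.eqn t ht x i
      simp only [hw, hwt, Fin.sum_univ_three, sub_apply, Pi.sub_apply] at *
      linear_combination b - a
    · exact h2.div t ht
    · intro x
      have a := h1.div t ht x
      have b := h2.div t ht x
      simp only [Fin.sum_univ_three, sub_apply, Pi.sub_apply] at *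
      linear_combination b - a
    · exact hbd t ht
  set G : ℝ → E → ℝ := fun s x => ∑ i, 2 * (w (max 0 (min T s)) x i * wt (max 0 (min T s)) x i) with hG
  have cwc := clc hT cw
  have cwtc := clc hT cwt
  have cG : Continuous (uncurry G) := by
    have : uncurry G = fun z : ℝ × E => ∑ i, 2 * ((uncurry fun (t : ℝ) (x : E) => w (max 0 (min T t)) x) z i *
      (uncurry fun (t : ℝ) (x : E) => wt (max 0 (min T t)) x) z i) := rfl
    rw [this]
    exact continuous_finsetSum _ fun i _ => continuous_const.mul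
      (((continuous_apply i).comp cwc).mul ((continuous_apply i).comp cwtc))
  set ec : ℝ → ℝ := fun t => ∫ x in Icc (0:E) 1, ∑ i, (w (max 0 (min T t)) x i)^2 with hec
  have cec : Continuous ec := by
    apply continuous_parametric_integral_of_continuous _ isCompact_Icc
    have : (uncurry fun (t : ℝ) (x : E) => ∑ i, (w (max 0 (min T t)) x i)^2) = fun z : ℝ × E => ∑ i, ((uncurry fun (t : ℝ) (x : E) => w (max 0 (min T t)) x) z i)^2 := rfl
    rw [this]
    exact continuous_finsetSum _ fun i _ => ((continuous_apply i).comp cwc).pow 2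
  have chc : Continuous fun s => ∫ x in Icc (0:E) 1, G s x :=
    continuous_parametric_integral_of_continuous cG isCompact_Icc
  have ftc : ∀ t ∈ Icc 0 T, ∀ x, ∑ i, (w t x i)^2 = ∫ s in (0:ℝ)..t, G s x := by
    intro t ht x
    have cGx : Continuous fun s => G s x := cG.comp (by fun_prop : Continuous fun s : ℝ => (s, x))
    have hcont : ContinuousOn (fun s => ∑ i, (w s x i)^2) (Icc 0 t) := by
      have c1 : ContinuousOn (fun s => w s x) (Icc 0 t) := by
        have := cw.comp (f := fun s : ℝ => (s, x)) (s := Icc 0 t) (by fun_prop)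
          (fun s hs => ⟨⟨hs.1, hs.2.trans ht.2⟩, mem_univ _⟩)
        exact this
      fun_prop
    have key := intervalIntegral.integral_eq_sub_of_hasDerivAt_of_le ht.1 hcont (f' := fun s => G s x) (by
      intro s hs
      have hsI : s ∈ Icc 0 T := ⟨hs.1.le, (hs.2.trans_le ht.2).le⟩
      have hnh : Icc 0 T ∈ 𝓝 s := Icc_mem_nhds hs.1 (hs.2.trans_le ht.2)
      have d1 : HasDerivAt (fun s => w s x) (wt s x) s :=
        ((h2.dt s hsI x).sub (h1.dt s hsI x)).hasDerivAt hnh
      have d2 : ∀ i, HasDerivAt (fun s => w s x i) (wt s x i) s := fun i => (hasDerivAt_pi.1 d1) i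
      have d3 : HasDerivAt (fun s => ∑ i, (w s x i)^2) (∑ i, ((2:ℕ) : ℝ) * (w s x i)^(2-1) * wt s x i) s :=
        HasDerivAt.fun_sum fun i _ => (d2 i).pow 2
      refine d3.congr_deriv ?_
      simp only [hG, cl_eq hsI]
      apply Finset.sum_congr rfl
      intro i _
      push_cast
      ring) (cGx.intervalIntegrable _ _)
    rw [key]
    have z : ∀ i, w 0 x i = 0 := by
      intro i; simp [hw, h1.init, h2.init]
    simp [z]
  have hecint : ∀ t ∈ Icc 0 T, ec t = ∫ s in (0:ℝ)..t, ∫ x in Icc (0:E) 1, G s x := by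
    intro t ht
    rw [← fubini cG ht.1]
    simp only [hec]
    apply setIntegral_congr_fun measurableSet_Icc
    intro x _
    simp only [cl_eq ht]
    exact ftc t ht x
  have hle : ∀ t ∈ Icc 0 T, ∫ x in Icc (0:E) 1, G t x ≤ (6 * C) * ec t := by
    intro t ht
    have a := energy t ht
    have b : ∫ x in Icc (0:E) 1, G t x = 2 * ∫ x in Icc (0:E) 1, ∑ i, w t x i * wt t x i := by
      rw [← integral_const_mul]
      apply setIntegral_congr_fun measurableSet_Icc
      intro x _
      simp only [hG, cl_eq ht, Finset.mul_sum]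
    have c : ec t = ∫ x in Icc (0:E) 1, ∑ i, (w t x i)^2 := by
      simp only [hec, cl_eq ht]
    rw [b, c]
    linarith
  have e0 : ∀ t, 0 ≤ ec t := fun t => integral_nonneg fun x => Finset.sum_nonneg fun i _ => sq_nonneg _
  have hzero := gronwall0 hT (by positivity : 0 ≤ 6 * C) cec chc e0 hecint hle
  have hw0 : ∀ t ∈ Icc 0 T, ∀ x, w t x = 0 := by
    intro t ht x
    have a := hzero t ht
    simp only [hec, cl_eq ht] at a
    have cwt' := slice cw ht
    have b := zero_of_int_zero (g := fun x => ∑ i, (w t x i)^2) (by fun_prop)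
      (fun x => Finset.sum_nonneg fun i _ => sq_nonneg _) (by
        intro x k
        simp only [hw, (h2.per t ht x _).1, (h1.per t ht x _).1]) a x
    funext i
    have c := (Finset.sum_eq_zero_iff_of_nonneg (fun i _ => sq_nonneg _)).1 b i (Finset.mem_univ _)
    simpa using c
  intro t ht x
  have hvu : ∀ s ∈ Icc 0 T, ∀ x, v s x = u s x := fun s hs x => sub_eq_zero.1 (hw0 s hs x)
  refine ⟨hvu t ht x, ?_⟩
  -- pressure
  have hvt : ∀ x, vt t x = ut t x := by
    intro x
    have a : HasDerivWithinAt (fun s => v s x) (ut t x) (Icc 0 T) t :=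
      (h1.dt t ht x).congr (fun s hs => hvu s hs x) (hvu t ht x)
    exact (uniqueDiffOn_Icc hT t ht).eq_deriv _ (h2.dt t ht x) a
  have hfun : v t = u t := funext fun x => hvu t ht x
  have hDv : ∀ x, Dv t x = Du t x := by
    intro x
    have a := h2.dx t ht x
    rw [hfun] at a
    exact a.unique (h1.dx t ht x)
  have hDfun : Dv t = Du t := funext hDv
  have hD2v : ∀ x, D2v t x = D2u t x := by
    intro x
    have a := h2.dxx t ht x
    rw [hDfun] at a
    exact a.unique (h1.dxx t ht x)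
  have hDq : ∀ x, Dq t x - Dp t x = 0 := by
    intro x
    ext1 y
    have hy : y = ∑ i, y i • ev i := by
      funext j
      simp [ev, Finset.sum_apply, Pi.single_apply]
    have hi : ∀ i, Dq t x (ev i) = Dp t x (ev i) := by
      intro i
      have a := h1.eqn t ht x i
      have b := h2.eqn t ht x i
      simp only [hvt, hDv, hD2v, hvu t ht] at b
      linarith
    rw [hy]
    simp [hi]
  have hd : ∀ x, HasFDerivAt (fun x => q t x - p t x) (0 : E →L[ℝ] ℝ) x := by
    intro x
    rw [← hDq x]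
    exact (h2.dp t ht x).sub (h1.dp t ht x)
  have hconst : ∀ y, q t y - p t y = q t x - p t x := by
    intro y
    exact is_const_of_fderiv_eq_zero (𝕜 := ℝ) (fun z => (hd z).differentiableAt) (fun z => (hd z).fderiv) y x
  have hm : ∫ y in Icc (0:E) 1, (q t y - p t y) = 0 := by
    rw [integral_sub ((slice h2.cp ht).continuousOn.integrableOn_compact isCompact_Icc)
      ((slice h1.cp ht).continuousOn.integrableOn_compact isCompact_Icc), h2.mean t ht, h1.mean t ht, sub_zero]
  simp only [hconst] at hm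
  rw [setIntegral_const] at hm
  have hvol : (volume : Measure E).real (Icc (0:E) 1) = 1 := by
    rw [Measure.real, Real.volume_Icc_pi]
    simp
  rw [hvol] at hm
  simp at hm
  linarith

end Vale.Agent.P113
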